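import Vale.Agent.P011.E6I.H637.LP
import Vale.Agent.P011.E6I.Gen6

/-!
The division algebra `D ⊗ Q` of degree six.
-/

open Matrix

set_option linter.unusedSectionVars false

namespace Vale.Agent.P011.E6W.H183

open Vale.Agent.P011.MPQ Vale.Agent.P011.D4 Vale.Agent.P011.D4.Oct Vale.Agent.P011.E6
open Vale.Agent.P011.E6I

variable {k L : Type} [Field k] [NumberField k] [Field L] [NumberField L] [Algebra k L]
  {ρ : L ≃ₐ[k] L} {lam : kˣ} {a b c : kˣ}

/-- The division algebra `D ⊗ Q`. -/
def BB (_ : Hyp ρ lam a b c) : Type := ↥(dq ρ lam a b)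

variable (H : Hyp ρ lam a b c)

noncomputable instance ringBB : Ring (BB H) := inferInstanceAs (Ring ↥(dq ρ lam a b))

noncomputable instance algBB : Algebra k (BB H) := inferInstanceAs (Algebra k ↥(dq ρ lam a b))

/-- The matrix of an element. -/
def toM : BB H →ₐ[k] MQ L a b := (dq ρ lam a b).val

theorem toM_injective : Function.Injective (toM H) := Subtype.val_injective

theorem inD_toM (x : BB H) : InD ρ lam (toM H x) := x.2

/-- The element with the given matrix. -/
def ofM {m : MQ L a b} (hm : InD ρ lam m) : BB H := ⟨m, hm⟩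

@[simp] theorem toM_ofM {m : MQ L a b} (hm : InD ρ lam m) : toM H (ofM H hm) = m := rfl

instance : Nontrivial (BB H) := by
  refine ⟨0, 1, fun h => ?_⟩
  have h1 := congrArg (toM H) h
  rw [map_zero, map_one] at h1
  exact zero_ne_one h1

theorem isUnit_BB (x : BB H) : IsUnit x ∨ x = 0 := by
  by_cases h0 : x = 0
  · exact Or.inr h0
  · left
    have h1 : toM H x ≠ 0 := fun h => h0 (toM_injective H (by rw [h, map_zero]))
    obtain ⟨y, hy, h2, h3⟩ := inv_dq H x.2 h1
    exact ⟨⟨x, ofM H hy, toM_injective H h2, toM_injective H h3⟩, rfl⟩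

noncomputable instance divBB : DivisionRing (BB H) :=
  DivisionRing.ofIsUnitOrEqZero (isUnit_BB H)

/-! ### The dimension -/

/-- The first column. -/
noncomputable def col : BB H →ₗ[k] (Fin 3 → Qt (up L a) (up L b)) where
  toFun x i := toM H x i 0
  map_add' x y := by
    funext i
    rw [map_add]
    rfl
  map_smul' t x := by
    funext i
    rw [map_smul]
    rfl

theorem col_surjective : Function.Surjective (col H) := by
  intro y
  refine ⟨ofM H (Gn.inD_bb H y), ?_⟩
  funext i
  fin_cases i <;> rfl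

theorem col_injective : Function.Injective (col H) := by
  rw [injective_iff_map_eq_zero]
  intro x hx
  apply toM_injective H
  rw [map_zero]
  have h1 := inD_toM H x
  have h0 : ∀ i, toM H x i 0 = 0 := fun i => congrFun hx i
  generalize toM H x = m at h1 h0
  have h2 : ∀ i j, (m * (toMQ (u0 L lam) : MQ L a b)) i j =
      ((toMQ (u0 L lam) : MQ L a b) * m.map (qmap ρ)) i j := fun i j => by rw [h1]
  simp only [Gn.mul_u_apply, uq_mul_apply, Matrix.map_apply] at h2
  have h3 : ∀ i, m i 1 = 0 := by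
    intro i
    have h4 := h2 i 0
    change m i 1 = _ at h4
    rw [h4]
    fin_cases i
    · change (((up L lam)⁻¹ : Lˣ) : L) • qmap ρ (m 2 0) = 0
      rw [h0, qmap_zero, smul_zero]
    · change qmap ρ (m 0 0) = 0
      rw [h0, qmap_zero]
    · change qmap ρ (m 1 0) = 0
      rw [h0, qmap_zero]
  have h5 : ∀ i, m i 2 = 0 := by
    intro i
    have h4 := h2 i 1
    change m i 2 = _ at h4
    rw [h4]
    fin_cases i
    · change (((up L lam)⁻¹ : Lˣ) : L) • qmap ρ (m 2 1) = 0
      rw [h3, qmap_zero, smul_zero]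
    · change qmap ρ (m 0 1) = 0
      rw [h3, qmap_zero]
    · change qmap ρ (m 1 1) = 0
      rw [h3, qmap_zero]
  apply Matrix.ext
  intro i j
  fin_cases j
  · exact h0 i
  · exact h3 i
  · exact h5 i

theorem finrank_BB : Module.finrank k (BB H) = 36 := by
  have hL : FiniteDimensional k L := Module.finite_of_finrank_pos (by rw [H.h3]; norm_num)
  rw [(LinearEquiv.ofBijective (col H) ⟨col_injective H, col_surjective H⟩).finrank_eq,
    ← Module.finrank_mul_finrank k L (Fin 3 → Qt (up L a) (up L b)), H.h3, Module.finrank_pi_fintype]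
  simp only [QuaternionAlgebra.finrank_eq_four, Finset.sum_const, Finset.card_univ,
    Fintype.card_fin]
  norm_num

instance : FiniteDimensional k (BB H) :=
  Module.finite_of_finrank_pos (by rw [finrank_BB]; norm_num)

/-! ### The centre -/

theorem coe_of_comm {F : Type} [Field F] (h2 : (2 : F) ≠ 0) {a b : kˣ} [Algebra k F]
    {y : Qt (up F a) (up F b)}
    (h1 : qup F (⟨0, 1, 0, 0⟩ : Qt a b) * y = y * qup F ⟨0, 1, 0, 0⟩)
    (h3 : qup F (⟨0, 0, 1, 0⟩ : Qt a b) * y = y * qup F ⟨0, 0, 1, 0⟩) :
    y = algebraMap F (Qt (up F a) (up F b)) y.re := by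
  have f1 := congrArg QuaternionAlgebra.imJ h1
  have f2 := congrArg QuaternionAlgebra.imK h1
  have f3 := congrArg QuaternionAlgebra.imK h3
  have ha : (up F a : F) ≠ 0 := (up F a).ne_zero
  simp only [qup, map_zero, map_one, QuaternionAlgebra.imJ_mul, QuaternionAlgebra.imK_mul,
    zero_mul, mul_zero, one_mul, mul_one, zero_add, add_zero, sub_zero, zero_sub] at f1 f2 f3
  have g2 : y.imJ = 0 := by
    have : (2 : F) * y.imJ = 0 := by linear_combination f2
    exact (mul_eq_zero.mp this).resolve_left h2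
  have g3 : y.imI = 0 := by
    have : (2 : F) * y.imI = 0 := by linear_combination -f3
    exact (mul_eq_zero.mp this).resolve_left h2
  have g1 : y.imK = 0 := by
    have : (2 * (up F a : F)) * y.imK = 0 := by linear_combination f1
    exact (mul_eq_zero.mp this).resolve_left (mul_ne_zero h2 ha)
  exact QuaternionAlgebra.ext rfl g3 g2 g1

instance cenBB : Algebra.IsCentral k (BB H) := by
  refine ⟨fun x hx => ?_⟩
  rw [Subalgebra.mem_center_iff] at hx
  have h1 : ∀ m ∈ dq ρ lam a b, m * toM H x = toM H x * m := by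
    intro m hm
    have h2 := congrArg (toM H) (hx (ofM H hm))
    rwa [map_mul, map_mul] at h2
  obtain ⟨z, hz⟩ : ∃ z : Matrix (Fin 3) (Fin 3) L, toM H x = toMQ z := by
    refine ⟨(toM H x).map QuaternionAlgebra.re, ?_⟩
    apply Matrix.ext
    intro i j
    have h3 : ∀ q : Qt a b, qup L q * toM H x i j = toM H x i j * qup L q := by
      intro q
      have h4 := congrFun (congrFun (h1 _ (sc_mem q)) i) j
      simpa only [sc, Matrix.diagonal_mul, Matrix.mul_diagonal] using h4
    have e1 := h3 ⟨0, 1, 0, 0⟩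
    have e2 := h3 ⟨0, 0, 1, 0⟩
    exact coe_of_comm two_ne_zero e1 e2
  have hz0 : InD0 ρ lam z := by
    rw [← E6I.inD_toMQ (a := a) (b := b), ← hz]
    exact inD_toM H x
  obtain ⟨s, hs⟩ := d0_central H (x := toM H x) ⟨z, hz0, hz⟩ fun y hy => h1 y (d0_le hy)
  refine Algebra.mem_bot.mpr ⟨s, toM_injective H ?_⟩
  rw [hs, AlgHom.commutes, Algebra.algebraMap_eq_smul_one]

/-! ### The splitting -/

theorem spl2_algebraMap (f : Qt (up L a) (up L b) →ₐ[L] Matrix (Fin 2) (Fin 2) (AlgebraicClosure L))
    (t : k) : H64.spl2 f (algebraMap k (MQ L a b) t) =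
      algebraMap k (Matrix (Fin 3 × Fin 2) (Fin 3 × Fin 2) (AlgebraicClosure L)) t := by
  have h1 : algebraMap k (Qt (up L a) (up L b)) t =
      algebraMap L (Qt (up L a) (up L b)) (algebraMap k L t) := by
    rw [Algebra.algebraMap_eq_smul_one, Algebra.algebraMap_eq_smul_one, algebraMap_smul]
  ext ⟨i, r⟩ ⟨j, s⟩
  simp only [H64.spl2, Matrix.of_apply, Matrix.algebraMap_matrix_apply, Prod.mk.injEq]
  by_cases hij : i = j
  · subst hij
    rw [if_pos rfl, h1, AlgHom.commutes, Matrix.algebraMap_matrix_apply]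
    by_cases hrs : r = s
    · subst hrs
      rw [if_pos rfl, if_pos ⟨rfl, rfl⟩, ← IsScalarTower.algebraMap_apply]
    · rw [if_neg hrs, if_neg fun h => hrs h.2]
  · rw [if_neg hij, if_neg fun h => hij h.1, map_zero, Matrix.zero_apply]

/-- The splitting of the algebra. -/
noncomputable def spB (f : Qt (up L a) (up L b) →ₐ[L] Matrix (Fin 2) (Fin 2) (AlgebraicClosure L)) :
    BB H →ₐ[k] Matrix (Fin 6) (Fin 6) (AlgebraicClosure L) where
  toFun x := Matrix.reindex finProdFinEquiv finProdFinEquiv (H64.spl2 f (toM H x))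
  map_one' := by
    rw [map_one, H64.spl2_one]
    exact map_one (Matrix.reindexAlgEquiv k (AlgebraicClosure L) finProdFinEquiv)
  map_mul' x y := by
    rw [map_mul, H64.spl2_mul]
    exact map_mul (Matrix.reindexAlgEquiv k (AlgebraicClosure L) finProdFinEquiv) _ _
  map_zero' := by
    rw [map_zero, ← map_zero (algebraMap k (MQ L a b)), spl2_algebraMap, map_zero]
    rfl
  map_add' x y := by
    rw [map_add, H64.spl2_add]
    rfl
  commutes' t := by
    rw [AlgHom.commutes, spl2_algebraMap]
    exact (Matrix.reindexAlgEquiv k (AlgebraicClosure L) finProdFinEquiv).commutes t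

theorem det_spB (f : Qt (up L a) (up L b) →ₐ[L] Matrix (Fin 2) (Fin 2) (AlgebraicClosure L))
    (x : BB H) : (spB H f x).det = H64.rN f (toM H x) := by
  change (Matrix.reindex finProdFinEquiv finProdFinEquiv (H64.spl2 f (toM H x))).det = _
  rw [Matrix.det_reindex_self]
  rfl

theorem exists_spB : ∃ f : BB H →ₐ[k] Matrix (Fin 6) (Fin 6) (AlgebraicClosure L),
    ∀ x, (f x).det = algebraMap L (AlgebraicClosure L) (nu (toM H x)) := by
  obtain ⟨f, hf⟩ := H64.exists_split (up L a) (up L b)
  refine ⟨spB H f, fun x => ?_⟩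
  rw [det_spB, H64.rN_eq_nu two_ne_zero H.aniso f hf]

end Vale.Agent.P011.E6W.H183
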