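import Vale.Agent.P011.E6W.H183.BarW
import Vale.Agent.P011.E6W.H619.Key

/-!
The symmetric cubic subfield attached to a frame.
-/

open Matrix Module

set_option linter.unusedSectionVars false

namespace Vale.Agent.P011.E6W.H183

open Vale.Agent.P011.MPQ hiding mat
open Vale.Agent.P011.D4 Vale.Agent.P011.D4.Oct Vale.Agent.P011.E6
open Vale.Agent.P011.E6.Alb Vale.Agent.P011.E6O
open Vale.Agent.P011.E6I (MQ toMQ InVs)
open Vale.Agent.P011.E6I.Gn (Tm Tm_apply Tm_mul Tm_self Tm_inj Tm_cancel inV_ext inV_add inV_smul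
  inV_adj inV_cross mat_mul_adj mat_adj_mul)
open Vale.Agent.P011.E6W.H619 (Fr Frs)

variable {k E : Type} [Field k] [NumberField k] [Field E] [NumberField E] [Algebra k E]
  {ρ σ : E ≃ₐ[k] E} {lam : Eˣ} {g : Fin 3 → Eˣ} {th s : E} {kap a b c : kˣ}
  {U : Submodule E (AlbL E a b c)} {v x : AlbL E a b c}

theorem mem_of_ez (D : Fr U v x) {y : AlbL E a b c} (hy : InVs y) {t : Fin 3 → E}
    (h : mat y = ez (Tm v x) t * mat v) : y ∈ U := by
  have h1 : y = t 0 • v + t 1 • x + t 2 • H619.sqv v x := by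
    apply Tm_inj D.hv D.nv hy (D.inV _ (D.comb_mem _ _ _))
    apply mat_cancel D.hv D.nv
    rw [Tm_mul D.hv D.nv, D.comb, h, ez]
  rw [h1]
  exact D.comb_mem _ _ _

/-- **The cubic subfield attached to a frame**, and the characterisation of the subspace. -/
theorem exists_frW_of (W : WH ρ σ lam g th s kap a b c) (D : Fr U v x)
    (hD : InD ρ lam (Tm v x)) (hs : adjM σ g (Tm v x) = Tm v x) :
    ∃ (F : Type) (_ : Field F) (_ : NumberField F) (_ : Algebra k F) (ι : F →ₐ[k] BW W) (x0 : F),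
      FrW W ι x0 v ∧ toW W (ι x0) = Tm v x ∧ finrank k F = 3 ∧
      ∀ y : AlbL E a b c, InVs y → Tm v x * mat y = mat y * (Tm v x)ᴴ → y ∈ U := by
  have hc := D.cube
  obtain ⟨P2, hP2⟩ : ∃ P2, P2 = (cub v)⁻¹ * tf x (adj v) := ⟨_, rfl⟩
  obtain ⟨P1, hP1⟩ : ∃ P1, P1 = -((cub v)⁻¹ * tf v (adj x)) := ⟨_, rfl⟩
  obtain ⟨P0, hP0⟩ : ∃ P0, P0 = (cub v)⁻¹ * cub x := ⟨_, rfl⟩
  rw [← hP2, ← hP1, ← hP0] at hc
  obtain ⟨⟨r2, r1, r0⟩, s2, s1, s0⟩ := coef_fix W.rel hD hs hc D.ind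
  obtain ⟨p2, hp2⟩ := exists_kW W r2 s2
  obtain ⟨p1, hp1⟩ := exists_kW W r1 s1
  obtain ⟨p0, hp0⟩ := exists_kW W r0 s0
  obtain ⟨F, i1, i2, i3, ι, x0, H, hx, h3⟩ := exists_frW W (z := Tm v x) (v := v) hD hs D.hv D.nv
    D.herm (p := ![p0, p1, p2]) (by
      rw [hc, ez]
      change _ = algebraMap k E p0 • (1 : MQ E a b) + algebraMap k E p1 • Tm v x +
        algebraMap k E p2 • Tm v x ^ 2
      rw [hp0, hp1, hp2]
      abel) (by
      intro t ht
      obtain ⟨h1, h2, h3⟩ := D.ind _ _ _ ht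
      funext i
      fin_cases i
      · exact (map_eq_zero _).mp h1
      · exact (map_eq_zero _).mp h2
      · exact (map_eq_zero _).mp h3)
  refine ⟨F, i1, i2, i3, ι, x0, H, hx, h3, ?_⟩
  intro y hy hzy
  rw [← hx] at hzy
  obtain ⟨t, ht⟩ := H.vz hy hzy
  rw [hx] at ht
  exact mem_of_ez D hy ht

end Vale.Agent.P011.E6W.H183
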