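import Vale.Agent.P011.E6I.Gen5
import Vale.Agent.P011.E6O.H408.Sp
import Vale.Agent.P011.E6O.H24.Bas

/-!
The polarity `X ↦ σ(Γ⁻¹ X^# Γ⁻¹)` of the space of hermitian matrices, and the involution
`M ↦ Γ⁻¹ σ(M)ᴴ Γ` of the matrices over the quaternions.
-/

open Matrix

namespace Vale.Agent.P011.E6W.H183

open Vale.Agent.P011.MPQ hiding mat
open Vale.Agent.P011.D4 Vale.Agent.P011.D4.Oct Vale.Agent.P011.E6
open Vale.Agent.P011.E6.Alb Vale.Agent.P011.E6O
open Vale.Agent.P011.E6I (MQ toMQ toMQ_apply toMQ_mul toMQ_one InVs)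
open Vale.Agent.P011.E6I.Gn (Tm Tm_apply Tm_mul Tm_self Tm_inj Tm_cancel inV_ext inV_add inV_smul
  inV_adj inV_cross mat_mul_adj mat_adj_mul)

variable {k E : Type} [Field k] [Field E] [Algebra k E]
  {ρ σ : E ≃ₐ[k] E} {lam : Eˣ} {g : Fin 3 → Eˣ} {s : E} {a b c : kˣ}

/-- The relations between the two automorphisms and the weights. -/
structure Rel (ρ σ : E ≃ₐ[k] E) (lam : Eˣ) (g : Fin 3 → Eˣ) (s : E) : Prop where
  /-- `σ` is an involution -/
  σ2 : ∀ x, σ (σ x) = x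
  /-- `ρ` and `σ` commute -/
  comm : ∀ x, ρ (σ x) = σ (ρ x)
  /-- the weights are fixed by `σ` -/
  σg : ∀ i, σ (g i) = g i
  /-- the relations between the weights -/
  g1 : (g 1 : E) = s * ρ (g 0)
  /-- the relations between the weights -/
  g2 : (g 2 : E) = s * ρ (g 1)
  /-- the relations between the weights -/
  g0 : (g 0 : E) = lam * σ lam * s * ρ (g 2)

theorem Rel.s_ne (R : Rel ρ σ lam g s) : s ≠ 0 := by
  intro h
  have h1 := R.g1
  rw [h, zero_mul] at h1
  exact (g 1).ne_zero h1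

/-- The polarity. -/
def pol (σ : E ≃ₐ[k] E) (g : Fin 3 → Eˣ) (x : AlbL E a b c) : AlbL E a b c :=
  amap σ (wt g⁻¹ (adj x))

theorem sp_self (x : AlbL E a b c) : H408.sp σ g x x = (2 : E) • pol σ g x := by
  rw [H408.sp, Alb.cross_self, wt_smul, amap_smul, map_ofNat, pol]

theorem map_pol [NeZero (2 : E)] (hσ : ∀ x, σ (σ x) = x) {φ : AlbL E a b c ≃ₗ[E] AlbL E a b c}
    (h1 : ∀ x, cub (φ x) = cub x) (h3 : ∀ x y, her σ g (φ x) (φ y) = her σ g x y)
    (x : AlbL E a b c) : φ (pol σ g x) = pol σ g (φ x) := by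
  have h := H408.map_sp hσ h1 h3 x x
  rw [sp_self, sp_self, map_smul] at h
  exact smul_right_injective _ (two_ne_zero (α := E)) h

theorem inV_wt {x : AlbL E a b c} (g : Fin 3 → Eˣ) (hx : InVs x) : InVs (wt g x) := by
  obtain ⟨h1, h2, h3⟩ := hx
  refine ⟨?_, ?_, ?_⟩
  · change ((g 1 : E) * g 2) • x.x1.snd = 0
    rw [h1, smul_zero]
  · change ((g 2 : E) * g 0) • x.x2.snd = 0
    rw [h2, smul_zero]
  · change ((g 0 : E) * g 1) • x.x3.snd = 0
    rw [h3, smul_zero]

theorem inV_amap {x : AlbL E a b c} (hx : InVs x) : InVs (amap σ x) := by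
  obtain ⟨h1, h2, h3⟩ := hx
  refine ⟨?_, ?_, ?_⟩
  · change qmap σ x.x1.snd = 0
    rw [h1, qmap_zero]
  · change qmap σ x.x2.snd = 0
    rw [h2, qmap_zero]
  · change qmap σ x.x3.snd = 0
    rw [h3, qmap_zero]

theorem inV_pol {x : AlbL E a b c} (hx : InVs x) : InVs (pol σ g x) :=
  inV_amap (inV_wt _ (inV_adj hx))

theorem cub_pol [NeZero (2 : E)] (x : AlbL E a b c) : cub (pol σ g x) = σ ((gam g)⁻¹ ^ 2 * cub x ^ 2) := by
  rw [pol, cub_amap, cub_wt, gam_inv, cub_adj]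

/-! ### The involution of the matrices -/

/-- The scaled adjoint of a matrix. -/
def adjM (σ : E ≃ₐ[k] E) (g : Fin 3 → Eˣ) (m : MQ E a b) : MQ E a b :=
  H64.dgi (up E a) (up E b) g * (m.map (qmap σ))ᴴ * dg (up E a) (up E b) g

theorem map_add_qmap (m n : MQ E a b) :
    (m + n).map (qmap σ) = m.map (qmap σ) + n.map (qmap σ) := by
  apply Matrix.ext
  intro i j
  exact qmap_add σ _ _

theorem map_smul_qmap (t : E) (m : MQ E a b) :
    (t • m).map (qmap σ) = σ t • m.map (qmap σ) := by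
  apply Matrix.ext
  intro i j
  exact qmap_smul σ _ _

theorem map_one_qmap : (1 : MQ E a b).map (qmap σ) = 1 := by
  apply Matrix.ext
  intro i j
  rw [Matrix.map_apply, Matrix.one_apply]
  split_ifs
  · exact qmap_one σ
  · exact qmap_zero σ

theorem conj_smul (t : E) (m : MQ E a b) : (t • m)ᴴ = t • mᴴ := by
  apply Matrix.ext
  intro i j
  change star (t • m j i) = t • star (m j i)
  rw [QuaternionAlgebra.star_smul]

theorem adjM_add (m n : MQ E a b) : adjM σ g (m + n) = adjM σ g m + adjM σ g n := by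
  rw [adjM, adjM, adjM, map_add_qmap, Matrix.conjTranspose_add, Matrix.mul_add, Matrix.add_mul]

theorem adjM_smul (t : E) (m : MQ E a b) : adjM σ g (t • m) = σ t • adjM σ g m := by
  rw [adjM, adjM, map_smul_qmap, conj_smul, Matrix.mul_smul, Matrix.smul_mul]

theorem adjM_one : adjM σ g (1 : MQ E a b) = 1 := by
  rw [adjM, map_one_qmap, Matrix.conjTranspose_one, Matrix.mul_one, H64.dgi_mul_dg]

theorem adjM_zero : adjM σ g (0 : MQ E a b) = 0 := by
  have h := adjM_smul (σ := σ) (g := g) 0 (0 : MQ E a b)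
  rwa [map_zero, zero_smul, zero_smul] at h

theorem adjM_mul (m n : MQ E a b) : adjM σ g (m * n) = adjM σ g n * adjM σ g m := by
  rw [adjM, adjM, adjM, H64.map_mul_qmap, Matrix.conjTranspose_mul]
  calc _ = H64.dgi (up E a) (up E b) g * (n.map (qmap σ))ᴴ *
        (dg (up E a) (up E b) g * H64.dgi (up E a) (up E b) g) * (m.map (qmap σ))ᴴ *
        dg (up E a) (up E b) g := by
        rw [H64.dg_mul_dgi, Matrix.mul_one]
        simp only [Matrix.mul_assoc]
    _ = _ := by simp only [Matrix.mul_assoc]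

theorem dgi_conjTranspose (g : Fin 3 → Eˣ) :
    (H64.dgi (up E a) (up E b) g)ᴴ = H64.dgi (up E a) (up E b) g := by
  rw [H64.dgi, diagonal_conjTranspose]
  congr 1
  funext i
  exact H64.star_coe' _

theorem dg_map (hσg : ∀ i, σ (g i) = g i) :
    (dg (up E a) (up E b) g).map (qmap σ) = dg (up E a) (up E b) g := by
  apply Matrix.ext
  intro i j
  rw [Matrix.map_apply, dg, Matrix.diagonal_apply]
  split_ifs
  · exact (H64.qmap_coe σ _).trans (congrArg _ (hσg i))
  · exact qmap_zero σ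

theorem dgi_map (hσg : ∀ i, σ (g i) = g i) :
    (H64.dgi (up E a) (up E b) g).map (qmap σ) = H64.dgi (up E a) (up E b) g := by
  apply Matrix.ext
  intro i j
  rw [Matrix.map_apply, H64.dgi, Matrix.diagonal_apply]
  split_ifs
  · refine (H64.qmap_coe σ _).trans (congrArg _ ?_)
    change σ ((g i)⁻¹ : Eˣ) = ((g i)⁻¹ : Eˣ)
    rw [Units.val_inv_eq_inv_val, map_inv₀, hσg]
  · exact qmap_zero σ

theorem map_map_qmap (hσ : ∀ x, σ (σ x) = x) (m : MQ E a b) :
    (m.map (qmap σ)).map (qmap σ) = m := by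
  apply Matrix.ext
  intro i j
  exact QuaternionAlgebra.ext (hσ _) (hσ _) (hσ _) (hσ _)

theorem adjM_adjM (hσ : ∀ x, σ (σ x) = x) (hσg : ∀ i, σ (g i) = g i) (m : MQ E a b) :
    adjM σ g (adjM σ g m) = m := by
  rw [adjM, adjM, H64.map_mul_qmap, H64.map_mul_qmap, dg_map hσg, dgi_map hσg,
    H64.map_qmap_conjTranspose, map_map_qmap hσ, Matrix.conjTranspose_mul,
    Matrix.conjTranspose_mul, Matrix.conjTranspose_conjTranspose, H64.dg_conjTranspose,
    dgi_conjTranspose]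
  calc _ = (H64.dgi (up E a) (up E b) g * dg (up E a) (up E b) g) * m *
        (H64.dgi (up E a) (up E b) g * dg (up E a) (up E b) g) := by
        simp only [Matrix.mul_assoc]
    _ = _ := by rw [H64.dgi_mul_dg, Matrix.one_mul, Matrix.mul_one]

theorem mat_wt (x : AlbL E a b c) :
    mat (wt g x) = dg (up E a) (up E b) g * mat x * dg (up E a) (up E b) g := by
  apply Matrix.ext
  intro i j
  rw [dg, Matrix.mul_diagonal, Matrix.diagonal_mul]
  have h1 : ∀ (t u : E) (q : Qt (up E a) (up E b)),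
      algebraMap E (Qt (up E a) (up E b)) t * q * algebraMap E (Qt (up E a) (up E b)) u =
        (t * u) • q := by
    intro t u q
    rw [← Algebra.commutes, ← Algebra.smul_def, ← Algebra.smul_def, smul_smul, mul_comm]
  rw [h1]
  have h2 : ∀ t u : E, t • algebraMap E (Qt (up E a) (up E b)) u =
      algebraMap E (Qt (up E a) (up E b)) (t * u) := by
    intro t u
    rw [Algebra.smul_def, ← map_mul]
  fin_cases i <;> fin_cases j
  · change algebraMap E _ ((g 0 : E) ^ 2 * x.d1) = ((g 0 : E) * g 0) • algebraMap E _ x.d1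
    rw [h2, pow_two]
  · change ((g 0 : E) * g 1) • x.x3.fst = ((g 0 : E) * g 1) • x.x3.fst
    rfl
  · change star (((g 2 : E) * g 0) • x.x2.fst) = ((g 0 : E) * g 2) • star x.x2.fst
    rw [QuaternionAlgebra.star_smul, mul_comm]
  · change star (((g 0 : E) * g 1) • x.x3.fst) = ((g 1 : E) * g 0) • star x.x3.fst
    rw [QuaternionAlgebra.star_smul, mul_comm]
  · change algebraMap E _ ((g 1 : E) ^ 2 * x.d2) = ((g 1 : E) * g 1) • algebraMap E _ x.d2
    rw [h2, pow_two]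
  · rfl
  · change ((g 2 : E) * g 0) • x.x2.fst = ((g 2 : E) * g 0) • x.x2.fst
    rfl
  · change star (((g 1 : E) * g 2) • x.x1.fst) = ((g 2 : E) * g 1) • star x.x1.fst
    rw [QuaternionAlgebra.star_smul, mul_comm]
  · change algebraMap E _ ((g 2 : E) ^ 2 * x.d3) = ((g 2 : E) * g 2) • algebraMap E _ x.d3
    rw [h2, pow_two]

theorem dg_inv (g : Fin 3 → Eˣ) : dg (up E a) (up E b) g⁻¹ = H64.dgi (up E a) (up E b) g := rfl

theorem mat_pol (hσg : ∀ i, σ (g i) = g i) (x : AlbL E a b c) : mat (pol σ g x) =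
    H64.dgi (up E a) (up E b) g * (mat (adj x)).map (qmap σ) *
      H64.dgi (up E a) (up E b) g := by
  rw [pol, H64.mat_amap, mat_wt, dg_inv, H64.map_mul_qmap, H64.map_mul_qmap, dgi_map hσg]

theorem adjM_Tm (hσg : ∀ i, σ (g i) = g i) (v x : AlbL E a b c) :
    adjM σ g (Tm v x) = σ (cub v)⁻¹ • (mat (pol σ g v) * dg (up E a) (up E b) g *
      (mat x).map (qmap σ) * dg (up E a) (up E b) g) := by
  have h1 : ∀ y : AlbL E a b c, ((mat y).map (qmap σ))ᴴ = (mat y).map (qmap σ) := by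
    intro y
    rw [← H64.map_qmap_conjTranspose, H64.mat_isHermitian y]
  rw [Tm_apply, adjM_smul, adjM, H64.map_mul_qmap, Matrix.conjTranspose_mul, h1, h1, mat_pol hσg]
  congr 1
  symm
  calc _ = H64.dgi (up E a) (up E b) g * (mat (adj v)).map (qmap σ) *
        (H64.dgi (up E a) (up E b) g * dg (up E a) (up E b) g) * (mat x).map (qmap σ) *
        dg (up E a) (up E b) g := by simp only [Matrix.mul_assoc]
    _ = _ := by
      rw [H64.dgi_mul_dg, Matrix.mul_one]
      simp only [Matrix.mul_assoc]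

theorem adjM_Tm_mul (hσg : ∀ i, σ (g i) = g i) (v : AlbL E a b c) {x : AlbL E a b c}
    (hx : InVs x) : adjM σ g (Tm v x) * mat (pol σ g x) =
      (σ (cub v)⁻¹ * σ (cub x)) • mat (pol σ g v) := by
  have h1 : (mat x).map (qmap σ) * (mat (adj x)).map (qmap σ) = σ (cub x) • (1 : MQ E a b) := by
    rw [← H64.map_mul_qmap, mat_mul_adj hx, map_smul_qmap, map_one_qmap]
  rw [adjM_Tm hσg, mat_pol hσg x, Matrix.smul_mul, mul_smul]
  congr 1
  calc _ = mat (pol σ g v) * dg (up E a) (up E b) g * (mat x).map (qmap σ) *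
        (dg (up E a) (up E b) g * H64.dgi (up E a) (up E b) g) *
        (mat (adj x)).map (qmap σ) * H64.dgi (up E a) (up E b) g := by
        simp only [Matrix.mul_assoc]
    _ = mat (pol σ g v) * dg (up E a) (up E b) g * ((mat x).map (qmap σ) *
        (mat (adj x)).map (qmap σ)) * H64.dgi (up E a) (up E b) g := by
        rw [H64.dg_mul_dgi, Matrix.mul_one]
        simp only [Matrix.mul_assoc]
    _ = σ (cub x) • (mat (pol σ g v) * (dg (up E a) (up E b) g *
        H64.dgi (up E a) (up E b) g)) := by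
        rw [h1, Matrix.mul_smul, Matrix.mul_one, Matrix.smul_mul, Matrix.mul_assoc]
    _ = _ := by rw [H64.dg_mul_dgi, Matrix.mul_one]

/-- **The algebra of the quotients is stable by the involution.** -/
theorem adjM_mem [NeZero (2 : E)] (hσg : ∀ i, σ (g i) = g i)
    {U : Submodule E (AlbL E a b c)} {v : AlbL E a b c} (D : E6I.Gn.Dat U v)
    (hU : ∀ x ∈ U, pol σ g x ∈ U) {x : AlbL E a b c} (hx : x ∈ U) :
    ∃ y ∈ U, Tm v y = adjM σ g (Tm v x) := by
  have hv := D.inV _ D.mem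
  by_cases h0 : x = 0
  · refine ⟨0, U.zero_mem, ?_⟩
    rw [h0, map_zero, adjM_zero]
  have hx0 : cub x ≠ 0 := fun h => h0 (D.an x hx h)
  have hp := hU x hx
  have hp0 : cub (pol σ g x) ≠ 0 := by
    rw [cub_pol]
    exact (map_ne_zero σ).mpr (mul_ne_zero (pow_ne_zero 2 (inv_ne_zero (gam_ne g)))
      (pow_ne_zero 2 hx0))
  obtain ⟨y, hy, hy'⟩ := D.div hp hp0 (U.smul_mem (σ (cub v)⁻¹ * σ (cub x)) (hU v D.mem))
  refine ⟨y, hy, Tm_cancel hv D.ne (D.inV _ hp) hp0 ?_⟩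
  rw [hy', Tm_apply v (pol σ g x), Matrix.mul_smul, ← Matrix.mul_assoc,
    adjM_Tm_mul hσg v (D.inV _ hx), Tm_apply, H64.mat_smul]

/-! ### The algebra `D ⊗ Q` is stable by the involution -/

theorem um_map (m : Matrix (Fin 3) (Fin 3) E) :
    (toMQ m : MQ E a b).map (qmap σ) = toMQ (m.map σ) := by
  apply Matrix.ext
  intro i j
  exact H64.qmap_coe σ _

theorem um_map_eq (lam : Eˣ) :
    (um lam).map σ = um (Units.map (σ : E →* E) lam) := by
  apply Matrix.ext
  intro i j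
  have h : σ ((lam⁻¹ : Eˣ) : E) = (((Units.map (σ : E →* E) lam)⁻¹ : Eˣ) : E) := by
    rw [← map_inv]
    rfl
  fin_cases i <;> fin_cases j <;> simp only [um, Matrix.map_apply, Matrix.of_apply, Fin.zero_eta,
    Fin.mk_one, Fin.reduceFinMk, Fin.isValue, Matrix.cons_val_zero, Matrix.cons_val_one,
    Matrix.cons_val, map_zero, map_one, h]

theorem dgi_map' (ρ : E ≃ₐ[k] E) (g : Fin 3 → Eˣ) (i j : Fin 3) :
    ((H64.dgi (up E a) (up E b) g).map (qmap ρ)) i j =
      if i = j then ((ρ ((g i)⁻¹ : Eˣ) : E) : Qt (up E a) (up E b)) else 0 := by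
  rw [Matrix.map_apply, H64.dgi, Matrix.diagonal_apply]
  split_ifs
  · exact H64.qmap_coe ρ _
  · exact qmap_zero ρ

theorem um_dgi (R : Rel ρ σ lam g s) :
    (toMQ (um lam) : MQ E a b) * ((H64.dgi (up E a) (up E b) g).map (qmap ρ) *
      ((toMQ (um lam) : MQ E a b).map (qmap σ))ᴴ) = s • H64.dgi (up E a) (up E b) g := by
  have hs := R.s_ne
  have hl := lam.ne_zero
  have hl' : σ (lam : E) ≠ 0 := (map_ne_zero σ).mpr hl
  have hl2 : (((Units.map (σ : E →* E) lam)⁻¹ : Eˣ) : E) = (σ (lam : E))⁻¹ := by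
    rw [Units.val_inv_eq_inv_val]
    rfl
  have hg : ∀ i, ρ (g i : E) ≠ 0 := fun i => (map_ne_zero ρ).mpr (g i).ne_zero
  have e0 : ((lam⁻¹ : Eˣ) : E) * ((((Units.map (σ : E →* E) lam)⁻¹ : Eˣ) : E) *
      ρ ((g 2)⁻¹ : Eˣ)) = s * ((g 0)⁻¹ : Eˣ) := by
    rw [hl2, Units.val_inv_eq_inv_val, Units.val_inv_eq_inv_val, Units.val_inv_eq_inv_val,
      map_inv₀, R.g0]
    have := hg 2
    field_simp
  have e1 : ρ ((g 0)⁻¹ : Eˣ) = s * ((g 1)⁻¹ : Eˣ) := by
    rw [Units.val_inv_eq_inv_val, Units.val_inv_eq_inv_val, map_inv₀, R.g1]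
    have := hg 0
    field_simp
  have e2 : ρ ((g 1)⁻¹ : Eˣ) = s * ((g 2)⁻¹ : Eˣ) := by
    rw [Units.val_inv_eq_inv_val, Units.val_inv_eq_inv_val, map_inv₀, R.g2]
    have := hg 1
    field_simp
  have hc : ∀ t u : E, t • ((u : E) : Qt (up E a) (up E b)) = ((t * u : E) :
      Qt (up E a) (up E b)) := by
    intro t u
    rw [QuaternionAlgebra.coe_mul, QuaternionAlgebra.coe_mul_eq_smul]
  rw [um_map, um_map_eq]
  apply Matrix.ext
  intro i j
  rw [uq_mul_apply, mul_uq_apply, mul_uq_apply, mul_uq_apply]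
  simp only [dgi_map']
  rw [Matrix.smul_apply, H64.dgi, Matrix.diagonal_apply]
  fin_cases i <;> fin_cases j
  · change ((lam⁻¹ : Eˣ) : E) • ((((Units.map (σ : E →* E) lam)⁻¹ : Eˣ) : E) •
      ((ρ ((g 2)⁻¹ : Eˣ) : E) : Qt (up E a) (up E b))) =
        s • ((((g 0)⁻¹ : Eˣ) : E) : Qt (up E a) (up E b))
    rw [hc, hc, hc, e0]
  · change ((lam⁻¹ : Eˣ) : E) • (0 : Qt (up E a) (up E b)) = s • (0 : Qt (up E a) (up E b))
    rw [smul_zero, smul_zero]
  · change ((lam⁻¹ : Eˣ) : E) • (0 : Qt (up E a) (up E b)) = s • (0 : Qt (up E a) (up E b))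
    rw [smul_zero, smul_zero]
  · change (((Units.map (σ : E →* E) lam)⁻¹ : Eˣ) : E) • (0 : Qt (up E a) (up E b)) =
      s • (0 : Qt (up E a) (up E b))
    rw [smul_zero, smul_zero]
  · change ((ρ ((g 0)⁻¹ : Eˣ) : E) : Qt (up E a) (up E b)) =
      s • ((((g 1)⁻¹ : Eˣ) : E) : Qt (up E a) (up E b))
    rw [hc, e1]
  · change (0 : Qt (up E a) (up E b)) = s • (0 : Qt (up E a) (up E b))
    rw [smul_zero]
  · change (((Units.map (σ : E →* E) lam)⁻¹ : Eˣ) : E) • (0 : Qt (up E a) (up E b)) =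
      s • (0 : Qt (up E a) (up E b))
    rw [smul_zero, smul_zero]
  · change (0 : Qt (up E a) (up E b)) = s • (0 : Qt (up E a) (up E b))
    rw [smul_zero]
  · change ((ρ ((g 1)⁻¹ : Eˣ) : E) : Qt (up E a) (up E b)) =
      s • ((((g 2)⁻¹ : Eˣ) : E) : Qt (up E a) (up E b))
    rw [hc, e2]

theorem map_comm_qmap (hc : ∀ x, ρ (σ x) = σ (ρ x)) (m : MQ E a b) :
    (m.map (qmap ρ)).map (qmap σ) = (m.map (qmap σ)).map (qmap ρ) := by
  apply Matrix.ext
  intro i j
  exact QuaternionAlgebra.ext (hc _).symm (hc _).symm (hc _).symm (hc _).symm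

/-- The algebra `D ⊗ Q` is stable by the involution. -/
theorem inD_adjM (R : Rel ρ σ lam g s) {m : MQ E a b} (hm : InD ρ lam m) :
    InD ρ lam (adjM σ g m) := by
  have hu : ((toMQ (um lam) : MQ E a b).map (qmap σ))ᴴ * (m.map (qmap σ))ᴴ =
      ((m.map (qmap σ)).map (qmap ρ))ᴴ * ((toMQ (um lam) : MQ E a b).map (qmap σ))ᴴ := by
    rw [← Matrix.conjTranspose_mul, ← Matrix.conjTranspose_mul, ← H64.map_mul_qmap, hm,
      H64.map_mul_qmap, map_comm_qmap R.comm]
  have hmap : (adjM σ g m).map (qmap ρ) = (H64.dgi (up E a) (up E b) g).map (qmap ρ) *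
      ((m.map (qmap σ)).map (qmap ρ))ᴴ * (dg (up E a) (up E b) g).map (qmap ρ) := by
    rw [adjM, H64.map_mul_qmap, H64.map_mul_qmap, H64.map_qmap_conjTranspose]
  have h1 : (dg (up E a) (up E b) g).map (qmap ρ) *
      (H64.dgi (up E a) (up E b) g).map (qmap ρ) = 1 := by
    rw [← H64.map_mul_qmap, H64.dg_mul_dgi, map_one_qmap]
  have h2 : ((toMQ (um lam) : MQ E a b).map (qmap σ))ᴴ *
      ((toMQ (wm lam) : MQ E a b).map (qmap σ))ᴴ = 1 := by
    rw [← Matrix.conjTranspose_mul, ← H64.map_mul_qmap, wq_mul_uq, map_one_qmap,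
      Matrix.conjTranspose_one]
  have h3 : (H64.dgi (up E a) (up E b) g).map (qmap ρ) *
      (dg (up E a) (up E b) g).map (qmap ρ) = 1 := by
    rw [← H64.map_mul_qmap, H64.dgi_mul_dg, map_one_qmap]
  set V := ((toMQ (um lam) : MQ E a b).map (qmap σ))ᴴ
  set W := ((toMQ (wm lam) : MQ E a b).map (qmap σ))ᴴ
  set M := (m.map (qmap σ))ᴴ with hM
  set M' := ((m.map (qmap σ)).map (qmap ρ))ᴴ
  set G := (H64.dgi (up E a) (up E b) g).map (qmap ρ)
  set G' := (dg (up E a) (up E b) g).map (qmap ρ)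
  have key := um_dgi (a := a) (b := b) R
  -- both sides after multiplication by an invertible matrix
  have e1 : (adjM σ g m * toMQ (um lam)) * (G * V) =
      s • (H64.dgi (up E a) (up E b) g * M) := by
    rw [Matrix.mul_assoc, key, adjM, Matrix.mul_smul, Matrix.mul_assoc, H64.dg_mul_dgi,
      Matrix.mul_one]
  have e2 : (toMQ (um lam) * (adjM σ g m).map (qmap ρ)) * (G * V) =
      s • (H64.dgi (up E a) (up E b) g * M) := by
    rw [hmap]
    calc _ = toMQ (um lam) * (G * (M' * ((G' * G) * V))) := by simp only [Matrix.mul_assoc]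
      _ = toMQ (um lam) * (G * (V * M)) := by rw [h1, Matrix.one_mul, ← hu]
      _ = (toMQ (um lam) * (G * V)) * M := by simp only [Matrix.mul_assoc]
      _ = _ := by rw [key, Matrix.smul_mul]
  have e3 : ∀ X : MQ E a b, (X * (G * V)) * (W * G') = X := by
    intro X
    calc _ = X * (G * ((V * W) * G')) := by simp only [Matrix.mul_assoc]
      _ = X := by rw [h2, Matrix.one_mul, h3, Matrix.mul_one]
  rw [InD, ← e3 (adjM σ g m * toMQ (um lam)), e1, ← e2, e3]

theorem inD_add {m n : MQ E a b} (hm : InD ρ lam m) (hn : InD ρ lam n) :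
    InD ρ lam (m + n) := by
  rw [InD] at *
  rw [map_add_qmap, Matrix.mul_add, Matrix.add_mul, hm, hn]

theorem inD_smul {m : MQ E a b} (hm : InD ρ lam m) {t : E} (ht : ρ t = t) :
    InD ρ lam (t • m) := by
  rw [InD] at *
  rw [map_smul_qmap, ht, Matrix.mul_smul, Matrix.smul_mul, hm]

/-- **There is a symmetric element which is not a scalar in the algebra of the quotients.** -/
theorem exists_sym [NeZero (2 : E)] (R : Rel ρ σ lam g s) {al : E} (h0 : al ≠ 0)
    (hρ : ρ al = al) (hσ : σ al = -al) {U : Submodule E (AlbL E a b c)} {v : AlbL E a b c}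
    (D : E6I.Gn.Dat U v) (hU : ∀ x ∈ U, pol σ g x ∈ U) {x : AlbL E a b c} (hx : x ∈ U)
    (h1 : ∀ t : E, Tm v x ≠ t • 1) (hD : InD ρ lam (Tm v x)) :
    ∃ y ∈ U, (∀ t : E, Tm v y ≠ t • 1) ∧ InD ρ lam (Tm v y) ∧ adjM σ g (Tm v y) = Tm v y := by
  obtain ⟨x', hx', he⟩ := adjM_mem R.σg D hU hx
  have hD' := inD_adjM R hD
  have hee := adjM_adjM R.σ2 R.σg (Tm v x)
  by_cases hs : ∀ t : E, Tm v (x + x') ≠ t • 1
  · refine ⟨x + x', U.add_mem hx hx', hs, ?_, ?_⟩
    · rw [map_add, he]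
      exact inD_add hD hD'
    · rw [map_add, he, adjM_add, hee, add_comm]
  · push Not at hs
    obtain ⟨t, ht⟩ := hs
    rw [map_add, he] at ht
    refine ⟨al • (x - x'), U.smul_mem _ (U.sub_mem hx hx'), ?_, ?_, ?_⟩
    · intro t' ht'
      rw [map_smul, map_sub, he] at ht'
      apply h1 (2⁻¹ * (t + al⁻¹ * t'))
      have h2 : Tm v x - adjM σ g (Tm v x) = (al⁻¹ * t') • 1 := by
        rw [← smul_smul, ← ht', smul_smul, inv_mul_cancel₀ h0, one_smul]
      have h3 : (2 : E) • Tm v x = (t + al⁻¹ * t') • 1 := by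
        rw [add_smul, ← ht, ← h2]
        module
      rw [← smul_smul, ← h3, smul_smul, inv_mul_cancel₀ two_ne_zero, one_smul]
    · rw [map_smul, map_sub, he, sub_eq_add_neg, ← neg_one_smul E (adjM σ g (Tm v x))]
      exact inD_smul (inD_add hD (inD_smul hD' (by rw [map_neg, map_one]))) hρ
    · rw [map_smul, map_sub, he, adjM_smul, hσ, sub_eq_add_neg,
        ← neg_one_smul E (adjM σ g (Tm v x)), adjM_add, adjM_smul, hee, map_neg, map_one]
      module

/-- The coefficients of the cubic relation of a symmetric element of `D ⊗ Q` are fixed by the two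
automorphisms. -/
theorem coef_fix (R : Rel ρ σ lam g s) {z : MQ E a b} (hD : InD ρ lam z) (hs : adjM σ g z = z)
    {P2 P1 P0 : E} (hz : z ^ 3 = P2 • z ^ 2 + P1 • z + P0 • 1)
    (hind : ∀ c0 c1 c2 : E, c0 • (1 : MQ E a b) + c1 • z + c2 • z ^ 2 = 0 →
      c0 = 0 ∧ c1 = 0 ∧ c2 = 0) :
    (ρ P2 = P2 ∧ ρ P1 = P1 ∧ ρ P0 = P0) ∧ (σ P2 = P2 ∧ σ P1 = P1 ∧ σ P0 = P0) := by
  have hs2 : adjM σ g (z ^ 2) = z ^ 2 := by rw [pow_two, adjM_mul, hs]
  have hs3 : adjM σ g (z ^ 3) = z ^ 3 := by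
    rw [pow_succ, adjM_mul, hs, hs2, ← pow_succ', ← pow_succ]
  constructor
  · have h1 : ∀ n : ℕ, z ^ n * toMQ (um lam) = toMQ (um lam) * (z ^ n).map (qmap ρ) := by
      intro n
      induction n with
      | zero => rw [pow_zero, map_one_qmap, Matrix.one_mul, Matrix.mul_one]
      | succ n ih => rw [pow_succ, H64.map_mul_qmap, Matrix.mul_assoc, hD, ← Matrix.mul_assoc, ih,
          Matrix.mul_assoc]
    have h2 : (z ^ 3).map (qmap ρ) = ρ P2 • (z ^ 2).map (qmap ρ) + ρ P1 • z.map (qmap ρ) +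
        ρ P0 • 1 := by
      rw [hz, map_add_qmap, map_add_qmap, map_smul_qmap, map_smul_qmap, map_smul_qmap,
        map_one_qmap]
    have h3 : z ^ 3 * toMQ (um lam) = (ρ P2 • z ^ 2 + ρ P1 • z + ρ P0 • 1) * toMQ (um lam) := by
      rw [h1 3, h2, Matrix.add_mul, Matrix.add_mul, Matrix.smul_mul, Matrix.smul_mul,
        Matrix.smul_mul, h1 2, hD, Matrix.one_mul, Matrix.mul_add, Matrix.mul_add,
        Matrix.mul_smul, Matrix.mul_smul, Matrix.mul_smul, Matrix.mul_one]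
    have h4 : z ^ 3 = ρ P2 • z ^ 2 + ρ P1 • z + ρ P0 • 1 := by
      have h5 := congrArg (fun X : MQ E a b => X * toMQ (wm lam)) h3
      simp only [Matrix.mul_assoc] at h5
      rwa [uq_mul_wq, Matrix.mul_one, Matrix.mul_one] at h5
    obtain ⟨e0, e1, e2⟩ := hind (ρ P0 - P0) (ρ P1 - P1) (ρ P2 - P2) (by
      linear_combination (norm := module) hz - h4)
    exact ⟨sub_eq_zero.mp e2, sub_eq_zero.mp e1, sub_eq_zero.mp e0⟩
  · have h4 : z ^ 3 = σ P2 • z ^ 2 + σ P1 • z + σ P0 • 1 := by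
      have h5 := congrArg (adjM σ g) hz
      rwa [hs3, adjM_add, adjM_add, adjM_smul, adjM_smul, adjM_smul, hs2, hs, adjM_one] at h5
    obtain ⟨e0, e1, e2⟩ := hind (σ P0 - P0) (σ P1 - P1) (σ P2 - P2) (by
      linear_combination (norm := module) hz - h4)
    exact ⟨sub_eq_zero.mp e2, sub_eq_zero.mp e1, sub_eq_zero.mp e0⟩

/-- The polarity and the action of the matrices. -/
theorem pol_act [NeZero (2 : E)] (hab : Aniso (up E a) (up E b)) (hσg : ∀ i, σ (g i) = g i)
    {x : AlbL E a b c} (hx : InVs x) {m m' : (MQ E a b)ˣ}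
    (h : adjM σ g (m : MQ E a b) * (m' : MQ E a b) = 1) :
    pol σ g (act m 1 x) = σ (nu (m : MQ E a b)) • act m' 1 (pol σ g x) := by
  obtain ⟨n, hn⟩ : ∃ n : (MQ E a b)ˣ, (n : MQ E a b) = ((m⁻¹ : (MQ E a b)ˣ) : MQ E a b)ᴴ :=
    ⟨⟨((m⁻¹ : (MQ E a b)ˣ) : MQ E a b)ᴴ, (m : MQ E a b)ᴴ, by
      rw [← Matrix.conjTranspose_mul, Units.mul_inv, Matrix.conjTranspose_one], by
      rw [← Matrix.conjTranspose_mul, Units.inv_mul, Matrix.conjTranspose_one]⟩, rfl⟩
  have hnm : (n : MQ E a b)ᴴ * (m : MQ E a b) = 1 := by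
    rw [hn, Matrix.conjTranspose_conjTranspose, Units.inv_mul]
  have hnm' : (n : MQ E a b) * (m : MQ E a b)ᴴ = 1 := by
    rw [hn, ← Matrix.conjTranspose_mul, Units.mul_inv, Matrix.conjTranspose_one]
  have hm' : (m' : MQ E a b) = H64.dgi (up E a) (up E b) g * (n : MQ E a b).map (qmap σ) *
      dg (up E a) (up E b) g := by
    have h1 : (n : MQ E a b).map (qmap σ) * ((m : MQ E a b).map (qmap σ))ᴴ = 1 := by
      rw [← H64.map_qmap_conjTranspose, ← H64.map_mul_qmap, hnm', map_one_qmap]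
    have h2 : (H64.dgi (up E a) (up E b) g * (n : MQ E a b).map (qmap σ) *
        dg (up E a) (up E b) g) * adjM σ g (m : MQ E a b) = 1 := by
      rw [adjM]
      calc _ = H64.dgi (up E a) (up E b) g * ((n : MQ E a b).map (qmap σ) *
            ((dg (up E a) (up E b) g * H64.dgi (up E a) (up E b) g) *
              ((m : MQ E a b).map (qmap σ))ᴴ)) * dg (up E a) (up E b) g := by
            simp only [Matrix.mul_assoc]
        _ = 1 := by rw [H64.dg_mul_dgi, Matrix.one_mul, h1, Matrix.mul_one, H64.dgi_mul_dg]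
    calc (m' : MQ E a b) = ((H64.dgi (up E a) (up E b) g * (n : MQ E a b).map (qmap σ) *
        dg (up E a) (up E b) g) * adjM σ g (m : MQ E a b)) * m' := by rw [h2, Matrix.one_mul]
      _ = _ := by rw [Matrix.mul_assoc, h, Matrix.mul_one]
  have hm'' : (m' : MQ E a b)ᴴ = dg (up E a) (up E b) g * ((n : MQ E a b).map (qmap σ))ᴴ *
      H64.dgi (up E a) (up E b) g := by
    rw [hm', Matrix.conjTranspose_mul, Matrix.conjTranspose_mul, H64.dg_conjTranspose,
      dgi_conjTranspose, Matrix.mul_assoc]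
  refine inV_ext (inV_pol (E6I.Gn.inV_act hx _ _))
    (inV_smul _ (E6I.Gn.inV_act (inV_pol hx) _ _)) ?_
  rw [mat_pol hσg, E6I.Gn.adj_act hab hx hnm, H64.mat_smul, map_smul_qmap, mat_act,
    H64.map_mul_qmap, H64.map_mul_qmap, H64.map_qmap_conjTranspose, H64.mat_smul, mat_act,
    mat_pol hσg, hm'', hm', Matrix.mul_smul, Matrix.smul_mul]
  congr 1
  symm
  calc _ = H64.dgi (up E a) (up E b) g * ((n : MQ E a b).map (qmap σ) *
        ((dg (up E a) (up E b) g * H64.dgi (up E a) (up E b) g) * ((mat (adj x)).map (qmap σ) *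
        ((H64.dgi (up E a) (up E b) g * dg (up E a) (up E b) g) *
          ((n : MQ E a b).map (qmap σ))ᴴ)))) * H64.dgi (up E a) (up E b) g := by
        simp only [Matrix.mul_assoc]
    _ = _ := by
        rw [H64.dg_mul_dgi, H64.dgi_mul_dg, Matrix.one_mul, Matrix.one_mul]
        simp only [Matrix.mul_assoc]

/-- The intersection `V ∩ h⁻¹ V` is stable by the polarity. -/
theorem inV_map_pol [NeZero (2 : E)] (hσ : ∀ x, σ (σ x) = x)
    {φ : AlbL E a b c ≃ₗ[E] AlbL E a b c} (h1 : ∀ x, cub (φ x) = cub x)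
    (h3 : ∀ x y, her σ g (φ x) (φ y) = her σ g x y) {x : AlbL E a b c} (hx : InVs (φ x)) :
    InVs (φ (pol σ g x)) := by
  rw [map_pol hσ h1 h3]
  exact inV_pol hx

end Vale.Agent.P011.E6W.H183
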