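import Vale.Agent.P011.E6W.H183.BAlg
import Vale.Agent.P011.E6W.H183.Pol
import Vale.Agent.P011.E6O.Dict
import Vale.Agent.P011.Even.Defs

/-!
The data over the fixed field of `ρ`.
-/

open Matrix

set_option linter.unusedSectionVars false

namespace Vale.Agent.P011.E6W.H183

open Vale.Agent.P011.MPQ hiding mat
open Vale.Agent.P011.D4 Vale.Agent.P011.D4.Oct Vale.Agent.P011.E6
open Vale.Agent.P011.E6O
open Vale.Agent.P011.E6I (MQ toMQ u0)

variable {k E : Type} [Field k] [Field E] [Algebra k E]

/-- The fixed field of `ρ` is an algebra over `k`. -/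
noncomputable instance algKK (ρ : E ≃ₐ[k] E) : Algebra k (KK ρ) :=
  RingHom.toAlgebra ((algebraMap k E).codRestrict (fixR ρ) fun x =>
    (mem_fixR ρ _).mpr (ρ.commutes x))

instance towKK (ρ : E ≃ₐ[k] E) : IsScalarTower k (KK ρ) E :=
  IsScalarTower.of_algebraMap_eq fun _ => rfl

/-- The automorphism `ρ` over its fixed field. -/
def rhoK (ρ : E ≃ₐ[k] E) : E ≃ₐ[KK ρ] E := { (ρ : E ≃+* E) with commutes' := KK_fix ρ }

theorem rhoK_apply (ρ : E ≃ₐ[k] E) (x : E) : rhoK ρ x = ρ x := rfl

/-- A unit fixed by `ρ`. -/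
def unK {ρ : E ≃ₐ[k] E} {u : Eˣ} (hu : ρ (u : E) = u) : (KK ρ)ˣ where
  val := mkK hu
  inv := mkK (ρ := ρ) (x := ((u⁻¹ : Eˣ) : E)) (by rw [Units.val_inv_eq_inv_val, map_inv₀, hu])
  val_inv := KK_ext (by
    rw [map_mul, algebraMap_mkK, algebraMap_mkK, Units.mul_inv, map_one])
  inv_val := KK_ext (by
    rw [map_mul, algebraMap_mkK, algebraMap_mkK, Units.inv_mul, map_one])

theorem up_unK {ρ : E ≃ₐ[k] E} {u : Eˣ} (hu : ρ (u : E) = u) : up E (unK hu) = u := rfl

theorem inD_iffK {ρ : E ≃ₐ[k] E} {lam : Eˣ} (hl : ρ (lam : E) = lam) {a b : kˣ}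
    (m : MQ E a b) :
    E6I.InD (rhoK ρ) (unK hl) (a := up (KK ρ) a) (b := up (KK ρ) b) m ↔ E6O.InD ρ lam m :=
  Iff.rfl

/-- The hypotheses. -/
structure WH (ρ σ : E ≃ₐ[k] E) (lam : Eˣ) (g : Fin 3 → Eˣ) (th s : E) (kap a b c : kˣ) :
    Prop where
  /-- the extension has degree six -/
  h6 : Module.finrank k E = 6
  /-- `ρ` is not trivial -/
  hρ : ρ ≠ 1
  /-- `ρ` has order three -/
  ρ3 : ∀ x, ρ (ρ (ρ x)) = x
  /-- the relations -/
  rel : Rel ρ σ lam g s
  /-- `th` is a square root of `kap` -/
  th2 : th ^ 2 = algebraMap k E kap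
  /-- `th` is fixed by `ρ` -/
  ρth : ρ th = th
  /-- `σ` changes the sign of `th` -/
  σth : σ th = -th
  /-- `lam` is fixed by `ρ` -/
  ρlam : ρ lam = lam
  /-- the cyclic algebra is not split -/
  hlam : ∀ x, x * ρ x * ρ (ρ x) ≠ lam
  /-- the octonion algebra is not split -/
  hdiv : Division (up E a) (up E b) (up E c)

section W

variable [NumberField k] [NumberField E] {ρ σ : E ≃ₐ[k] E} {lam : Eˣ} {g : Fin 3 → Eˣ} {th s : E}
  {kap a b c : kˣ}

theorem WH.th_ne (W : WH ρ σ lam g th s kap a b c) : th ≠ 0 := by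
  intro h
  have h1 := W.th2
  rw [h, zero_pow two_ne_zero] at h1
  exact kap.ne_zero ((map_eq_zero _).mp h1.symm)

theorem rhoK_ne (W : WH ρ σ lam g th s kap a b c) : rhoK ρ ≠ 1 := by
  intro h
  apply W.hρ
  apply AlgEquiv.ext
  intro x
  exact congrArg (fun f : E ≃ₐ[KK ρ] E => f x) h

theorem divK (W : WH ρ σ lam g th s kap a b c) :
    Division (up (KK ρ) a) (up (KK ρ) b) (up (KK ρ) c) := by
  intro x hx
  have h1 : oup E x = (0 : OctL E (up (KK ρ) a) (up (KK ρ) b) (up (KK ρ) c)) := by
    apply W.hdiv
    exact (norm_oup x).trans (by rw [hx, map_zero])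
  exact Alb.oup_injective (h1.trans oup_zero.symm)

/-- The data over the fixed field of `ρ`. -/
theorem WH.HI (W : WH ρ σ lam g th s kap a b c) :
    E6I.Hyp (rhoK ρ) (unK W.ρlam) (up (KK ρ) a) (up (KK ρ) b) (up (KK ρ) c) where
  h3 := finrank_KK W.hρ W.ρ3
  hρ := rhoK_ne W
  hlam x hx := by
    apply W.hlam x
    have h1 := E6I.norm_rho (finrank_KK W.hρ W.ρ3) (rhoK_ne W) x
    rw [hx] at h1
    exact h1.symm
  hdiv := divK W

/-- The quadratic extension. -/
def KW (_ : WH ρ σ lam g th s kap a b c) : Type := KK ρ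

/-- The algebra of degree six. -/
def BW (W : WH ρ σ lam g th s kap a b c) : Type := BB W.HI

variable (W : WH ρ σ lam g th s kap a b c)

noncomputable instance fieldKW : Field (KW W) := inferInstanceAs (Field (KK ρ))
noncomputable instance nfKW : NumberField (KW W) := inferInstanceAs (NumberField (KK ρ))
noncomputable instance algkKW : Algebra k (KW W) := inferInstanceAs (Algebra k (KK ρ))
noncomputable instance algKWE : Algebra (KW W) E := inferInstanceAs (Algebra (KK ρ) E)
noncomputable instance towKW : IsScalarTower k (KW W) E :=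
  inferInstanceAs (IsScalarTower k (KK ρ) E)
noncomputable instance starKW : StarRing (KW W) := starK (ρ := ρ) W.rel.σ2 W.rel.comm

noncomputable instance divBW : DivisionRing (BW W) := inferInstanceAs (DivisionRing (BB W.HI))
noncomputable instance algBW : Algebra (KW W) (BW W) := inferInstanceAs (Algebra (KK ρ) (BB W.HI))
noncomputable instance algkBW : Algebra k (BW W) := Algebra.compHom (BW W) (algebraMap k (KW W))
instance towBW : IsScalarTower k (KW W) (BW W) := IsScalarTower.of_algebraMap_eq fun _ => rfl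
instance cenBW : Algebra.IsCentral (KW W) (BW W) :=
  inferInstanceAs (Algebra.IsCentral (KK ρ) (BB W.HI))
instance finBW : FiniteDimensional (KW W) (BW W) :=
  inferInstanceAs (FiniteDimensional (KK ρ) (BB W.HI))

/-- The matrix of an element. -/
noncomputable def toW : BW W →+* MQ E a b := (toM W.HI).toRingHom

theorem toW_injective : Function.Injective (toW W) := toM_injective W.HI

theorem inD_toW (x : BW W) : InD ρ lam (toW W x) := inD_toM W.HI x

/-- The element with the given matrix. -/
noncomputable def ofW {m : MQ E a b} (hm : InD ρ lam m) : BW W := ofM W.HI (m := m) hm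

theorem toW_ofW {m : MQ E a b} (hm : InD ρ lam m) : toW W (ofW W hm) = m := rfl

theorem toW_smul (t : KW W) (x : BW W) : toW W (t • x) = algebraMap (KW W) E t • toW W x := by
  have h : toM W.HI (t • x) = t • toM W.HI x := map_smul (toM W.HI) _ _
  exact h.trans (E6I.ksmul_eq (k := KK ρ) (L := E) _ _)

noncomputable instance starBW : StarRing (BW W) where
  star x := ofW W (inD_adjM W.rel (inD_toW W x))
  star_involutive x := toW_injective W (adjM_adjM W.rel.σ2 W.rel.σg _)
  star_mul x y := toW_injective W (by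
    refine Eq.trans ?_ (map_mul (toW W) _ _).symm
    change adjM σ g (toW W (x * y)) = adjM σ g (toW W y) * adjM σ g (toW W x)
    rw [map_mul, adjM_mul])
  star_add x y := toW_injective W (by
    refine Eq.trans ?_ (map_add (toW W) _ _).symm
    change adjM σ g (toW W (x + y)) = adjM σ g (toW W x) + adjM σ g (toW W y)
    rw [map_add, adjM_add])

theorem toW_star (x : BW W) : toW W (star x) = adjM σ g (toW W x) := rfl

/-- The square root of `kap`. -/
def thK : KW W := mkK W.ρth

theorem algebraMap_thK : algebraMap (KW W) E (thK W) = th := rfl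

theorem algebraMap_starKW (x : KW W) : algebraMap (KW W) E (star x) = σ (algebraMap (KW W) E x) :=
  rfl

theorem KW_ext {x y : KW W} (h : algebraMap (KW W) E x = algebraMap (KW W) E y) : x = y :=
  (algebraMap (KW W) E).injective h

include W in
/-- The elements fixed by `ρ` and `σ` are in `k`. -/
theorem exists_kW {x : E} (hx : ρ x = x) (hx' : σ x = x) : ∃ t : k, algebraMap k E t = x := by
  have hfin : FiniteDimensional k E := Module.finite_of_finrank_pos (by rw [W.h6]; norm_num)
  obtain ⟨G, hG⟩ : ∃ G : Subgroup (E ≃ₐ[k] E), G = Subgroup.closure {ρ, σ} := ⟨_, rfl⟩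
  have hρG : ρ ∈ G := by rw [hG]; exact Subgroup.subset_closure (by simp)
  have hσG : σ ∈ G := by rw [hG]; exact Subgroup.subset_closure (by simp)
  have hσ1 : σ ≠ 1 := by
    intro h
    have h1 := W.σth
    rw [h, AlgEquiv.one_apply] at h1
    have h2 : (2 : E) * th = 0 := by linear_combination h1
    exact W.th_ne ((mul_eq_zero.mp h2).resolve_left two_ne_zero)
  have hoρ : orderOf ρ = 3 := orderOf_eq_prime (by ext x; exact W.ρ3 x) W.hρ
  have hoσ : orderOf σ = 2 := orderOf_eq_prime (by ext x; exact W.rel.σ2 x) hσ1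
  have h1 : 3 ∣ Nat.card G := by
    rw [← hoρ]
    exact Subgroup.orderOf_dvd_natCard G hρG
  have h2 : 2 ∣ Nat.card G := by
    rw [← hoσ]
    exact Subgroup.orderOf_dvd_natCard G hσG
  have h3 : 2 * 3 ∣ Nat.card G := Nat.Coprime.mul_dvd_of_dvd_of_dvd (by norm_num) h2 h1
  have h4 := Module.finrank_mul_finrank k (IntermediateField.fixedField G) E
  rw [IntermediateField.finrank_fixedField_eq_card, W.h6] at h4
  obtain ⟨m, hm⟩ := h3
  have h5 : Module.finrank k (IntermediateField.fixedField G) = 1 := by
    rw [hm] at h4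
    have h6 : Module.finrank k (IntermediateField.fixedField G) * m = 1 := by
      have : 6 * (Module.finrank k (IntermediateField.fixedField G) * m) = 6 * 1 := by
        rw [mul_one]
        conv_rhs => rw [← h4]
        ring
      omega
    exact Nat.eq_one_of_mul_eq_one_right h6
  have h6 : IntermediateField.fixedField G = ⊥ := IntermediateField.finrank_eq_one_iff.mp h5
  have h7 : x ∈ IntermediateField.fixedField G := by
    rw [IntermediateField.mem_fixedField_iff]
    intro f hf
    rw [hG] at hf
    induction hf using Subgroup.closure_induction with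
    | mem y hy =>
      rcases hy with rfl | hy
      · exact hx
      · rw [Set.mem_singleton_iff.mp hy]
        exact hx'
    | one => rfl
    | mul y z _ _ h1 h2 => rw [AlgEquiv.mul_apply, h2, h1]
    | inv y _ h1 =>
      apply y.injective
      rw [← AlgEquiv.mul_apply, mul_inv_cancel, AlgEquiv.one_apply, h1]
  rw [h6, IntermediateField.mem_bot] at h7
  exact h7

theorem setW : Even.Setting k (KW W) (BW W) kap (thK W) where
  sq := KW_ext W (by
    rw [map_pow, algebraMap_thK, ← IsScalarTower.algebraMap_apply, W.th2])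
  star_s := KW_ext W (by
    rw [algebraMap_starKW, map_neg, algebraMap_thK, W.σth])
  ns := by
    rintro ⟨t, ht⟩
    have h1 : (th - algebraMap k E t) * (th + algebraMap k E t) = 0 := by
      have h2 := W.th2
      rw [ht, map_mul] at h2
      linear_combination h2
    have h3 : σ th = th := by
      rcases mul_eq_zero.mp h1 with h | h
      · rw [sub_eq_zero.mp h, AlgEquiv.commutes]
      · rw [eq_neg_of_add_eq_zero_left h, map_neg, AlgEquiv.commutes]
    rw [W.σth] at h3
    have h4 : (2 : E) * th = 0 := by linear_combination -h3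
    exact W.th_ne ((mul_eq_zero.mp h4).resolve_left two_ne_zero)
  fix x := by
    constructor
    · intro h
      have h1 := congrArg (algebraMap (KW W) E) h
      rw [algebraMap_starKW] at h1
      obtain ⟨t, ht⟩ := exists_kW W (KK_fix ρ x) h1
      exact ⟨t, KW_ext W (by rw [← IsScalarTower.algebraMap_apply, ht]; rfl)⟩
    · rintro ⟨t, rfl⟩
      apply KW_ext W
      rw [algebraMap_starKW, ← IsScalarTower.algebraMap_apply, AlgEquiv.commutes]
  rank := by
    have h1 := Module.finrank_mul_finrank k (KW W) E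
    rw [W.h6, show Module.finrank (KW W) E = 3 from finrank_KK W.hρ W.ρ3] at h1
    omega
  fin := finBW W
  cen := cenBW W
  star_smul x y := toW_injective W (by
    rw [toW_star, toW_smul, toW_smul, toW_star, adjM_smul, algebraMap_starKW])

end W

end Vale.Agent.P011.E6W.H183
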