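import Vale.Agent.P011.E6W.H183.VZ
import Vale.Agent.P011.E6W.H183.Pol
import Vale.Agent.P011.E6W.H183.KRho

/-!
The matrices `X` with `X v = v cᴴ`, for `c` in the centraliser of a symmetric cubic element.
-/

open Matrix

set_option linter.unusedSectionVars false

namespace Vale.Agent.P011.E6W.H183

open Vale.Agent.P011.MPQ hiding mat
open Vale.Agent.P011.D4 Vale.Agent.P011.D4.Oct Vale.Agent.P011.E6
open Vale.Agent.P011.E6.Alb Vale.Agent.P011.E6O
open Vale.Agent.P011.E6I (MQ toMQ u0 toMQ_apply toMQ_mul toMQ_one InVs)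
open Vale.Agent.P011.E6I.Gn (Tm Tm_apply Tm_mul Tm_self Tm_inj Tm_cancel inV_ext inV_add inV_smul
  inV_adj inV_cross mat_mul_adj mat_adj_mul)

variable {k E : Type} [Field k] [Field E] [CharZero E] [Algebra k E]
  {ρ σ : E ≃ₐ[k] E} {lam : Eˣ} {g : Fin 3 → Eˣ} {s : E} {a b c : kˣ}

/-- Cancellation of the hermitian matrix on the right. -/
theorem mat_cancel {v : AlbL E a b c} (hv : InVs v) (h0 : cub v ≠ 0) {X Y : MQ E a b}
    (h : X * mat v = Y * mat v) : X = Y := by
  have h1 := congrArg (fun M => M * mat (adj v)) h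
  simp only [Matrix.mul_assoc, mat_mul_adj hv, Matrix.mul_smul, Matrix.mul_one] at h1
  exact smul_right_injective _ h0 h1

/-- Cancellation of the hermitian matrix on the left. -/
theorem mat_cancel' {v : AlbL E a b c} (hv : InVs v) (h0 : cub v ≠ 0) {X Y : MQ E a b}
    (h : mat v * X = mat v * Y) : X = Y := by
  have h1 := congrArg (fun M => mat (adj v) * M) h
  simp only [← Matrix.mul_assoc, mat_adj_mul hv, Matrix.smul_mul, Matrix.one_mul] at h1
  exact smul_right_injective _ h0 h1

/-- The conjugate with respect to `v`. -/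
noncomputable def barM (v : AlbL E a b c) (x : MQ E a b) : MQ E a b :=
  (cub v)⁻¹ • (mat v * xᴴ * mat (adj v))

theorem barM_mul {v : AlbL E a b c} (hv : InVs v) (h0 : cub v ≠ 0) (x : MQ E a b) :
    barM v x * mat v = mat v * xᴴ := by
  rw [barM, Matrix.smul_mul, Matrix.mul_assoc, mat_adj_mul hv, Matrix.mul_smul, Matrix.mul_one,
    smul_smul, inv_mul_cancel₀ h0, one_smul]

theorem barM_eq {v : AlbL E a b c} (hv : InVs v) (h0 : cub v ≠ 0) {x X : MQ E a b}
    (h : X * mat v = mat v * xᴴ) : barM v x = X :=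
  mat_cancel hv h0 ((barM_mul hv h0 x).trans h.symm)

theorem mat_herm (v : AlbL E a b c) : (mat v)ᴴ = mat v := H64.mat_isHermitian v

variable {v : AlbL E a b c} (hv : InVs v) (h0 : cub v ≠ 0)

include hv h0 in
theorem barM_barM (x : MQ E a b) : barM v (barM v x) = x := by
  apply barM_eq hv h0
  have h1 := congrArg Matrix.conjTranspose (barM_mul hv h0 x)
  rw [Matrix.conjTranspose_mul, Matrix.conjTranspose_mul, mat_herm,
    Matrix.conjTranspose_conjTranspose] at h1
  exact h1.symm

theorem barM_add (x y : MQ E a b) : barM v (x + y) = barM v x + barM v y := by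
  rw [barM, barM, barM, Matrix.conjTranspose_add, Matrix.mul_add, Matrix.add_mul, smul_add]

theorem barM_smul (t : E) (x : MQ E a b) : barM v (t • x) = t • barM v x := by
  rw [barM, barM, conj_smul, Matrix.mul_smul, Matrix.smul_mul, smul_comm]

include hv h0 in
theorem barM_mul' (x y : MQ E a b) : barM v (x * y) = barM v y * barM v x := by
  apply barM_eq hv h0
  rw [Matrix.conjTranspose_mul, Matrix.mul_assoc, barM_mul hv h0, ← Matrix.mul_assoc,
    barM_mul hv h0, Matrix.mul_assoc]

include hv h0 in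
theorem barM_one : barM v (1 : MQ E a b) = 1 := by
  apply barM_eq hv h0
  rw [Matrix.conjTranspose_one, Matrix.one_mul, Matrix.mul_one]

variable {z : MQ E a b} (hz : z * mat v = mat v * zᴴ)

include hv h0 hz in
theorem barM_z : barM v z = z := barM_eq hv h0 hz

include hv h0 hz in
theorem barM_ez (t : Fin 3 → E) : barM v (ez z t) = ez z t := by
  rw [ez, barM_add, barM_add, barM_smul, barM_smul, barM_smul, barM_one hv h0, pow_two,
    barM_mul' hv h0, barM_z hv h0 hz]

include hv h0 hz in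
/-- The conjugate of an element of the centraliser is in the centraliser. -/
theorem barM_comm {x : MQ E a b} (hx : x * z = z * x) : barM v x * z = z * barM v x := by
  have h1 := congrArg (barM v) hx
  rw [barM_mul' hv h0, barM_mul' hv h0, barM_z hv h0 hz] at h1
  exact h1.symm

include hz in
/-- The semilinear map and the cubic element. -/
theorem z_ph (hD : InD ρ lam z) : z * mat (ph ρ lam v) = mat (ph ρ lam v) * zᴴ := by
  rw [mat_ph, Matrix.mul_smul, Matrix.smul_mul]
  congr 1
  calc z * (toMQ (um lam) * (mat v).map (qmap ρ) * (toMQ (um lam) : MQ E a b)ᴴ)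
      = (z * toMQ (um lam)) * (mat v).map (qmap ρ) * (toMQ (um lam) : MQ E a b)ᴴ := by
        simp only [Matrix.mul_assoc]
    _ = toMQ (um lam) * (z * mat v).map (qmap ρ) * (toMQ (um lam) : MQ E a b)ᴴ := by
        rw [hD, H64.map_mul_qmap, Matrix.mul_assoc (toMQ (um lam)) (z.map (qmap ρ))]
    _ = toMQ (um lam) * (mat v).map (qmap ρ) * (z * (toMQ (um lam) : MQ E a b))ᴴ := by
        rw [hz, hD, H64.map_mul_qmap, H64.map_qmap_conjTranspose, Matrix.conjTranspose_mul]
        simp only [Matrix.mul_assoc]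
    _ = _ := by
        rw [Matrix.conjTranspose_mul]
        simp only [Matrix.mul_assoc]

include hv hz in
theorem adj_z (h0 : cub v ≠ 0) : mat (adj v) * z = zᴴ * mat (adj v) := by
  apply mat_cancel' hv h0
  have h1 := congrArg (fun M => M * mat (adj v)) hz
  simp only [Matrix.mul_assoc, mat_mul_adj hv] at h1
  rw [← Matrix.mul_assoc, mat_mul_adj hv, ← h1, Matrix.mul_smul, Matrix.mul_one, Matrix.smul_mul,
    Matrix.one_mul]

include hv h0 in
theorem adj_barM {x X : MQ E a b} (h : X * mat v = mat v * xᴴ) :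
    mat (adj v) * X = xᴴ * mat (adj v) := by
  apply mat_cancel' hv h0
  have h1 := congrArg (fun M => M * mat (adj v)) h
  simp only [Matrix.mul_assoc, mat_mul_adj hv] at h1
  rw [← Matrix.mul_assoc, mat_mul_adj hv, ← h1, Matrix.mul_smul, Matrix.mul_one, Matrix.smul_mul,
    Matrix.one_mul]

include hv h0 in
/-- The polarity and the conjugate. -/
theorem adjM_pol_bar (hσg : ∀ i, σ (g i) = g i) {x X : MQ E a b}
    (h : X * mat v = mat v * xᴴ) :
    adjM σ g X * mat (pol σ g v) = mat (pol σ g v) * (adjM σ g x)ᴴ := by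
  have h1 : ((X.map (qmap σ))ᴴ) * (mat (adj v)).map (qmap σ) =
      (mat (adj v)).map (qmap σ) * x.map (qmap σ) := by
    have h2 := congrArg (fun M => (M.map (qmap σ))ᴴ) (adj_barM hv h0 h)
    simp only [H64.map_mul_qmap, Matrix.conjTranspose_mul, H64.map_qmap_conjTranspose,
      Matrix.conjTranspose_conjTranspose] at h2
    have h3 : ((mat (adj v)).map (qmap σ))ᴴ = (mat (adj v)).map (qmap σ) := by
      rw [← H64.map_qmap_conjTranspose, mat_herm]
    rwa [h3] at h2
  rw [mat_pol hσg, adjM, adjM, Matrix.conjTranspose_mul, Matrix.conjTranspose_mul,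
    Matrix.conjTranspose_conjTranspose, H64.dg_conjTranspose, dgi_conjTranspose]
  calc _ = H64.dgi (up E a) (up E b) g * ((X.map (qmap σ))ᴴ *
        ((dg (up E a) (up E b) g * H64.dgi (up E a) (up E b) g) *
          (mat (adj v)).map (qmap σ))) * H64.dgi (up E a) (up E b) g := by
        simp only [Matrix.mul_assoc]
    _ = H64.dgi (up E a) (up E b) g * ((mat (adj v)).map (qmap σ) * x.map (qmap σ)) *
        H64.dgi (up E a) (up E b) g := by
        rw [H64.dg_mul_dgi, Matrix.one_mul, h1]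
    _ = H64.dgi (up E a) (up E b) g * (mat (adj v)).map (qmap σ) *
        (H64.dgi (up E a) (up E b) g * dg (up E a) (up E b) g) * x.map (qmap σ) *
        H64.dgi (up E a) (up E b) g := by
        rw [H64.dgi_mul_dg, Matrix.mul_one]
        simp only [Matrix.mul_assoc]
    _ = _ := by simp only [Matrix.mul_assoc]

include hv h0 hz in
theorem z_pol (hσg : ∀ i, σ (g i) = g i) (hs : adjM σ g z = z) :
    z * mat (pol σ g v) = mat (pol σ g v) * zᴴ := by
  have h1 := adjM_pol_bar (σ := σ) hv h0 hσg hz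
  rwa [hs] at h1

include hv h0 in
/-- **The conjugate is in `D ⊗ Q`.** -/
theorem inD_barM (hph : ∃ t : Fin 3 → E, mat (ph ρ lam v) = ez z t * mat v) {x : MQ E a b}
    (hx : x * z = z * x) (hz : z * mat v = mat v * zᴴ) (hD : InD ρ lam x) :
    InD ρ lam (barM v x) := by
  obtain ⟨t, ht⟩ := hph
  obtain ⟨X, hX⟩ : ∃ X, X = barM v x := ⟨_, rfl⟩
  have hXv : X * mat v = mat v * xᴴ := by rw [hX, barM_mul hv h0]
  have hXz : X * z = z * X := by rw [hX, barM_comm hv h0 hz hx]
  have e1 : X * mat (ph ρ lam v) = mat (ph ρ lam v) * xᴴ := by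
    rw [ht, ← Matrix.mul_assoc, ez_comm_of hXz, Matrix.mul_assoc, hXv, Matrix.mul_assoc]
  rw [mat_ph, Matrix.mul_smul, Matrix.smul_mul] at e1
  have e2 := smul_right_injective _ lam.ne_zero e1
  have e3 : X * toMQ (um lam) * ((mat v).map (qmap ρ) * (toMQ (um lam) : MQ E a b)ᴴ) =
      toMQ (um lam) * X.map (qmap ρ) * ((mat v).map (qmap ρ) * (toMQ (um lam) : MQ E a b)ᴴ) := by
    calc _ = X * (toMQ (um lam) * (mat v).map (qmap ρ) * (toMQ (um lam) : MQ E a b)ᴴ) := by
          simp only [Matrix.mul_assoc]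
      _ = toMQ (um lam) * (mat v).map (qmap ρ) * (x * (toMQ (um lam) : MQ E a b))ᴴ := by
          rw [e2, Matrix.conjTranspose_mul]
          simp only [Matrix.mul_assoc]
      _ = toMQ (um lam) * (mat v * xᴴ).map (qmap ρ) * (toMQ (um lam) : MQ E a b)ᴴ := by
          rw [hD, H64.map_mul_qmap, H64.map_qmap_conjTranspose, Matrix.conjTranspose_mul]
          simp only [Matrix.mul_assoc]
      _ = _ := by
          rw [← hXv, H64.map_mul_qmap]
          simp only [Matrix.mul_assoc]
  rw [← hX, InD]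
  have e4 := congrArg (fun M => M * (((toMQ (wm lam) : MQ E a b))ᴴ * (mat (adj v)).map (qmap ρ))) e3
  have e5 : ((mat v).map (qmap ρ) * (toMQ (um lam) : MQ E a b)ᴴ) *
      (((toMQ (wm lam) : MQ E a b))ᴴ * (mat (adj v)).map (qmap ρ)) = ρ (cub v) • 1 := by
    have e6 : (toMQ (um lam) : MQ E a b)ᴴ * (toMQ (wm lam) : MQ E a b)ᴴ = 1 := by
      rw [← Matrix.conjTranspose_mul, wq_mul_uq, Matrix.conjTranspose_one]
    calc _ = (mat v).map (qmap ρ) * (((toMQ (um lam) : MQ E a b)ᴴ * (toMQ (wm lam) : MQ E a b)ᴴ) *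
          (mat (adj v)).map (qmap ρ)) := by simp only [Matrix.mul_assoc]
      _ = _ := by
        rw [e6, Matrix.one_mul, ← H64.map_mul_qmap, mat_mul_adj hv, map_smul_qmap, map_one_qmap]
  simp only [Matrix.mul_assoc _ (((mat v).map (qmap ρ)) * (toMQ (um lam) : MQ E a b)ᴴ), e5,
    Matrix.mul_smul, Matrix.mul_one] at e4
  exact smul_right_injective _ ((map_ne_zero ρ).mpr h0) e4

include hv h0 in
/-- **The conjugate and the involution commute.** -/
theorem adjM_barM (hσg : ∀ i, σ (g i) = g i)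
    (hpol : ∃ t : Fin 3 → E, mat (pol σ g v) = ez z t * mat v) {x : MQ E a b}
    (hx : x * z = z * x) (hz : z * mat v = mat v * zᴴ) (hs : adjM σ g z = z) :
    barM v (adjM σ g x) = adjM σ g (barM v x) := by
  obtain ⟨t, ht⟩ := hpol
  have h1 := adjM_pol_bar (σ := σ) hv h0 hσg (barM_mul hv h0 x)
  have h2 : adjM σ g (barM v x) * z = z * adjM σ g (barM v x) := by
    have h3 := congrArg (adjM σ g) (barM_comm hv h0 hz hx)
    rw [adjM_mul, adjM_mul, hs] at h3
    exact h3.symm
  have hp := inV_pol (σ := σ) (g := g) hv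
  have hp0 : cub (pol σ g v) ≠ 0 := by
    rw [cub_pol]
    exact (map_ne_zero σ).mpr (mul_ne_zero (pow_ne_zero 2 (inv_ne_zero (gam_ne g)))
      (pow_ne_zero 2 h0))
  -- the inverse of `ez z t`
  have h4 : (mat v * mat (adj (pol σ g v))) * ez z t = cub (pol σ g v) • 1 := by
    have h5 : ez z t = (cub v)⁻¹ • (mat (pol σ g v) * mat (adj v)) := by
      rw [ht, Matrix.mul_assoc, mat_mul_adj hv, Matrix.mul_smul, Matrix.mul_one, smul_smul,
        inv_mul_cancel₀ h0, one_smul]
    rw [h5, Matrix.mul_smul]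
    have h6 : mat v * mat (adj (pol σ g v)) * (mat (pol σ g v) * mat (adj v)) =
        mat v * (mat (adj (pol σ g v)) * mat (pol σ g v)) * mat (adj v) := by
      simp only [Matrix.mul_assoc]
    rw [h6, mat_adj_mul hp, Matrix.mul_smul, Matrix.mul_one, Matrix.smul_mul, mat_mul_adj hv,
      smul_smul, smul_smul, mul_comm (cub v)⁻¹, mul_assoc, inv_mul_cancel₀ h0, mul_one]
  apply barM_eq hv h0
  rw [ht, ← Matrix.mul_assoc, ez_comm_of h2, Matrix.mul_assoc, Matrix.mul_assoc] at h1
  have h7 := congrArg (fun M => (mat v * mat (adj (pol σ g v))) * M) h1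
  simp only [← Matrix.mul_assoc _ (ez z t), h4, Matrix.smul_mul, Matrix.one_mul] at h7
  exact smul_right_injective _ hp0 h7

end Vale.Agent.P011.E6W.H183
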