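import Vale.Agent.P011.E6W.H183.BarM
import Vale.Agent.P011.E6W.H619.Bar

/-!
Symmetric cubic subfields of the algebra of degree six, with a hermitian matrix: the centraliser
with its canonical involution.
-/

open Matrix Module

set_option linter.unusedSectionVars false

namespace Vale.Agent.P011.E6W.H183

open Vale.Agent.P011.MPQ hiding mat
open Vale.Agent.P011.D4 Vale.Agent.P011.D4.Oct Vale.Agent.P011.E6
open Vale.Agent.P011.E6.Alb Vale.Agent.P011.E6O
open Vale.Agent.P011.E6I (MQ toMQ u0 toMQ_apply toMQ_mul toMQ_one InVs)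
open Vale.Agent.P011.E6I.Gn (Tm Tm_apply Tm_mul Tm_self Tm_inj Tm_cancel inV_ext inV_add inV_smul
  inV_adj inV_cross mat_mul_adj mat_adj_mul)
open Vale.Agent.P011.One (Cen mem_cen)

variable {k E : Type} [Field k] [NumberField k] [Field E] [NumberField E] [Algebra k E]
  {ρ σ : E ≃ₐ[k] E} {lam : Eˣ} {g : Fin 3 → Eˣ} {th s : E} {kap a b c : kˣ}
  (W : WH ρ σ lam g th s kap a b c)

theorem toW_algebraMap (t : KW W) :
    toW W (algebraMap (KW W) (BW W) t) = algebraMap (KW W) E t • 1 := by
  rw [Algebra.algebraMap_eq_smul_one, toW_smul, map_one]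

theorem toW_algebraMap_k (t : k) :
    toW W (algebraMap k (BW W) t) = algebraMap k E t • 1 := by
  rw [IsScalarTower.algebraMap_apply k (KW W) (BW W), toW_algebraMap,
    ← IsScalarTower.algebraMap_apply]

theorem toW_smul_k (t : k) (x : BW W) : toW W (t • x) = algebraMap k E t • toW W x := by
  rw [Algebra.smul_def, map_mul, toW_algebraMap_k, smul_mul_assoc, one_mul]

/-- The map to the matrices reflects equalities. -/
theorem toW_inj {x y : BW W} : toW W x = toW W y ↔ x = y := (toW_injective W).eq_iff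

theorem inV_ph {x : AlbL E a b c} (hx : InVs x) : InVs (ph ρ lam x) := by
  obtain ⟨h1, h2, h3⟩ := hx
  refine ⟨?_, ?_, ?_⟩
  · change (lam : E) • qmap ρ x.x3.snd = 0
    rw [h3, qmap_zero, smul_zero]
  · change qmap ρ x.x1.snd = 0
    rw [h1, qmap_zero]
  · change qmap ρ x.x2.snd = 0
    rw [h2, qmap_zero]

/-- The trace of the extension. -/
def trE (ρ σ : E ≃ₐ[k] E) (x : E) : E := x + ρ x + ρ (ρ x) + σ (x + ρ x + ρ (ρ x))

include W in
theorem exists_trE (x : E) : ∃ t : k, algebraMap k E t = trE ρ σ x := by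
  apply exists_kW W
  · simp only [trE, map_add, W.ρ3, ← W.rel.comm]
    ring
  · simp only [trE, map_add, W.rel.σ2]
    ring

section rel

variable {z : MQ E a b}

theorem inD_pow (hD : InD ρ lam z) (n : ℕ) : InD ρ lam (z ^ n) := by
  induction n with
  | zero =>
    rw [pow_zero, InD, map_one_qmap, Matrix.one_mul, Matrix.mul_one]
  | succ n ih =>
    rw [InD, pow_succ, H64.map_mul_qmap, Matrix.mul_assoc, hD, ← Matrix.mul_assoc, ih,
      Matrix.mul_assoc]

/-- The relations are stable by `ρ`. -/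
theorem ez_rho (hD : InD ρ lam z) {t : Fin 3 → E} {X : MQ E a b} (hX : InD ρ lam X)
    (h : ez z t = X) : ez z (fun i => ρ (t i)) = X := by
  have h1 : (ez z t).map (qmap ρ) = ρ (t 0) • 1 + ρ (t 1) • z.map (qmap ρ) +
      ρ (t 2) • (z ^ 2).map (qmap ρ) := by
    rw [ez, map_add_qmap, map_add_qmap, map_smul_qmap, map_smul_qmap, map_smul_qmap, map_one_qmap]
  have h2 : ez z (fun i => ρ (t i)) * toMQ (um lam) = X * toMQ (um lam) := by
    rw [hX, ← h, h1, ez, Matrix.add_mul, Matrix.add_mul, Matrix.smul_mul, Matrix.smul_mul,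
      Matrix.smul_mul, hD, inD_pow hD 2, Matrix.one_mul, Matrix.mul_add,
      Matrix.mul_add, Matrix.mul_smul, Matrix.mul_smul, Matrix.mul_smul, Matrix.mul_one]
  have h5 := congrArg (fun X : MQ E a b => X * toMQ (wm lam)) h2
  simp only [Matrix.mul_assoc] at h5
  rwa [uq_mul_wq, Matrix.mul_one, Matrix.mul_one] at h5

/-- The relations are stable by `σ`. -/
theorem ez_sigma (hs : adjM σ g z = z) {t : Fin 3 → E} {X : MQ E a b} (h : ez z t = X) :
    ez z (fun i => σ (t i)) = adjM σ g X := by
  rw [← h, ez, ez, adjM_add, adjM_add, adjM_smul, adjM_smul, adjM_smul, adjM_one, pow_two,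
    adjM_mul, hs]

include W in
/-- **Descent of the independence.** -/
theorem ind_of_k (hD : InD ρ lam z) (hs : adjM σ g z = z)
    (hk : ∀ t : Fin 3 → k, ez z (fun i => algebraMap k E (t i)) = 0 → t = 0) (t : Fin 3 → E)
    (ht : ez z t = 0) : t = 0 := by
  have h0 : InD ρ lam (0 : MQ E a b) := by
    have h : (0 : MQ E a b).map (qmap ρ) = 0 := by
      apply Matrix.ext
      intro i j
      exact qmap_zero ρ
    rw [InD, h, Matrix.zero_mul, Matrix.mul_zero]
  have htr : ∀ e : E, ez z (fun i => trE ρ σ (e * t i)) = 0 := by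
    intro e
    have h1 : ez z (fun i => e * t i) = 0 := by
      have h2 := ez_smul (z := z) e t
      rw [ht, smul_zero] at h2
      exact h2
    have h2 := ez_rho hD h0 h1
    have h3 := ez_rho hD h0 h2
    have h4 : ez z (fun i => e * t i + ρ (e * t i) + ρ (ρ (e * t i))) = 0 := by
      have h6 : (fun i => e * t i + ρ (e * t i) + ρ (ρ (e * t i))) =
          (fun i => e * t i) + (fun i => ρ (e * t i)) + fun i => ρ (ρ (e * t i)) := rfl
      rw [h6, ez_add, ez_add, h1, h2, h3, add_zero, add_zero]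
    have h5 := ez_sigma hs h4
    rw [adjM_zero] at h5
    have h6 := ez_add (z := z) (fun i => e * t i + ρ (e * t i) + ρ (ρ (e * t i)))
      (fun i => σ (e * t i + ρ (e * t i) + ρ (ρ (e * t i))))
    rw [h4, h5, add_zero] at h6
    exact h6
  by_contra hne
  obtain ⟨i, hi⟩ : ∃ i, t i ≠ 0 := by
    by_contra hcon
    push Not at hcon
    exact hne (funext hcon)
  choose f hf using fun j => exists_trE W ((t i)⁻¹ * t j)
  have h1 := htr (t i)⁻¹
  have h2 : ez z (fun j => algebraMap k E (f j)) = 0 := by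
    rw [← h1]
    congr 1
    funext j
    exact hf j
  have h3 := congrFun (hk f h2) i
  have h4 := hf i
  rw [h3, Pi.zero_apply, map_zero, inv_mul_cancel₀ hi, trE] at h4
  simp only [map_add, map_one] at h4
  have h5 : (6 : E) = 0 := by linear_combination -h4
  norm_num at h5

end rel

/-- A symmetric cubic subfield of the algebra, with a hermitian matrix. -/
structure FrW {F : Type} [Field F] [Algebra k F] (ι : F →ₐ[k] BW W) (x0 : F)
    (v : AlbL E a b c) : Prop where
  /-- `x0` is a generator -/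
  gen : ∀ y : F, ∃ t : Fin 3 → k, y = ez x0 t
  /-- the degree is three -/
  ind : ∀ t : Fin 3 → k, ez x0 t = 0 → t = 0
  /-- `x0` is symmetric -/
  sym : star (ι x0) = ι x0
  /-- `v` is a matrix -/
  inV : InVs v
  /-- `v` is invertible -/
  ne : cub v ≠ 0
  /-- `z v` is hermitian -/
  hz : toW W (ι x0) * mat v = mat v * (toW W (ι x0))ᴴ

section fr

variable {W} {F : Type} [Field F] [Algebra k F] {ι : F →ₐ[k] BW W} {x0 : F}
  {v : AlbL E a b c} (H : FrW W ι x0 v)

theorem toW_ez (t : Fin 3 → k) :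
    toW W (ι (ez x0 t)) = ez (toW W (ι x0)) (fun i => algebraMap k E (t i)) := by
  rw [ez, ez, map_add ι, map_add ι, map_add (toW W), map_add (toW W), map_smul ι, map_smul ι,
    map_smul ι, toW_smul_k, toW_smul_k, toW_smul_k, map_one, map_one, map_pow, map_pow]

include H

theorem FrW.inD : InD ρ lam (toW W (ι x0)) := inD_toW W _

theorem FrW.adj : adjM σ g (toW W (ι x0)) = toW W (ι x0) := by
  rw [← toW_star, H.sym]

/-- The relation. -/
theorem FrW.exists_rel : ∃ p : Fin 3 → k, x0 ^ 3 = ez x0 p := H.gen _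

theorem FrW.indE (t : Fin 3 → E) (ht : ez (toW W (ι x0)) t = 0) : t = 0 := by
  refine ind_of_k W H.inD H.adj (fun t ht => ?_) t ht
  rw [← toW_ez, ← map_zero (toW W), toW_inj] at ht
  exact H.ind t ((map_eq_zero_iff ι ι.toRingHom.injective).mp ht)

theorem FrW.cub {p : Fin 3 → k} (hp : x0 ^ 3 = ez x0 p) :
    Cub (toW W (ι x0)) (algebraMap k E (p 2)) (algebraMap k E (p 1)) (algebraMap k E (p 0)) where
  rel := by
    rw [← map_pow, ← map_pow, hp, toW_ez, ez]
    abel
  ind := H.indE

theorem FrW.unit (p : Fin 3 → k) : IsUnit (ez (toW W (ι x0))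
    ![-algebraMap k E (p 1), -(2 * algebraMap k E (p 2)), 3]) := by
  have h1 : ez x0 ![-p 1, -(2 * p 2), 3] ≠ 0 := by
    intro h
    have h2 := congrFun (H.ind _ h) 2
    simp only [Matrix.cons_val, Pi.zero_apply] at h2
    norm_num at h2
  have h2 : IsUnit (ι (ez x0 ![-p 1, -(2 * p 2), 3])) := (IsUnit.mk0 _ h1).map ι
  have h3 := h2.map (toW W)
  rw [toW_ez] at h3
  convert h3 using 2
  funext i
  fin_cases i
  · change _ = algebraMap k E (-p 1)
    rw [map_neg]
    rfl
  · change _ = algebraMap k E (-(2 * p 2))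
    rw [map_neg, map_mul, map_ofNat]
    rfl
  · change _ = algebraMap k E 3
    rw [map_ofNat]
    rfl

/-- The elements `y` with `z y = y zᴴ`. -/
theorem FrW.vz {y : AlbL E a b c} (hy : InVs y)
    (hzy : toW W (ι x0) * mat y = mat y * (toW W (ι x0))ᴴ) :
    ∃ t : Fin 3 → E, mat y = ez (toW W (ι x0)) t * mat v := by
  obtain ⟨p, hp⟩ := H.exists_rel
  exact H183.vz H.inV H.ne H.hz (H.cub hp) (H.unit p) hy hzy

theorem FrW.ph_mem : ∃ t : Fin 3 → E, mat (ph ρ lam v) = ez (toW W (ι x0)) t * mat v :=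
  H.vz (inV_ph H.inV) (z_ph H.hz H.inD)

theorem FrW.pol_mem : ∃ t : Fin 3 → E, mat (pol σ g v) = ez (toW W (ι x0)) t * mat v :=
  H.vz (inV_pol H.inV) (z_pol H.inV H.ne H.hz W.rel.σg H.adj)

/-- The elements of the centraliser commute with the cubic element. -/
theorem FrW.mem_iff {x : BW W} : x ∈ Cen ι ↔ toW W x * toW W (ι x0) = toW W (ι x0) * toW W x := by
  rw [mem_cen, ← map_mul, ← map_mul, toW_inj]
  constructor
  · intro h
    exact (h x0).symm
  · intro h t
    obtain ⟨t', rfl⟩ := H.gen t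
    apply toW_injective W
    rw [map_mul, map_mul, toW_ez, ez_comm_of]
    rw [← map_mul, h, map_mul]

theorem FrW.inD_bar {x : BW W} (hx : x ∈ Cen ι) : InD ρ lam (barM v (toW W x)) :=
  inD_barM H.inV H.ne H.ph_mem (H.mem_iff.mp hx) H.hz (inD_toW W x)

end fr

/-- The conjugate. -/
noncomputable def barW (v : AlbL E a b c) (x : BW W) : BW W :=
  open Classical in if h : InD ρ lam (barM v (toW W x)) then ofW W h else 0

section fr2

variable {W} {F : Type} [Field F] [Algebra k F] {ι : F →ₐ[k] BW W} {x0 : F}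
  {v : AlbL E a b c} (H : FrW W ι x0 v)

include H

theorem FrW.toW_bar {x : BW W} (hx : x ∈ Cen ι) : toW W (barW W v x) = barM v (toW W x) := by
  rw [barW, dif_pos (H.inD_bar hx)]
  rfl

theorem FrW.bar_mem {x : BW W} (hx : x ∈ Cen ι) : barW W v x ∈ Cen ι := by
  rw [H.mem_iff, H.toW_bar hx]
  exact barM_comm H.inV H.ne H.hz (H.mem_iff.mp hx)

omit H in
/-- The symmetric elements. -/
theorem ez_fix {z : MQ E a b} (hs : adjM σ g z = z) (t : Fin 3 → k) :
    adjM σ g (ez z (fun i => algebraMap k E (t i))) = ez z (fun i => algebraMap k E (t i)) := by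
  rw [← ez_sigma hs rfl]
  congr 1
  funext i
  exact AlgEquiv.commutes σ _

/-- The elements of `D ⊗ Q` among the polynomials in `z`. -/
theorem FrW.desc {t : Fin 3 → E} (hD : InD ρ lam (ez (toW W (ι x0)) t)) :
    ∃ p r : Fin 3 → k, ∀ i, t i = algebraMap k E (p i) + th * algebraMap k E (r i) := by
  have h1 := ez_rho H.inD hD rfl
  obtain ⟨p, hp⟩ := H.exists_rel
  have h2 := (H.cub hp).inj h1
  have h3 : ∀ x : E, ρ x = x → ∃ p r : k, x = algebraMap k E p + th * algebraMap k E r := by
    intro x hx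
    have hth := W.th_ne
    obtain ⟨x₀, h0⟩ := exists_kW W (x := (x + σ x) / 2)
      (by rw [map_div₀, map_add, W.rel.comm, hx, map_ofNat])
      (by rw [map_div₀, map_add, W.rel.σ2, map_ofNat, add_comm])
    obtain ⟨x₁, h1⟩ := exists_kW W (x := (x - σ x) / (2 * th))
      (by rw [map_div₀, map_sub, map_mul, W.rel.comm, hx, W.ρth, map_ofNat])
      (by rw [map_div₀, map_sub, map_mul, W.rel.σ2, map_ofNat, W.σth, mul_neg, div_neg, ← neg_div,
            neg_sub])
    refine ⟨x₀, x₁, ?_⟩
    rw [h0, h1]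
    field_simp
    ring
  choose f f' hf using fun i => h3 (t i) (congrFun h2 i)
  exact ⟨f, f', hf⟩

/-- **The centraliser of the cubic subfield with its canonical involution.** -/
theorem FrW.bar [NumberField F] : H619.Bar ι (algebraMap k F kap)
    (algebraMap (KW W) (BW W) (thK W)) (barW W v) where
  sym x := by
    obtain ⟨t, rfl⟩ := H.gen x
    apply toW_injective W
    rw [toW_star, toW_ez, ez_fix H.adj]
  cs x _ := Algebra.commutes _ _
  s_mem := mem_cen.mpr fun t => (Algebra.commutes _ _).symm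
  ss := by
    rw [← map_mul, AlgHom.commutes, IsScalarTower.algebraMap_apply k (KW W) (BW W), ← (setW W).sq,
      pow_two]
  star_s := by
    apply toW_injective W
    rw [toW_star, map_neg, toW_algebraMap, adjM_smul, adjM_one, algebraMap_thK, W.σth, neg_smul]
  mem x hx := H.bar_mem hx
  add x hx y hy := by
    apply toW_injective W
    rw [map_add, H.toW_bar (add_mem hx hy), H.toW_bar hx, H.toW_bar hy, map_add, barM_add]
  mul x hx y hy := by
    apply toW_injective W
    rw [map_mul, H.toW_bar (mul_mem hx hy), H.toW_bar hx, H.toW_bar hy, map_mul,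
      barM_mul' H.inV H.ne]
  inv x hx := by
    apply toW_injective W
    rw [H.toW_bar (H.bar_mem hx), H.toW_bar hx, barM_barM H.inV H.ne]
  fix t := by
    have ht : ι t ∈ Cen ι := mem_cen.mpr fun t' => by rw [← map_mul, mul_comm, map_mul]
    apply toW_injective W
    rw [H.toW_bar ht]
    obtain ⟨t', rfl⟩ := H.gen t
    rw [toW_ez, barM_ez H.inV H.ne H.hz]
  fs := by
    have hs : algebraMap (KW W) (BW W) (thK W) ∈ Cen ι :=
      mem_cen.mpr fun t => (Algebra.commutes _ _).symm
    apply toW_injective W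
    rw [H.toW_bar hs, toW_algebraMap, barM_smul, barM_one H.inV H.ne]
  tr x hx := by
    have hX := H.mem_iff.mp hx
    have hXm := inD_bar H hx
    obtain ⟨X, hXd⟩ : ∃ X, X = toW W x := ⟨_, rfl⟩
    obtain ⟨z, hzd⟩ : ∃ z, z = toW W (ι x0) := ⟨_, rfl⟩
    have hz := H.hz
    rw [← hXd, ← hzd] at hX
    rw [← hXd] at hXm
    rw [← hzd] at hz
    have hX' : zᴴ * Xᴴ = Xᴴ * zᴴ := by
      rw [← Matrix.conjTranspose_mul, hX, Matrix.conjTranspose_mul]
    obtain ⟨y, hy, hy'⟩ : ∃ y : AlbL E a b c, InVs y ∧ mat y = X * mat v + mat v * Xᴴ :=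
      exists_mat (by
        rw [Matrix.conjTranspose_add, Matrix.conjTranspose_mul, Matrix.conjTranspose_mul,
          mat_herm, Matrix.conjTranspose_conjTranspose, add_comm])
    obtain ⟨t, ht⟩ := H.vz hy (by
      rw [← hzd, hy', Matrix.mul_add, Matrix.add_mul, ← Matrix.mul_assoc, ← hX, Matrix.mul_assoc,
        hz, ← Matrix.mul_assoc, ← Matrix.mul_assoc, hz, Matrix.mul_assoc (mat v) zᴴ, hX',
        ← Matrix.mul_assoc])
    have h1 : X + barM v X = ez z t := by
      apply mat_cancel H.inV H.ne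
      rw [Matrix.add_mul, barM_mul H.inV H.ne, ← hy', ht, hzd]
    have h2 : InD ρ lam (ez z t) := by
      rw [← h1]
      exact inD_add (by rw [hXd]; exact inD_toW W x) hXm
    rw [hzd] at h2
    obtain ⟨p, r, hpr⟩ := H.desc h2
    refine ⟨ez x0 p, ez x0 r, ?_⟩
    apply toW_injective W
    rw [map_add, map_add, map_mul, toW_ez, toW_ez, H.toW_bar hx, toW_algebraMap, smul_mul_assoc,
      one_mul, ← hXd, h1, ← ez_smul, ← ez_add, ← hzd]
    congr 1
    funext i
    exact hpr i
  st x hx := by
    have hx' : star x ∈ Cen ι := by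
      rw [H.mem_iff, toW_star]
      have h3 := congrArg (adjM σ g) (H.mem_iff.mp hx)
      rw [adjM_mul, adjM_mul, H.adj] at h3
      exact h3.symm
    apply toW_injective W
    rw [toW_star, H.toW_bar hx, H.toW_bar hx', toW_star]
    exact adjM_barM H.inV H.ne W.rel.σg H.pol_mem (H.mem_iff.mp hx) H.hz H.adj

end fr2

/-! ### Existence of the subfield -/

/-- **The cubic subfield attached to a symmetric element.** -/
theorem exists_frW {z : MQ E a b} {v : AlbL E a b c} (hD : InD ρ lam z) (hs : adjM σ g z = z)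
    (hv : InVs v) (h0 : cub v ≠ 0) (hz : z * mat v = mat v * zᴴ) {p : Fin 3 → k}
    (hp : z ^ 3 = ez z (fun i => algebraMap k E (p i)))
    (hk : ∀ t : Fin 3 → k, ez z (fun i => algebraMap k E (t i)) = 0 → t = 0) :
    ∃ (F : Type) (_ : Field F) (_ : NumberField F) (_ : Algebra k F) (ι : F →ₐ[k] BW W) (x0 : F),
      FrW W ι x0 v ∧ toW W (ι x0) = z ∧ finrank k F = 3 := by
  obtain ⟨x, hx⟩ : ∃ x : BW W, toW W x = z := ⟨ofW W hD, rfl⟩
  have he : ∀ t : Fin 3 → k, toW W (ez x t) = ez z (fun i => algebraMap k E (t i)) := by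
    intro t
    rw [ez, ez, map_add (toW W), map_add (toW W), toW_smul_k, toW_smul_k, toW_smul_k, map_one,
      map_pow, hx]
  have hk' : ∀ t : Fin 3 → k, ez x t = 0 → t = 0 := by
    intro t ht
    apply hk
    rw [← he, ht, map_zero]
  have hp' : x ^ 3 = ez x p := by
    apply toW_injective W
    rw [he, map_pow, hx, hp]
  have hfin : FiniteDimensional k (KW W) :=
    Module.finite_of_finrank_pos (by rw [(setW W).rank]; norm_num)
  have hfin' : FiniteDimensional k (BW W) := Module.Finite.trans (KW W) (BW W)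
  have hint : IsIntegral k x := Algebra.IsIntegral.isIntegral x
  obtain ⟨f, hf⟩ : ∃ f, f = minpoly k x := ⟨_, rfl⟩
  have hirr : Irreducible f := by
    rw [hf]
    exact minpoly.irreducible hint
  have hfact : Fact (Irreducible f) := ⟨hirr⟩
  have hf0 : f ≠ 0 := hirr.ne_zero
  have hfx : Polynomial.aeval x f = 0 := by
    rw [hf]
    exact minpoly.aeval k x
  have hmon : f.Monic := by
    rw [hf]
    exact minpoly.monic hint
  -- the degree
  have hle : f.natDegree ≤ 3 := by
    obtain ⟨q, hq⟩ : ∃ q : Polynomial k, q = Polynomial.X ^ 3 - (Polynomial.C (p 0) +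
        Polynomial.C (p 1) * Polynomial.X + Polynomial.C (p 2) * Polynomial.X ^ 2) := ⟨_, rfl⟩
    have h1 : q.natDegree = 3 := by
      rw [hq]
      compute_degree!
    have h2 : Polynomial.aeval x q = 0 := by
      rw [hq, map_sub, map_pow, map_add, map_add, map_mul, map_mul, map_pow,
        Polynomial.aeval_X, Polynomial.aeval_C, Polynomial.aeval_C, Polynomial.aeval_C, hp', ez,
        ← Algebra.smul_def, ← Algebra.smul_def, Algebra.algebraMap_eq_smul_one, sub_self]
    have h3 : q ≠ 0 := by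
      rintro h
      rw [h, Polynomial.natDegree_zero] at h1
      exact absurd h1 (by norm_num)
    rw [← h1]
    refine Polynomial.natDegree_le_of_dvd ?_ h3
    rw [hf]
    exact minpoly.dvd k x h2
  have hsum : ∀ q : Polynomial k, q.natDegree < 3 →
      q = Polynomial.C (q.coeff 0) + Polynomial.C (q.coeff 1) * Polynomial.X +
        Polynomial.C (q.coeff 2) * Polynomial.X ^ 2 := by
    intro q hq
    have h1 := Polynomial.as_sum_range_C_mul_X_pow' q hq
    rw [Finset.sum_range_succ, Finset.sum_range_succ, Finset.sum_range_succ,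
      Finset.sum_range_zero, zero_add, pow_zero, mul_one, pow_one] at h1
    exact h1
  have hdeg : f.natDegree = 3 := by
    by_contra hne
    have h1 : f.natDegree < 3 := lt_of_le_of_ne hle hne
    have h2 := hsum f h1
    have h3 : ez x ![f.coeff 0, f.coeff 1, f.coeff 2] = 0 := by
      rw [h2, map_add, map_add, map_mul, map_mul, map_pow, Polynomial.aeval_X,
        Polynomial.aeval_C, Polynomial.aeval_C, Polynomial.aeval_C,
        ← Algebra.smul_def, ← Algebra.smul_def, Algebra.algebraMap_eq_smul_one] at hfx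
      exact hfx
    have h4 := hk' _ h3
    have e0 : f.coeff 0 = 0 := congrFun h4 0
    have e1 : f.coeff 1 = 0 := congrFun h4 1
    have e2 : f.coeff 2 = 0 := congrFun h4 2
    rw [e0, e1, e2, map_zero, zero_mul, zero_mul, add_zero, add_zero] at h2
    exact hf0 h2
  have hFfin : FiniteDimensional k (AdjoinRoot f) := (AdjoinRoot.powerBasis hf0).finite
  have hchar : CharZero (AdjoinRoot f) :=
    charZero_of_injective_algebraMap (algebraMap k (AdjoinRoot f)).injective
  have hnf : NumberField (AdjoinRoot f) :=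
    { to_charZero := hchar
      to_finiteDimensional := Module.Finite.trans k (AdjoinRoot f) }
  have hlift : ∀ q : Polynomial k, q ∈ Ideal.span {f} → Polynomial.aeval x q = 0 := by
    intro q hq
    obtain ⟨r, rfl⟩ := Ideal.mem_span_singleton.mp hq
    rw [map_mul, hfx, zero_mul]
  obtain ⟨ι, hι⟩ : ∃ ι : AdjoinRoot f →ₐ[k] BW W, ∀ q, ι (AdjoinRoot.mk f q) =
      Polynomial.aeval x q :=
    ⟨Ideal.Quotient.liftₐ (Ideal.span {f}) (Polynomial.aeval x) hlift, fun q => rfl⟩
  have hroot : ι (AdjoinRoot.root f) = x := by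
    have h1 := hι Polynomial.X
    rwa [Polynomial.aeval_X] at h1
  refine ⟨AdjoinRoot f, inferInstance, hnf, inferInstance, ι, AdjoinRoot.root f,
    ⟨?_, ?_, ?_, hv, h0, ?_⟩, ?_, ?_⟩
  · intro y
    obtain ⟨q, rfl⟩ := AdjoinRoot.mk_surjective y
    have h1 : AdjoinRoot.mk f q = AdjoinRoot.mk f (q %ₘ f) := by
      rw [AdjoinRoot.mk_eq_mk]
      exact ⟨q /ₘ f, by linear_combination -(Polynomial.modByMonic_add_div q f)⟩
    have h2 : (q %ₘ f).natDegree < 3 := by
      rw [← hdeg]
      apply Polynomial.natDegree_modByMonic_lt q hmon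
      intro h
      rw [h, Polynomial.natDegree_one] at hdeg
      exact absurd hdeg (by norm_num)
    refine ⟨![(q %ₘ f).coeff 0, (q %ₘ f).coeff 1, (q %ₘ f).coeff 2], ?_⟩
    rw [h1]
    conv_lhs => rw [hsum _ h2]
    rw [map_add, map_add, map_mul, map_mul, map_pow, AdjoinRoot.mk_X, AdjoinRoot.mk_C,
      AdjoinRoot.mk_C, AdjoinRoot.mk_C, ez, Algebra.smul_def, Algebra.smul_def,
      Algebra.smul_def, mul_one]
    rfl
  · intro t ht
    apply hk'
    have h1 := congrArg ι ht
    rw [map_zero, ez, map_add, map_add, map_smul, map_smul, map_smul, map_one, map_pow,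
      hroot] at h1
    exact h1
  · rw [hroot]
    apply toW_injective W
    rw [toW_star, hx, hs]
  · rw [hroot, hx, hz]
  · rw [hroot, hx]
  · rw [(AdjoinRoot.powerBasis hf0).finrank, AdjoinRoot.powerBasis_dim, hdeg]

end Vale.Agent.P011.E6W.H183
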