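import Vale.Agent.P011.E6W.H183.Spl
import Vale.Agent.P011.E6.H64.Act

/-!
The matrices over a definite quaternion algebra as complex matrices with four blocks.
-/

open Matrix
open scoped ComplexConjugate

namespace Vale.Agent.P011.E6W.H183

open Vale.Agent.P011.MPQ
open Vale.Agent.P011.D4 Vale.Agent.P011.D4.Oct Vale.Agent.P011.E6
open Vale.Agent.P011.E6I (MQ toMQ)

variable {k E : Type} [Field k] [Field E] [Algebra k E] {a b : kˣ}

/-- The complex matrix. -/
def blk (f : Qt (up E a) (up E b) →+* Matrix (Fin 2) (Fin 2) ℂ) (M : MQ E a b) :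
    Matrix (Fin 3 ⊕ Fin 3) (Fin 3 ⊕ Fin 3) ℂ :=
  fromBlocks (Matrix.of fun i j => f (M i j) 0 0) (Matrix.of fun i j => f (M i j) 0 1)
    (Matrix.of fun i j => f (M i j) 1 0) (Matrix.of fun i j => f (M i j) 1 1)

variable (f : Qt (up E a) (up E b) →+* Matrix (Fin 2) (Fin 2) ℂ)

theorem blk_mul (M N : MQ E a b) : blk f (M * N) = blk f M * blk f N := by
  have h1 : ∀ i j, f ((M * N) i j) = ∑ l, f (M i l) * f (N l j) := by
    intro i j
    rw [Matrix.mul_apply, map_sum]
    exact Finset.sum_congr rfl fun l _ => map_mul f _ _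
  have h2 : ∀ i j (r s : Fin 2), f ((M * N) i j) r s =
      ∑ l, (f (M i l) r 0 * f (N l j) 0 s + f (M i l) r 1 * f (N l j) 1 s) := by
    intro i j r s
    rw [h1, Matrix.sum_apply]
    refine Finset.sum_congr rfl fun l _ => ?_
    rw [Matrix.mul_apply, Fin.sum_univ_two]
  rw [blk, blk, blk, Matrix.fromBlocks_multiply]
  congr 1 <;>
  · ext i j
    rw [Matrix.of_apply, h2, Finset.sum_add_distrib, Matrix.add_apply, Matrix.mul_apply,
      Matrix.mul_apply]
    rfl

theorem blk_star {σ : E ≃ₐ[k] E} (hf : ∀ q, f (star (qmap σ q)) = (f q)ᴴ) (M : MQ E a b) :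
    blk f ((M.map (qmap σ))ᴴ) = (blk f M)ᴴ := by
  have h1 : ∀ i j, ((M.map (qmap σ))ᴴ) i j = star (qmap σ (M j i)) := fun i j => rfl
  rw [blk, blk, Matrix.fromBlocks_conjTranspose]
  congr 1 <;>
  · ext i j
    rw [Matrix.of_apply, h1, hf]
    rfl

variable {e : E →+* ℂ} (hfe : ∀ t, f (algebraMap E (Qt (up E a) (up E b)) t) = e t • 1)

include hfe in
theorem blk_toMQ (z : Matrix (Fin 3) (Fin 3) E) :
    blk f (toMQ z : MQ E a b) = fromBlocks (z.map e) 0 0 (z.map e) := by
  have h1 : ∀ i j, f ((toMQ z : MQ E a b) i j) = e (z i j) • 1 := fun i j => hfe _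
  rw [blk]
  congr 1 <;>
  · ext i j
    simp [h1]

include hfe in
theorem blk_dg (g : Fin 3 → Eˣ) : blk f (dg (up E a) (up E b) g) =
    fromBlocks (diagonal fun i => e (g i)) 0 0 (diagonal fun i => e (g i)) := by
  have h1 : ∀ i j, f (dg (up E a) (up E b) g i j) = (diagonal (fun i => e (g i)) i j : ℂ) • 1 := by
    intro i j
    by_cases hij : i = j
    · subst hij
      rw [dg, Matrix.diagonal_apply_eq, Matrix.diagonal_apply_eq]
      exact hfe _
    · rw [dg, Matrix.diagonal_apply_ne _ hij, Matrix.diagonal_apply_ne _ hij, zero_smul, map_zero]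
  rw [blk]
  congr 1 <;>
  · ext i j
    simp [h1]

include hfe in
/-- The matrices `A + t B w`. -/
theorem blk_pol {w : Qt (up E a) (up E b)} {x y : ℂ} (hw : f w = diagonal ![x, y])
    (A B : Matrix (Fin 3) (Fin 3) E) (t : E) :
    blk f (Matrix.of fun i j => algebraMap E (Qt (up E a) (up E b)) (A i j) + (t * B i j) • w) =
      fromBlocks (A.map e + (e t * x) • B.map e) 0 0 (A.map e + (e t * y) • B.map e) := by
  have h0 : ∀ s : E, f (s • w) = e s • diagonal ![x, y] := by
    intro s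
    rw [Algebra.smul_def, map_mul, hfe, hw, smul_mul_assoc, one_mul]
  have h1 : ∀ i j, f (algebraMap E (Qt (up E a) (up E b)) (A i j) + (t * B i j) • w) =
      e (A i j) • 1 + (e t * e (B i j)) • diagonal ![x, y] := by
    intro i j
    rw [map_add, h0, hfe, map_mul]
  have h2 : ∀ i j, f ((Matrix.of fun i j => algebraMap E (Qt (up E a) (up E b)) (A i j) +
      (t * B i j) • w) i j) = e (A i j) • 1 + (e t * e (B i j)) • diagonal ![x, y] := h1
  rw [blk]
  congr 1 <;>
  · ext i j
    rw [Matrix.of_apply, h2]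
    simp
    try ring

end Vale.Agent.P011.E6W.H183
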