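import Vale.Agent.P011.E6W.H183.KRho

/-!
The embeddings above the real places which do not split.
-/

open NumberField
open scoped ComplexConjugate

namespace Vale.Agent.P011.E6W.H183

open Vale.Agent.P011.E6O

variable {k E : Type} [Field k] [NumberField k] [Field E] [NumberField E] [Algebra k E]
  {ρ σ : E ≃ₐ[k] E} {lam : Eˣ} {g : Fin 3 → Eˣ} {th s : E} {kap a b c : kˣ}

/-- The elements fixed by `ρ`. -/
theorem exists_kth (W : WH ρ σ lam g th s kap a b c) {x : E} (hx : ρ x = x) :
    ∃ p r : k, x = algebraMap k E p + th * algebraMap k E r := by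
  have hth := W.th_ne
  obtain ⟨x₀, h0⟩ := exists_kW W (x := (x + σ x) / 2)
    (by rw [map_div₀, map_add, W.rel.comm, hx, map_ofNat])
    (by rw [map_div₀, map_add, W.rel.σ2, map_ofNat, add_comm])
  obtain ⟨x₁, h1⟩ := exists_kW W (x := (x - σ x) / (2 * th))
    (by rw [map_div₀, map_sub, map_mul, W.rel.comm, hx, W.ρth, map_ofNat])
    (by rw [map_div₀, map_sub, map_mul, W.rel.σ2, map_ofNat, W.σth, mul_neg, div_neg, ← neg_div,
          neg_sub])
  refine ⟨x₀, x₁, ?_⟩
  rw [h0, h1]
  field_simp
  ring

/-- Two embeddings which agree on `K` differ by a power of `ρ`. -/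
theorem emb_conj (W : WH ρ σ lam g th s kap a b c) {e e' : E →+* ℂ}
    (hk : ∀ x : k, e (algebraMap k E x) = e' (algebraMap k E x)) (hth : e th = e' th) :
    (∀ x, e' x = e x) ∨ (∀ x, e' x = e (ρ x)) ∨ ∀ x, e' x = e (ρ (ρ x)) := by
  have hfix : ∀ x, ρ x = x → e x = e' x := by
    intro x hx
    obtain ⟨p, r, rfl⟩ := exists_kth W hx
    rw [map_add, map_mul, map_add, map_mul, hk, hk, hth]
  have hroot : ∀ x, e' x = e x ∨ e' x = e (ρ x) ∨ e' x = e (ρ (ρ x)) := by
    intro x
    have h1 := hfix (x + ρ x + ρ (ρ x)) (by rw [map_add, map_add, W.ρ3]; ring)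
    have h2 := hfix (x * ρ x + x * ρ (ρ x) + ρ x * ρ (ρ x)) (by
      rw [map_add, map_add, map_mul, map_mul, map_mul, W.ρ3]; ring)
    have h3 := hfix (x * ρ x * ρ (ρ x)) (by rw [map_mul, map_mul, W.ρ3]; ring)
    simp only [map_add, map_mul] at h1 h2 h3
    have h4 : (e' x - e x) * ((e' x - e (ρ x)) * (e' x - e (ρ (ρ x)))) = 0 := by
      linear_combination -(e' x) ^ 2 * h1 + e' x * h2 - h3
    rcases mul_eq_zero.mp h4 with h5 | h5
    · exact Or.inl (sub_eq_zero.mp h5)
    · rcases mul_eq_zero.mp h5 with h6 | h6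
      · exact Or.inr (Or.inl (sub_eq_zero.mp h6))
      · exact Or.inr (Or.inr (sub_eq_zero.mp h6))
  let V : Fin 3 → Submodule k E := fun i =>
    { carrier := {x | e' x = e (if i = 0 then x else if i = 1 then ρ x else ρ (ρ x))}
      add_mem' := by
        intro x y hx hy
        simp only [Set.mem_ofPred_eq] at hx hy ⊢
        split_ifs at hx hy ⊢
        · rw [map_add, map_add, hx, hy]
        · rw [map_add, map_add, map_add, hx, hy]
        · rw [map_add, map_add, map_add, map_add, hx, hy]
      zero_mem' := by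
        simp only [Set.mem_ofPred_eq]
        split_ifs <;> simp
      smul_mem' := by
        intro t x hx
        simp only [Set.mem_ofPred_eq] at hx ⊢
        rw [Algebra.smul_def]
        split_ifs at hx ⊢
        · rw [map_mul, map_mul, hx, hk]
        · rw [map_mul, map_mul, map_mul, AlgEquiv.commutes, hx, hk]
        · rw [map_mul, map_mul, map_mul, map_mul, AlgEquiv.commutes, AlgEquiv.commutes, hx, hk] }
  have hU : ⋃ i, (V i : Set E) = Set.univ := by
    rw [Set.eq_univ_iff_forall]
    intro x
    rw [Set.mem_iUnion]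
    rcases hroot x with h | h | h
    · exact ⟨0, h⟩
    · exact ⟨1, h⟩
    · exact ⟨2, h⟩
  have hinf : Infinite k := inferInstance
  obtain ⟨i, hi⟩ := Subspace.exists_eq_top_of_iUnion_eq_univ hU
  have hall : ∀ x, x ∈ V i := by
    intro x
    rw [hi]
    exact Submodule.mem_top
  fin_cases i
  · exact Or.inl fun x => hall x
  · exact Or.inr (Or.inl fun x => hall x)
  · exact Or.inr (Or.inr fun x => hall x)

/-- **The embeddings above the real places which do not split.** -/
theorem exists_e (W : WH ρ σ lam g th s kap a b c) {τ : k →+* ℝ} (hk : τ kap < 0) :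
    ∃ e : E →+* ℂ, (∀ x, e (σ x) = conj (e x)) ∧ ∀ x : k, e (algebraMap k E x) = (τ x : ℂ) := by
  obtain ⟨e, he⟩ : ∃ e : E →+* ℂ, ∀ x : k, e (algebraMap k E x) = (τ x : ℂ) := by
    let _ : Algebra k ℂ := (Complex.ofRealHom.comp τ).toAlgebra
    have hfin : FiniteDimensional k E := Module.finite_of_finrank_pos (by rw [W.h6]; norm_num)
    let w : E →ₐ[k] ℂ := IsAlgClosed.lift
    exact ⟨w, fun x => w.commutes x⟩
  refine ⟨e, ?_, he⟩
  obtain ⟨e', he'⟩ : ∃ e' : E →+* ℂ, ∀ x, e' x = conj (e (σ x)) :=
    ⟨(starRingEnd ℂ).comp (e.comp (σ : E →+* E)), fun _ => rfl⟩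
  have hth : e th = e' th := by
    rw [he', W.σth, map_neg, map_neg]
    have h1 := congrArg e W.th2
    rw [map_pow, he] at h1
    have h2 : (e th).re = 0 := by
      have h3 := congrArg Complex.im h1
      have h4 := congrArg Complex.re h1
      rw [pow_two, Complex.mul_im, Complex.ofReal_im] at h3
      rw [pow_two, Complex.mul_re, Complex.ofReal_re] at h4
      have h5 : (e th).re * (e th).im = 0 := by linarith
      rcases mul_eq_zero.mp h5 with h6 | h6
      · exact h6
      · rw [h6, mul_zero, sub_zero] at h4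
        have := mul_self_nonneg (e th).re
        linarith
    apply Complex.ext
    · rw [Complex.neg_re, Complex.conj_re, h2, neg_zero]
    · rw [Complex.neg_im, Complex.conj_im, neg_neg]
  have hkk : ∀ x : k, e (algebraMap k E x) = e' (algebraMap k E x) := by
    intro x
    rw [he', AlgEquiv.commutes, he, Complex.conj_ofReal]
  have hinv : ∀ x, e x = conj (e' (σ x)) := by
    intro x
    rw [he', W.rel.σ2, Complex.conj_conj]
  suffices h : ∀ x, e' x = e x by
    intro x
    have h1 := hinv (σ x)
    rw [W.rel.σ2, h] at h1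
    exact h1
  have hρρ : (∀ x, ρ (ρ x) = x) → False := by
    intro h
    apply W.hρ
    apply AlgEquiv.ext
    intro x
    have h1 := W.ρ3 x
    rwa [h] at h1
  rcases emb_conj W hkk hth with h | h | h
  · exact h
  · exfalso
    apply hρρ
    intro x
    apply e.injective
    have h1 := hinv x
    rw [h, W.rel.comm, ← he' (ρ x), h] at h1
    exact h1.symm
  · exfalso
    have h4 : ∀ x, ρ x = x := by
      intro x
      apply e.injective
      have h1 := hinv x
      rw [h, W.rel.comm, W.rel.comm, ← he' (ρ (ρ x)), h, W.ρ3] at h1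
      exact h1.symm
    exact W.hρ (AlgEquiv.ext h4)

end Vale.Agent.P011.E6W.H183
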