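import Mathlib

/-!
The inertia of hermitian matrices of size three.
-/

open Matrix
open scoped ComplexConjugate

namespace Vale.Agent.P011.E6W.H183

/-- The negative coefficients of two diagonal forms. -/
theorem card_neg_le {ι : Type} [Fintype ι] [DecidableEq ι] {l m : ι → ℝ}
    (hm : ∀ i, m i ≠ 0) {A B : Matrix ι ι ℂ} (hB : B.det ≠ 0)
    (h : Aᴴ * diagonal (fun i => (l i : ℂ)) * A = Bᴴ * diagonal (fun i => (m i : ℂ)) * B) :
    Fintype.card {i // m i < 0} ≤ Fintype.card {i // l i < 0} := by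
  by_contra hcon
  push Not at hcon
  let f : (ι → ℂ) →ₗ[ℂ] ({i // l i < 0} → ℂ) × ({i // ¬ m i < 0} → ℂ) :=
    LinearMap.prod (LinearMap.pi fun i => (LinearMap.proj i.1).comp (Matrix.mulVecLin A))
      (LinearMap.pi fun i => (LinearMap.proj i.1).comp (Matrix.mulVecLin B))
  have hcard : Fintype.card {i // m i < 0} + Fintype.card {i // ¬ m i < 0} = Fintype.card ι := by
    rw [Fintype.card_subtype_compl]
    have := Fintype.card_subtype_le fun i => m i < 0
    omega
  have hker : LinearMap.ker f ≠ ⊥ := by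
    apply LinearMap.ker_ne_bot_of_finrank_lt
    rw [Module.finrank_prod, Module.finrank_fintype_fun_eq_card,
      Module.finrank_fintype_fun_eq_card, Module.finrank_fintype_fun_eq_card]
    omega
  obtain ⟨x, hx, hx0⟩ := (Submodule.ne_bot_iff _).mp hker
  have hx1 : ∀ i, l i < 0 → (A *ᵥ x) i = 0 := by
    intro i hi
    have h1 := congrFun (congrArg Prod.fst (LinearMap.mem_ker.mp hx)) ⟨i, hi⟩
    exact h1
  have hx2 : ∀ i, ¬ m i < 0 → (B *ᵥ x) i = 0 := by
    intro i hi
    have h1 := congrFun (congrArg Prod.snd (LinearMap.mem_ker.mp hx)) ⟨i, hi⟩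
    exact h1
  -- the value of the form
  have hval : ∀ (M : Matrix ι ι ℂ) (r : ι → ℝ), star x ⬝ᵥ ((Mᴴ * diagonal (fun i => (r i : ℂ)) * M) *ᵥ x) =
      ((∑ i, r i * Complex.normSq ((M *ᵥ x) i) : ℝ) : ℂ) := by
    intro M r
    rw [← Matrix.mulVec_mulVec, ← Matrix.mulVec_mulVec, Matrix.dotProduct_mulVec,
      ← Matrix.star_mulVec, dotProduct, Complex.ofReal_sum]
    refine Finset.sum_congr rfl fun i _ => ?_
    rw [Matrix.mulVec_diagonal, Pi.star_apply, Complex.ofReal_mul, Complex.normSq_eq_conj_mul_self]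
    change conj _ * _ = _
    ring
  have h1 := hval A l
  rw [h, hval B m, Complex.ofReal_inj] at h1
  have h2 : 0 ≤ ∑ i, l i * Complex.normSq ((A *ᵥ x) i) := by
    refine Finset.sum_nonneg fun i _ => ?_
    by_cases hi : l i < 0
    · rw [hx1 i hi, map_zero, mul_zero]
    · exact mul_nonneg (not_lt.mp hi) (Complex.normSq_nonneg _)
  have h3 : ∀ i, 0 ≤ -(m i * Complex.normSq ((B *ᵥ x) i)) := by
    intro i
    by_cases hi : m i < 0
    · rw [← neg_mul]
      exact mul_nonneg (neg_nonneg.mpr hi.le) (Complex.normSq_nonneg _)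
    · rw [hx2 i hi, map_zero, mul_zero, neg_zero]
  have h4 : ∑ i, -(m i * Complex.normSq ((B *ᵥ x) i)) = 0 := by
    apply le_antisymm _ (Finset.sum_nonneg fun i _ => h3 i)
    rw [Finset.sum_neg_distrib, h1]
    linarith
  have h5 := (Finset.sum_eq_zero_iff_of_nonneg fun i _ => h3 i).mp h4
  have h6 : B *ᵥ x = 0 := by
    funext i
    have h7 := h5 i (Finset.mem_univ i)
    rw [neg_eq_zero, mul_eq_zero] at h7
    exact Complex.normSq_eq_zero.mp (h7.resolve_left (hm i))
  exact hx0 (Matrix.eq_zero_of_mulVec_eq_zero hB h6)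

/-- The number of negative coefficients and the sign of the product. -/
theorem sign_prod {ι : Type} [Fintype ι] [DecidableEq ι] {l : ι → ℝ} (hl : ∀ i, l i ≠ 0) :
    0 < (-1) ^ Fintype.card {i // l i < 0} * ∏ i, l i := by
  have h1 : (-1 : ℝ) ^ Fintype.card {i // l i < 0} = ∏ i, if l i < 0 then (-1 : ℝ) else 1 := by
    rw [Finset.prod_ite, Finset.prod_const_one, mul_one, Finset.prod_const, Fintype.card_subtype]
  rw [h1, ← Finset.prod_mul_distrib]
  refine Finset.prod_pos fun i _ => ?_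
  split_ifs with hi
  · linarith
  · rw [one_mul]
    exact lt_of_le_of_ne (not_lt.mp hi) (hl i).symm

/-- Hermitian matrices are congruent to diagonal matrices. -/
theorem exists_diag {X : Matrix (Fin 3) (Fin 3) ℂ} (hX : X.IsHermitian) (hX0 : X.det ≠ 0) :
    ∃ (l : Fin 3 → ℝ) (U : Matrix (Fin 3) (Fin 3) ℂ), (∀ i, l i ≠ 0) ∧ U.det ≠ 0 ∧
      X = Uᴴ * diagonal (fun i => (l i : ℂ)) * U ∧ X.det = ((∏ i, l i : ℝ) : ℂ) := by
  have h1 := hX.spectral_theorem
  rw [Unitary.conjStarAlgAut_apply] at h1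
  have hdet := hX.det_eq_prod_eigenvalues
  obtain ⟨V, hV⟩ : ∃ V, V = (hX.eigenvectorUnitary : Matrix (Fin 3) (Fin 3) ℂ) := ⟨_, rfl⟩
  have h2 : V * star V = 1 := by
    rw [hV]
    exact Unitary.mul_star_self_of_mem hX.eigenvectorUnitary.2
  rw [← hV] at h1
  have hdet' : X.det = ((∏ i, hX.eigenvalues i : ℝ) : ℂ) := by
    rw [hdet, Complex.ofReal_prod]
    rfl
  refine ⟨hX.eigenvalues, star V, ?_, ?_, ?_, hdet'⟩
  · intro i hi
    apply hX0
    rw [hdet', Finset.prod_eq_zero (Finset.mem_univ i) hi, Complex.ofReal_zero]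
  · intro h
    have h3 := congrArg Matrix.det h2
    rw [Matrix.det_mul, h, mul_zero, Matrix.det_one] at h3
    exact zero_ne_one h3
  · rw [← Matrix.star_eq_conjTranspose, star_star]
    exact h1

/-- **The sign of the determinants.** -/
theorem det_pos {X X' Y R : Matrix (Fin 3) (Fin 3) ℂ} (hX : X.IsHermitian) (hY : Y.IsHermitian)
    (hX0 : X.det ≠ 0) (hY0 : Y.det ≠ 0) (hR : X' = Rᴴ * X * R) (hR0 : R.det ≠ 0)
    {T : Matrix (Fin 3 ⊕ Fin 3) (Fin 3 ⊕ Fin 3) ℂ} (hT0 : T.det ≠ 0)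
    (h : Tᴴ * fromBlocks X 0 0 X' * T = fromBlocks Y 0 0 Y) : 0 < (X.det * Y.det).re := by
  obtain ⟨l, U, hl, hU, hXU, hXd⟩ := exists_diag hX hX0
  obtain ⟨m, V, hm, hV, hYV, hYd⟩ := exists_diag hY hY0
  have hA : (fromBlocks U 0 0 (U * R) * T).det ≠ 0 := by
    rw [Matrix.det_mul, Matrix.det_fromBlocks_zero₂₁, Matrix.det_mul]
    exact mul_ne_zero (mul_ne_zero hU (mul_ne_zero hU hR0)) hT0
  have hB : (fromBlocks V 0 0 V).det ≠ 0 := by
    rw [Matrix.det_fromBlocks_zero₂₁]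
    exact mul_ne_zero hV hV
  have key : (fromBlocks U 0 0 (U * R) * T)ᴴ *
      diagonal (fun i => ((Sum.elim l l i : ℝ) : ℂ)) * (fromBlocks U 0 0 (U * R) * T) =
      (fromBlocks V 0 0 V)ᴴ * diagonal (fun i => ((Sum.elim m m i : ℝ) : ℂ)) *
        fromBlocks V 0 0 V := by
    have hd : ∀ r : Fin 3 → ℝ, diagonal (fun i => ((Sum.elim r r i : ℝ) : ℂ)) =
        fromBlocks (diagonal fun i => (r i : ℂ)) 0 0 (diagonal fun i => (r i : ℂ)) := by
      intro r
      rw [Matrix.fromBlocks_diagonal]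
      congr 1
      funext i
      rcases i with i | i <;> rfl
    have e1 : (fromBlocks U 0 0 (U * R))ᴴ * diagonal (fun i => ((Sum.elim l l i : ℝ) : ℂ)) *
        fromBlocks U 0 0 (U * R) = fromBlocks X 0 0 X' := by
      rw [hd, Matrix.fromBlocks_conjTranspose, Matrix.fromBlocks_multiply,
        Matrix.fromBlocks_multiply]
      simp only [Matrix.mul_zero, Matrix.zero_mul, add_zero, zero_add,
        Matrix.conjTranspose_zero, Matrix.conjTranspose_mul]
      rw [← hXU, hR, hXU]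
      simp only [Matrix.mul_assoc]
    have e2 : (fromBlocks V 0 0 V)ᴴ * diagonal (fun i => ((Sum.elim m m i : ℝ) : ℂ)) *
        fromBlocks V 0 0 V = fromBlocks Y 0 0 Y := by
      rw [hd, Matrix.fromBlocks_conjTranspose, Matrix.fromBlocks_multiply,
        Matrix.fromBlocks_multiply]
      simp only [Matrix.mul_zero, Matrix.zero_mul, add_zero, zero_add,
        Matrix.conjTranspose_zero]
      rw [← hYV]
    rw [Matrix.conjTranspose_mul, e2, ← h, ← e1]
    simp only [Matrix.mul_assoc]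
  have hl' : ∀ i, Sum.elim l l i ≠ 0 := by
    rintro (i | i)
    · exact hl i
    · exact hl i
  have hm' : ∀ i, Sum.elim m m i ≠ 0 := by
    rintro (i | i)
    · exact hm i
    · exact hm i
  have hc : ∀ r : Fin 3 → ℝ, Fintype.card {i // Sum.elim r r i < 0} =
      2 * Fintype.card {i // r i < 0} := by
    intro r
    rw [two_mul, ← Fintype.card_sum]
    refine Fintype.card_congr ⟨?_, ?_, ?_, ?_⟩
    · rintro ⟨i | i, hi⟩
      · exact Sum.inl ⟨i, hi⟩
      · exact Sum.inr ⟨i, hi⟩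
    · rintro (⟨i, hi⟩ | ⟨i, hi⟩)
      · exact ⟨Sum.inl i, hi⟩
      · exact ⟨Sum.inr i, hi⟩
    · rintro ⟨i | i, hi⟩ <;> rfl
    · rintro (⟨i, hi⟩ | ⟨i, hi⟩) <;> rfl
  have h1 := card_neg_le hm' hB key
  have h2 := card_neg_le hl' hA key.symm
  have h3 : Fintype.card {i // l i < 0} = Fintype.card {i // m i < 0} := by
    rw [hc, hc] at h1 h2
    omega
  have h4 := mul_pos (sign_prod hl) (sign_prod hm)
  rw [h3] at h4
  rw [hXd, hYd, ← Complex.ofReal_mul, Complex.ofReal_re]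
  have h5 : ((-1 : ℝ) ^ Fintype.card {i // m i < 0}) * (-1) ^ Fintype.card {i // m i < 0} = 1 := by
    rw [← mul_pow]
    norm_num
  calc (0 : ℝ) < (-1) ^ Fintype.card {i // m i < 0} * (∏ i, l i) *
        ((-1) ^ Fintype.card {i // m i < 0} * ∏ i, m i) := h4
    _ = (((-1) ^ Fintype.card {i // m i < 0}) * (-1) ^ Fintype.card {i // m i < 0}) *
        ((∏ i, l i) * ∏ i, m i) := by ring
    _ = _ := by rw [h5, one_mul]

end Vale.Agent.P011.E6W.H183
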