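import Vale.Agent.P011.E6W.H183.Sgn

/-!
The positivity of the norm of the multiplier.
-/

open Matrix NumberField
open scoped ComplexConjugate

set_option linter.unusedSectionVars false

namespace Vale.Agent.P011.E6W.H183

open Vale.Agent.P011.MPQ hiding mat
open Vale.Agent.P011.D4 Vale.Agent.P011.D4.Oct Vale.Agent.P011.E6
open Vale.Agent.P011.E6I (MQ toMQ Mp S0 S1 S2)
open Vale.Agent.P011.E6W.H196 (dsc3)

variable {k E : Type} [Field k] [NumberField k] [Field E] [NumberField E] [Algebra k E]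
  {σ : E ≃ₐ[k] E} {g : Fin 3 → Eˣ} {th : E} {kap : k} {a b u : kˣ} {w : Qt a b} {p0 p1 p2 : k}
  {A B : Matrix (Fin 3) (Fin 3) k} {P : (MQ E a b)ˣ} {r : Matrix (Fin 3) (Fin 3) E}
  {τ : k →+* ℝ} {e : E →+* ℂ}

theorem ev_ofReal (x : ℝ) (M : Matrix (Fin 3) (Fin 3) ℝ) :
    ev (x : ℂ) (M.map Complex.ofRealHom) = ((ev x M : ℝ) : ℂ) := by
  simp [ev]

/-- **The norm is positive.** -/
theorem phi_pos_aux (hσg : ∀ i, σ (g i) = g i) (hth : th * th = algebraMap k E kap)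
    (hσth : σ th = -th) (hw : w.re = 0) (hww : w * w = (u : k) • (1 : Qt a b))
    (hA : Mp p0 p1 p2 * A = A * Mp p0 p1 p2) (hB : Mp p0 p1 p2 * B = B * Mp p0 p1 p2)
    (hr : r * (Mp p0 p1 p2).map (algebraMap k E) = (Mp p0 p1 p2).map (algebraMap k E) * r)
    (hr0 : r.det ≠ 0)
    (hP : (toMQ ((S0 p1 p2).map (algebraMap k E)) : MQ E a b) *
      (((P : MQ E a b).map (qmap σ))ᴴ * dg (up E a) (up E b) g * (P : MQ E a b)) =
      toMQ r * (Matrix.of fun i j => algebraMap E (Qt (up E a) (up E b)) (algebraMap k E (A i j)) +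
        (th * algebraMap k E (B i j)) • qup E w))
    (he : ∀ x, e (σ x) = conj (e x)) (hek : ∀ x : k, e (algebraMap k E x) = (τ x : ℂ))
    (ha : τ a < 0) (hb : τ b < 0) {y : MQ E a b}
    (hyM : y * toMQ ((Mp p0 p1 p2).map (algebraMap k E)) =
      toMQ ((Mp p0 p1 p2).map (algebraMap k E)) * y)
    (hyw : y * E6I.sc E w = -(E6I.sc E w * y))
    (hya : (((P : MQ E a b).map (qmap σ))ᴴ * dg (up E a) (up E b) g * (P : MQ E a b)) * y =
      -((y.map (qmap σ))ᴴ * (((P : MQ E a b).map (qmap σ))ᴴ * dg (up E a) (up E b) g *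
        (P : MQ E a b))))
    {t' : Fin 3 → k} (hy2 : y * y = toMQ ((t' 0 • (1 : Matrix (Fin 3) (Fin 3) k) +
      t' 1 • Mp p0 p1 p2 + t' 2 • (Mp p0 p1 p2 * Mp p0 p1 p2)).map (algebraMap k E)))
    {x : ℝ} (hx : x ^ 3 + τ p2 * x ^ 2 + τ p1 * x + τ p0 = 0)
    (hneg : τ (t' 0) + τ (t' 1) * x + τ (t' 2) * x ^ 2 < 0) :
    0 < (τ (A 0 0) + τ (A 1 0) * x + τ (A 2 0) * x ^ 2) ^ 2 -
        τ (kap * u) * (τ (B 0 0) + τ (B 1 0) * x + τ (B 2 0) * x ^ 2) ^ 2 := by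
  have h2 : (2 : ℂ) ≠ 0 := two_ne_zero
  -- the square root of `kap`
  obtain ⟨t, ht⟩ : ∃ t : ℝ, e th = (t : ℂ) * Complex.I := by
    refine ⟨(e th).im, ?_⟩
    have h1 := he th
    rw [hσth, map_neg] at h1
    have h3 : (e th).re = 0 := by
      have h4 := congrArg Complex.re h1
      rw [Complex.neg_re, Complex.conj_re] at h4
      linarith
    apply Complex.ext
    · simp [h3]
    · simp
  have ht2 : t ^ 2 = -τ kap := by
    have h1 := congrArg e hth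
    rw [map_mul, ht, hek] at h1
    have h3 : ((t : ℂ) * Complex.I) * ((t : ℂ) * Complex.I) = ((-(t ^ 2) : ℝ) : ℂ) := by
      push_cast
      linear_combination (t : ℂ) ^ 2 * Complex.I_mul_I
    rw [h3, Complex.ofReal_inj] at h1
    linarith
  -- the quaternion
  have hnw : nrd w = -(u : k) := by
    have h1 := congrArg QuaternionAlgebra.re hww
    simp only [QuaternionAlgebra.re_mul, hw, QuaternionAlgebra.re_smul, smul_eq_mul,
      QuaternionAlgebra.re_one, mul_one] at h1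
    rw [nrd, hw]
    linear_combination -h1
  obtain ⟨α, hα⟩ : ∃ α : ℝ, α * α = -τ a := ⟨√(-τ a), Real.mul_self_sqrt (by linarith)⟩
  obtain ⟨β, hβ⟩ : ∃ β : ℝ, β * β = -τ b := ⟨√(-τ b), Real.mul_self_sqrt (by linarith)⟩
  have hau : τ u < 0 := by
    have h1 := congrArg τ hnw
    rw [nrd, hw] at h1
    simp only [map_add, map_sub, map_mul, map_pow, map_neg, map_zero] at h1
    have h3 : τ u ≠ 0 := (map_ne_zero τ).mpr u.ne_zero
    have h4 : 0 ≤ -τ a * τ w.imI ^ 2 := mul_nonneg (by linarith) (sq_nonneg _)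
    have h5 : 0 ≤ -τ b * τ w.imJ ^ 2 := mul_nonneg (by linarith) (sq_nonneg _)
    have h6 : 0 ≤ τ a * τ b * τ w.imK ^ 2 :=
      mul_nonneg (mul_nonneg_of_nonpos_of_nonpos ha.le hb.le) (sq_nonneg _)
    exact lt_of_le_of_ne (by nlinarith) h3
  obtain ⟨ω, hω⟩ : ∃ ω : ℝ, ω * ω = -τ u := ⟨√(-τ u), Real.mul_self_sqrt (by linarith)⟩
  have hω0 : ω ≠ 0 := by
    rintro rfl
    rw [mul_zero] at hω
    linarith
  obtain ⟨f, ω', hω', hf1, hf2, hf3⟩ := exists_sp (A := up E a) (B := up E b) e (α := α) (β := β)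
    (w := qup E w) (w1 := τ w.imI) (w2 := τ w.imJ) (w3 := τ w.imK) (ω := ω) (by
      change e (algebraMap k E a) = _
      rw [hek, ← Complex.ofReal_mul, hα, Complex.ofReal_neg, neg_neg]) (by
      change e (algebraMap k E b) = _
      rw [hek, ← Complex.ofReal_mul, hβ, Complex.ofReal_neg, neg_neg]) (by
      change algebraMap k E w.re = 0
      rw [hw, map_zero]) (hek _) (hek _) (hek _) (by
      have h1 := congrArg τ hnw
      rw [nrd, hw] at h1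
      simp only [map_add, map_sub, map_mul, map_pow, map_neg, map_zero] at h1
      have e1 : (α * τ w.imI) ^ 2 = -τ a * τ w.imI ^ 2 := by rw [mul_pow, pow_two, hα]
      have e2 : (β * τ w.imJ) ^ 2 = -τ b * τ w.imJ ^ 2 := by rw [mul_pow, pow_two, hβ]
      have e3 : (α * β * τ w.imK) ^ 2 = τ a * τ b * τ w.imK ^ 2 := by
        rw [mul_pow, mul_pow, pow_two α, pow_two β, hα, hβ]
        ring
      rw [e1, e2, e3, pow_two ω, hω]
      linear_combination h1) hω0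
  -- the matrices over the complex numbers
  have hfσ : ∀ q, f (star (qmap σ q)) = (f q)ᴴ := fun q => hf2 σ he q
  obtain ⟨Y, hY⟩ : ∃ Y : Matrix (Fin 3) (Fin 3) ℂ, Y = diagonal fun i => e (g i) := ⟨_, rfl⟩
  obtain ⟨S, hS⟩ : ∃ S : Matrix (Fin 3) (Fin 3) ℂ, S = S0 ((τ p1 : ℝ) : ℂ) ((τ p2 : ℝ) : ℂ) := ⟨_, rfl⟩
  obtain ⟨rc, hrc⟩ : ∃ rc : Matrix (Fin 3) (Fin 3) ℂ, rc = r.map e := ⟨_, rfl⟩
  obtain ⟨Ar, hAr⟩ : ∃ Ar : Matrix (Fin 3) (Fin 3) ℝ, Ar = A.map τ := ⟨_, rfl⟩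
  obtain ⟨Br, hBr⟩ : ∃ Br : Matrix (Fin 3) (Fin 3) ℝ, Br = B.map τ := ⟨_, rfl⟩
  obtain ⟨θ, hθ⟩ : ∃ θ : ℝ, θ = t * ω' := ⟨_, rfl⟩
  have hθ2 : θ ^ 2 = τ (kap * u) := by
    rw [hθ, mul_pow, hω', pow_two ω, hω, ht2, map_mul]
    ring
  have key := congrArg (blk f) hP
  have hN := blk_pol f hf1 hf3 (A.map (algebraMap k E)) (B.map (algebraMap k E)) th
  have hAc : (A.map (algebraMap k E)).map e = Ar.map Complex.ofRealHom := by
    ext i j
    rw [hAr]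
    exact hek _
  have hBc : (B.map (algebraMap k E)).map e = Br.map Complex.ofRealHom := by
    ext i j
    rw [hBr]
    exact hek _
  have hSc : ((S0 p1 p2).map (algebraMap k E)).map e = S := by
    rw [S0_map, S0_map, hS]
    congr 1
    · exact hek _
    · exact hek _
  have hmul1 : e th * (Complex.I * ω') = ((-θ : ℝ) : ℂ) := by
    rw [ht, hθ]
    push_cast
    linear_combination ((t : ℂ) * ω') * Complex.I_mul_I
  have hmul2 : e th * (-(Complex.I * ω')) = ((θ : ℝ) : ℂ) := by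
    rw [ht, hθ]
    push_cast
    linear_combination (-((t : ℂ) * ω')) * Complex.I_mul_I
  obtain ⟨Nm, hNm⟩ : ∃ Nm : Matrix (Fin 3) (Fin 3) ℂ, Nm = (Ar - θ • Br).map Complex.ofRealHom :=
    ⟨_, rfl⟩
  obtain ⟨Np, hNp⟩ : ∃ Np : Matrix (Fin 3) (Fin 3) ℂ, Np = (Ar + θ • Br).map Complex.ofRealHom :=
    ⟨_, rfl⟩
  rw [hAc, hBc, hmul1, hmul2] at hN
  have hNm' : Ar.map Complex.ofRealHom + ((-θ : ℝ) : ℂ) • Br.map Complex.ofRealHom = Nm := by
    rw [hNm]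
    ext i j
    simp
    ring
  have hNp' : Ar.map Complex.ofRealHom + ((θ : ℝ) : ℂ) • Br.map Complex.ofRealHom = Np := by
    rw [hNp]
    ext i j
    simp
  rw [hNm', hNp'] at hN
  rw [blk_mul, blk_mul, blk_mul, blk_mul, blk_star f hfσ, blk_toMQ f hf1, blk_dg f hf1,
    blk_toMQ f hf1, hSc, ← hY, ← hrc] at key
  have hN' : blk f (Matrix.of fun i j => algebraMap E (Qt (up E a) (up E b)) (algebraMap k E (A i j)) +
      (th * algebraMap k E (B i j)) • qup E w) = fromBlocks Nm 0 0 Np := hN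
  rw [hN'] at key
  -- the companion matrix
  have hMc : ((Mp p0 p1 p2).map (algebraMap k E)).map e =
      Mp ((τ p0 : ℝ) : ℂ) ((τ p1 : ℝ) : ℂ) ((τ p2 : ℝ) : ℂ) := by
    rw [Mp_map, Mp_map]
    congr 1
    · exact hek _
    · exact hek _
    · exact hek _
  have hrM : rc * Mp ((τ p0 : ℝ) : ℂ) ((τ p1 : ℝ) : ℂ) ((τ p2 : ℝ) : ℂ) =
      Mp ((τ p0 : ℝ) : ℂ) ((τ p1 : ℝ) : ℂ) ((τ p2 : ℝ) : ℂ) * rc := by
    have h1 := congrArg (fun M => M.map e) hr
    simp only [Matrix.map_mul] at h1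
    rwa [hMc, ← hrc] at h1
  have hreC : ∀ M : Matrix (Fin 3) (Fin 3) ℝ, M * Mp (τ p0) (τ p1) (τ p2) = Mp (τ p0) (τ p1) (τ p2) * M →
      M.map Complex.ofRealHom * Mp ((τ p0 : ℝ) : ℂ) ((τ p1 : ℝ) : ℂ) ((τ p2 : ℝ) : ℂ) =
      Mp ((τ p0 : ℝ) : ℂ) ((τ p1 : ℝ) : ℂ) ((τ p2 : ℝ) : ℂ) * M.map Complex.ofRealHom := by
    intro M hM
    have h1 := congrArg (fun M => M.map Complex.ofRealHom) hM
    simp only [Matrix.map_mul] at h1
    rw [Mp_map] at h1
    exact h1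
  have hArM : Ar * Mp (τ p0) (τ p1) (τ p2) = Mp (τ p0) (τ p1) (τ p2) * Ar := by
    have h1 := congrArg (fun M => M.map τ) hA
    simp only [Matrix.map_mul] at h1
    rw [Mp_map, ← hAr] at h1
    exact h1.symm
  have hBrM : Br * Mp (τ p0) (τ p1) (τ p2) = Mp (τ p0) (τ p1) (τ p2) * Br := by
    have h1 := congrArg (fun M => M.map τ) hB
    simp only [Matrix.map_mul] at h1
    rw [Mp_map, ← hBr] at h1
    exact h1.symm
  have hNmM : Nm * Mp ((τ p0 : ℝ) : ℂ) ((τ p1 : ℝ) : ℂ) ((τ p2 : ℝ) : ℂ) =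
      Mp ((τ p0 : ℝ) : ℂ) ((τ p1 : ℝ) : ℂ) ((τ p2 : ℝ) : ℂ) * Nm := by
    rw [hNm]
    apply hreC
    rw [Matrix.sub_mul, Matrix.mul_sub, Matrix.smul_mul, Matrix.mul_smul, hArM, hBrM]
  -- the inverse of `S`
  have hSd : S.det = -1 := by rw [hS, E6I.Fx.det_S0]
  have hSu : IsUnit S.det := by
    rw [hSd]
    exact isUnit_one.neg
  have hSi : S⁻¹ * S = 1 := Matrix.nonsing_inv_mul _ hSu
  have hSi' : S * S⁻¹ = 1 := Matrix.mul_nonsing_inv _ hSu
  obtain ⟨X, hX⟩ : ∃ X, X = S⁻¹ * (rc * Nm) := ⟨_, rfl⟩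
  obtain ⟨X', hX'⟩ : ∃ X', X' = S⁻¹ * (rc * Np) := ⟨_, rfl⟩
  have hG : (blk f (P : MQ E a b))ᴴ * fromBlocks Y 0 0 Y * blk f (P : MQ E a b) =
      fromBlocks X 0 0 X' := by
    have h1 := congrArg (fun M => fromBlocks S⁻¹ 0 0 S⁻¹ * M) key
    simp only [← Matrix.mul_assoc _ (fromBlocks S 0 0 S)] at h1
    simp only [Matrix.fromBlocks_multiply, Matrix.mul_zero, Matrix.zero_mul, add_zero, zero_add,
      hSi, Matrix.fromBlocks_one, Matrix.one_mul] at h1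
    rw [h1, hX, hX']
  have hYh : Y.IsHermitian := by
    rw [hY, Matrix.IsHermitian, Matrix.diagonal_conjTranspose]
    congr 1
    funext i
    change conj (e (g i)) = e (g i)
    rw [← he, hσg]
  have hGh : (fromBlocks X 0 0 X' : Matrix (Fin 3 ⊕ Fin 3) (Fin 3 ⊕ Fin 3) ℂ).IsHermitian := by
    rw [← hG, Matrix.IsHermitian, Matrix.conjTranspose_mul, Matrix.conjTranspose_mul,
      Matrix.conjTranspose_conjTranspose, Matrix.fromBlocks_conjTranspose,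
      Matrix.conjTranspose_zero, hYh, Matrix.mul_assoc]
  have hXh : X.IsHermitian := by
    have h1 := hGh
    rw [Matrix.IsHermitian, Matrix.fromBlocks_conjTranspose] at h1
    exact (Matrix.fromBlocks_inj.mp h1).1
  have hone : blk f (1 : MQ E a b) = 1 := by
    have h1 := blk_toMQ (a := a) (b := b) f hf1 1
    rw [E6I.toMQ_one] at h1
    rw [h1]
    simp
  have hPP : blk f (P : MQ E a b) * blk f ((P⁻¹ : (MQ E a b)ˣ) : MQ E a b) = 1 := by
    rw [← blk_mul, Units.mul_inv, hone]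
  have hgd : ∀ i, e (g i) ≠ 0 := fun i => (map_ne_zero e).mpr (g i).ne_zero
  have hYd : Y.det = e (g 0) * e (g 1) * e (g 2) := by
    rw [hY, Matrix.det_diagonal, Fin.prod_univ_three]
  have hGd : X.det ≠ 0 ∧ X'.det ≠ 0 := by
    have h1 := congrArg Matrix.det hG
    rw [Matrix.det_mul, Matrix.det_mul, Matrix.det_fromBlocks_zero₂₁, Matrix.det_fromBlocks_zero₂₁,
      Matrix.det_conjTranspose] at h1
    have h3 : (blk f (P : MQ E a b)).det ≠ 0 := by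
      intro h
      have h4 := congrArg Matrix.det hPP
      rw [Matrix.det_mul, h, zero_mul, Matrix.det_one] at h4
      exact zero_ne_one h4
    have h4 : Y.det ≠ 0 := by
      rw [hYd]
      exact mul_ne_zero (mul_ne_zero (hgd 0) (hgd 1)) (hgd 2)
    have h5 : X.det * X'.det ≠ 0 := by
      rw [← h1]
      exact mul_ne_zero (mul_ne_zero (star_ne_zero.mpr h3) (mul_ne_zero h4 h4)) h3
    exact ⟨left_ne_zero_of_mul h5, right_ne_zero_of_mul h5⟩
  have hdm : (Ar - θ • Br).det ≠ 0 := by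
    intro h
    apply hGd.1
    have h1 : Nm.det = 0 := by
      rw [hNm]
      have h3 : ((Ar - θ • Br).map Complex.ofRealHom).det = (((Ar - θ • Br).det : ℝ) : ℂ) :=
        (RingHom.map_det Complex.ofRealHom (Ar - θ • Br)).symm
      rw [h3, h, Complex.ofReal_zero]
    rw [hX, Matrix.det_mul, Matrix.det_mul, h1, mul_zero, mul_zero]
  have hdp' : (Ar + θ • Br).det ≠ 0 := by
    intro h
    apply hGd.2
    have h1 : Np.det = 0 := by
      rw [hNp]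
      have h3 : ((Ar + θ • Br).map Complex.ofRealHom).det = (((Ar + θ • Br).det : ℝ) : ℂ) :=
        (RingHom.map_det Complex.ofRealHom (Ar + θ • Br)).symm
      rw [h3, h, Complex.ofReal_zero]
    rw [hX', Matrix.det_mul, Matrix.det_mul, h1, mul_zero, mul_zero]
  -- the blocks of `y`
  obtain ⟨M, hM⟩ : ∃ M : Matrix (Fin 3) (Fin 3) ℂ,
      M = Mp ((τ p0 : ℝ) : ℂ) ((τ p1 : ℝ) : ℂ) ((τ p2 : ℝ) : ℂ) := ⟨_, rfl⟩
  have hω'0 : ω' ≠ 0 := by
    rintro rfl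
    apply hω0
    have h1 : ω ^ 2 = 0 := by rw [← hω', zero_pow two_ne_zero]
    exact pow_eq_zero_iff two_ne_zero |>.mp h1
  obtain ⟨Y11, hY11⟩ : ∃ Z, Z = (blk f y).toBlocks₁₁ := ⟨_, rfl⟩
  obtain ⟨Y12, hY12⟩ : ∃ Z, Z = (blk f y).toBlocks₁₂ := ⟨_, rfl⟩
  obtain ⟨Y21, hY21⟩ : ∃ Z, Z = (blk f y).toBlocks₂₁ := ⟨_, rfl⟩
  obtain ⟨Y22, hY22⟩ : ∃ Z, Z = (blk f y).toBlocks₂₂ := ⟨_, rfl⟩
  have hYb : blk f y = fromBlocks Y11 Y12 Y21 Y22 := by
    rw [hY11, hY12, hY21, hY22, Matrix.fromBlocks_toBlocks]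
  have hsc : blk f (E6I.sc E w : MQ E a b) =
      fromBlocks ((Complex.I * ω') • 1) 0 0 ((-(Complex.I * ω')) • 1) := by
    have h1 : ∀ i j, f ((E6I.sc E w : MQ E a b) i j) =
        (if i = j then (1 : ℂ) else 0) • diagonal ![Complex.I * ω', -(Complex.I * ω')] := by
      intro i j
      rw [E6I.sc, Matrix.diagonal_apply]
      split_ifs
      · rw [hf3, one_smul]
      · rw [map_zero, zero_smul]
    rw [blk]
    congr 1 <;>
    · ext i j
      rw [Matrix.of_apply, h1]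
      by_cases hij : i = j <;> simp [hij]
  have hI0 : Complex.I * (ω' : ℂ) ≠ 0 :=
    mul_ne_zero Complex.I_ne_zero (by exact_mod_cast hω'0)
  have hbneg : ∀ N : MQ E a b, blk f (-N) = -blk f N := by
    intro N
    rw [blk, blk, Matrix.fromBlocks_neg]
    congr 1 <;>
    · ext i j
      simp
  have e1 := congrArg (blk f) hyw
  rw [hbneg, blk_mul, blk_mul, hsc, hYb, Matrix.fromBlocks_multiply, Matrix.fromBlocks_multiply,
    Matrix.fromBlocks_neg] at e1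
  obtain ⟨f11, -, -, f22⟩ := Matrix.fromBlocks_inj.mp e1
  simp only [Matrix.mul_zero, Matrix.zero_mul, add_zero, zero_add, Matrix.mul_smul, Matrix.mul_one,
    Matrix.smul_mul, Matrix.one_mul] at f11 f22
  have hY11z : Y11 = 0 := by
    have h1 : (2 * (Complex.I * (ω' : ℂ))) • Y11 = 0 := by
      linear_combination (norm := module) f11
    exact (smul_eq_zero.mp h1).resolve_left (mul_ne_zero h2 hI0)
  have hY22z : Y22 = 0 := by
    have h1 : (2 * (Complex.I * (ω' : ℂ))) • Y22 = 0 := by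
      linear_combination (norm := module) (-1 : ℂ) • f22
    exact (smul_eq_zero.mp h1).resolve_left (mul_ne_zero h2 hI0)
  rw [hY11z, hY22z] at hYb
  -- the commutation with the companion matrix
  have hMb : blk f (toMQ ((Mp p0 p1 p2).map (algebraMap k E)) : MQ E a b) = fromBlocks M 0 0 M := by
    rw [blk_toMQ f hf1, hMc, ← hM]
  have e2 := congrArg (blk f) hyM
  rw [blk_mul, blk_mul, hMb, hYb, Matrix.fromBlocks_multiply, Matrix.fromBlocks_multiply] at e2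
  obtain ⟨-, g12, g21, -⟩ := Matrix.fromBlocks_inj.mp e2
  simp only [Matrix.mul_zero, add_zero, zero_add] at g12 g21
  -- the square
  obtain ⟨tM, htM⟩ : ∃ tM : Matrix (Fin 3) (Fin 3) ℂ, tM = ((t' 0 • (1 : Matrix (Fin 3) (Fin 3) k) +
      t' 1 • Mp p0 p1 p2 + t' 2 • (Mp p0 p1 p2 * Mp p0 p1 p2)).map τ).map Complex.ofRealHom := ⟨_, rfl⟩
  have e3 := congrArg (blk f) hy2
  rw [blk_mul, blk_toMQ f hf1, hYb, Matrix.fromBlocks_multiply] at e3
  obtain ⟨k11, -, -, -⟩ := Matrix.fromBlocks_inj.mp e3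
  simp only [Matrix.mul_zero, zero_add] at k11
  have hcc : ∀ N : Matrix (Fin 3) (Fin 3) k, (N.map (algebraMap k E)).map e =
      (N.map τ).map Complex.ofRealHom := by
    intro N
    ext i j
    exact hek _
  rw [hcc, ← htM] at k11
  -- the adjoint
  have hblkH : blk f (((P : MQ E a b).map (qmap σ))ᴴ * dg (up E a) (up E b) g * (P : MQ E a b)) =
      fromBlocks X 0 0 X' := by
    rw [blk_mul, blk_mul, blk_star f hfσ, blk_dg f hf1, ← hY, hG]
  obtain ⟨Hm, hHm⟩ : ∃ Hm, Hm = ((P : MQ E a b).map (qmap σ))ᴴ * dg (up E a) (up E b) g *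
    (P : MQ E a b) := ⟨_, rfl⟩
  rw [← hHm] at hblkH hya
  have e4 := congrArg (blk f) hya
  rw [hbneg, blk_mul, blk_mul, hblkH, blk_star f hfσ, hYb, Matrix.fromBlocks_conjTranspose,
    Matrix.fromBlocks_multiply, Matrix.fromBlocks_multiply, Matrix.fromBlocks_neg] at e4
  obtain ⟨-, m12, -, -⟩ := Matrix.fromBlocks_inj.mp e4
  simp only [Matrix.mul_zero, add_zero, zero_add, Matrix.conjTranspose_zero] at m12
  -- the main identity
  have n1 : X * tM = -(Y21ᴴ * X' * Y21) := by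
    rw [← k11, ← Matrix.mul_assoc, m12, Matrix.neg_mul]
  obtain ⟨Yc, hYc⟩ : ∃ Yc, Yc = (Y21ᴴ)ᵀ := ⟨_, rfl⟩
  have hMreal : (Mᴴ)ᵀ = M := by
    rw [hM]
    ext i j
    fin_cases i <;> fin_cases j <;> simp [Mp]
  have hYcM : Yc * M = M * Yc := by
    have h1 := congrArg (fun N => (Nᴴ)ᵀ) g21
    simp only [Matrix.conjTranspose_mul, Matrix.transpose_mul, hMreal] at h1
    rw [hYc]
    exact h1
  have hYcS : S⁻¹ * Yc = Y21ᴴ * S⁻¹ := by
    have h1 : Yc * S = S * Ycᵀ := by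
      rw [hS]
      apply comm_S0 (p0 := ((τ p0 : ℝ) : ℂ))
      rw [← hM, hYcM]
    have h3 : Ycᵀ = Y21ᴴ := by rw [hYc, Matrix.transpose_transpose]
    calc S⁻¹ * Yc = S⁻¹ * (Yc * S) * S⁻¹ := by
          rw [Matrix.mul_assoc, Matrix.mul_assoc, hSi', Matrix.mul_one]
      _ = Y21ᴴ * S⁻¹ := by rw [h1, ← Matrix.mul_assoc, hSi, Matrix.one_mul, h3]
  have hrcu : IsUnit rc.det := by
    have h1 : rc.det = e r.det := by
      rw [hrc]
      exact (RingHom.map_det e r).symm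
    rw [h1]
    exact isUnit_iff_ne_zero.mpr ((map_ne_zero e).mpr hr0)
  have n2 : Nm * tM = -(Yc * Np * Y21) := by
    have h1 : S⁻¹ * (rc * (Nm * tM)) = S⁻¹ * (rc * (-(Yc * Np * Y21))) := by
      rw [hX, hX'] at n1
      calc _ = S⁻¹ * (rc * Nm) * tM := by simp only [Matrix.mul_assoc]
        _ = -(Y21ᴴ * (S⁻¹ * (rc * Np)) * Y21) := n1
        _ = -(Y21ᴴ * S⁻¹ * rc * Np * Y21) := by simp only [Matrix.mul_assoc]
        _ = -(S⁻¹ * (Yc * rc) * Np * Y21) := by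
            rw [← hYcS]
            simp only [Matrix.mul_assoc]
        _ = _ := by
            rw [comm_comm (p0 := ((τ p0 : ℝ) : ℂ)) (p1 := ((τ p1 : ℝ) : ℂ))
              (p2 := ((τ p2 : ℝ) : ℂ)) (v := Yc) (w := rc) (by rw [← hM, hYcM]) hrM]
            simp only [Matrix.mul_assoc, Matrix.mul_neg]
    have h3 := congrArg (fun N => S * N) h1
    simp only [← Matrix.mul_assoc S, hSi', Matrix.one_mul] at h3
    have h4 := congrArg (fun N => rc⁻¹ * N) h3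
    simp only [← Matrix.mul_assoc rc⁻¹, Matrix.nonsing_inv_mul _ hrcu, Matrix.one_mul] at h4
    exact h4
  -- the values
  have hxc : (x : ℂ) ^ 3 + ((τ p2 : ℝ) : ℂ) * (x : ℂ) ^ 2 + ((τ p1 : ℝ) : ℂ) * x +
      ((τ p0 : ℝ) : ℂ) = 0 := by
    exact_mod_cast congrArg Complex.ofReal hx
  have hYcM' : Yc * Mp ((τ p0 : ℝ) : ℂ) ((τ p1 : ℝ) : ℂ) ((τ p2 : ℝ) : ℂ) =
      Mp ((τ p0 : ℝ) : ℂ) ((τ p1 : ℝ) : ℂ) ((τ p2 : ℝ) : ℂ) * Yc := by rw [← hM, hYcM]
  have hNpM : Np * Mp ((τ p0 : ℝ) : ℂ) ((τ p1 : ℝ) : ℂ) ((τ p2 : ℝ) : ℂ) =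
      Mp ((τ p0 : ℝ) : ℂ) ((τ p1 : ℝ) : ℂ) ((τ p2 : ℝ) : ℂ) * Np := by
    rw [hNp]
    apply hreC
    rw [Matrix.add_mul, Matrix.mul_add, Matrix.smul_mul, Matrix.mul_smul, hArM, hBrM]
  have hY12M : Y12 * Mp ((τ p0 : ℝ) : ℂ) ((τ p1 : ℝ) : ℂ) ((τ p2 : ℝ) : ℂ) =
      Mp ((τ p0 : ℝ) : ℂ) ((τ p1 : ℝ) : ℂ) ((τ p2 : ℝ) : ℂ) * Y12 := by rw [← hM, g12]
  have v1 := congrArg (ev (x : ℂ)) n2
  have hevneg : ∀ N : Matrix (Fin 3) (Fin 3) ℂ, ev (x : ℂ) (-N) = -ev (x : ℂ) N := by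
    intro N
    simp [ev]
    ring
  have hYcNp : (Yc * Np) * Mp ((τ p0 : ℝ) : ℂ) ((τ p1 : ℝ) : ℂ) ((τ p2 : ℝ) : ℂ) =
      Mp ((τ p0 : ℝ) : ℂ) ((τ p1 : ℝ) : ℂ) ((τ p2 : ℝ) : ℂ) * (Yc * Np) := by
    rw [Matrix.mul_assoc, hNpM, ← Matrix.mul_assoc, hYcM', Matrix.mul_assoc]
  rw [ev_mul hxc hNmM, hevneg, ev_mul hxc hYcNp, ev_mul hxc hYcM'] at v1
  have v2 := congrArg (ev (x : ℂ)) k11
  rw [ev_mul hxc hY12M] at v2
  have hevNm : ev (x : ℂ) Nm = ((ev x Ar - θ * ev x Br : ℝ) : ℂ) := by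
    rw [hNm, ev_ofReal]
    congr 1
    simp [ev]
    ring
  have hevNp : ev (x : ℂ) Np = ((ev x Ar + θ * ev x Br : ℝ) : ℂ) := by
    rw [hNp, ev_ofReal]
    congr 1
    simp [ev]
    ring
  have hevt : ev (x : ℂ) tM = ((τ (t' 0) + τ (t' 1) * x + τ (t' 2) * x ^ 2 : ℝ) : ℂ) := by
    rw [htM, ev_ofReal]
    congr 1
    rw [E6I.Fx.Mp_sq]
    simp [ev, Mp]
  have hevYc : ev (x : ℂ) Yc = conj (ev (x : ℂ) Y21) := by
    rw [hYc]
    simp [ev]
  obtain ⟨T, hT⟩ : ∃ T : ℝ, T = τ (t' 0) + τ (t' 1) * x + τ (t' 2) * x ^ 2 := ⟨_, rfl⟩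
  obtain ⟨np, hnp⟩ : ∃ n : ℝ, n = ev x Ar + θ * ev x Br := ⟨_, rfl⟩
  obtain ⟨nm, hnm⟩ : ∃ n : ℝ, n = ev x Ar - θ * ev x Br := ⟨_, rfl⟩
  obtain ⟨yy, hyy⟩ : ∃ yy : ℂ, yy = ev (x : ℂ) Y21 := ⟨_, rfl⟩
  rw [hevNm, hevNp, hevt, hevYc, ← hT, ← hnp, ← hnm, ← hyy] at v1
  rw [hevt, ← hT, ← hyy] at v2
  rw [← hT] at hneg
  have hyy0 : yy ≠ 0 := by
    intro h
    rw [h, mul_zero] at v2
    have h1 : T = 0 := by exact_mod_cast v2.symm
    exact hneg.ne h1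
  have hnp0 : np ≠ 0 := by
    intro h
    have hNpu : IsUnit Np.det := by
      have h1 : Np.det = (((Ar + θ • Br).det : ℝ) : ℂ) := by
        rw [hNp]
        exact (RingHom.map_det Complex.ofRealHom (Ar + θ • Br)).symm
      rw [h1]
      exact isUnit_iff_ne_zero.mpr (by exact_mod_cast hdp')
    have h1 := congrArg (ev (x : ℂ)) (Matrix.mul_nonsing_inv Np hNpu)
    rw [ev_mul hxc hNpM, hevNp, ← hnp, h] at h1
    simp [ev] at h1
  have v3 : nm * T = -(Complex.normSq yy * np) := by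
    have h1 : ((nm * T : ℝ) : ℂ) = ((-(Complex.normSq yy * np) : ℝ) : ℂ) := by
      push_cast
      rw [v1, Complex.normSq_eq_conj_mul_self]
      ring
    exact_mod_cast h1
  have hns : 0 < Complex.normSq yy := Complex.normSq_pos.mpr hyy0
  have hgoal : (τ (A 0 0) + τ (A 1 0) * x + τ (A 2 0) * x ^ 2) ^ 2 -
        τ (kap * u) * (τ (B 0 0) + τ (B 1 0) * x + τ (B 2 0) * x ^ 2) ^ 2 = nm * np := by
    rw [hnm, hnp, ← hθ2, hAr, hBr]
    simp only [ev, Matrix.map_apply]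
    ring
  rw [hgoal]
  have h5 : nm * np * (-T) = Complex.normSq yy * np ^ 2 := by linear_combination (-np) * v3
  have h6 : 0 < nm * np * (-T) := by
    rw [h5]
    exact mul_pos hns (by positivity)
  exact pos_of_mul_pos_left h6 (by linarith)

end Vale.Agent.P011.E6W.H183
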