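import Vale.Agent.P011.E6W.H183.PhiAux
import Vale.Agent.P011.E6W.H183.EmbE
import Vale.Agent.P011.E6W.H684.P1e

/-!
The positivity of the norm of the multiplier, in the form used by the frames.
-/

open Matrix NumberField
open scoped ComplexConjugate

set_option linter.unusedSectionVars false

namespace Vale.Agent.P011.E6W.H183

open Vale.Agent.P011.MPQ hiding mat
open Vale.Agent.P011.D4 Vale.Agent.P011.D4.Oct Vale.Agent.P011.E6
open Vale.Agent.P011.E6I (MQ toMQ Mp S0 S1 S2)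
open Vale.Agent.P011.E6I.Fx (MpL)
open Vale.Agent.P011.E6O (InD um)
open Vale.Agent.P011.E6W.H196 (dsc3)
open Vale.Agent.P011.E6W.H684 (etaQ phE scw HQ HQ_rel)

variable {k E : Type} [Field k] [NumberField k] [Field E] [NumberField E] [Algebra k E]
  {ρ σ : E ≃ₐ[k] E} {lam : Eˣ} {g : Fin 3 → Eˣ} {th s : E} {kap a b c : kˣ}

/-- **The norm is positive.** -/
theorem phi_pos (W : WH ρ σ lam g th s kap a b c) {p0 p1 p2 : k} {w : Qt a b} {u : kˣ}
    (hw : w.re = 0) (hww : w * w = (u : k) • (1 : Qt a b)) {Q : (MQ E a b)ˣ} {z w' y' : MQ E a b}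
    (hzQ : z * (Q : MQ E a b) = (Q : MQ E a b) * toMQ (MpL E p0 p1 p2))
    (hwQ : w' * (Q : MQ E a b) = (Q : MQ E a b) * scw E w)
    {r : Matrix (Fin 3) (Fin 3) E} {A B : Matrix (Fin 3) (Fin 3) k}
    (hr : r * MpL E p0 p1 p2 = MpL E p0 p1 p2 * r) (hrd : r.det ≠ 0)
    (hA : Mp p0 p1 p2 * A = A * Mp p0 p1 p2) (hB : Mp p0 p1 p2 * B = B * Mp p0 p1 p2)
    (hη : etaQ σ g p1 p2 (Q : MQ E a b) = toMQ r * phE th w A B)
    (hyz : y' * z = z * y') (hys : adjM σ g y' = -y') (hwy : w' * y' = -(y' * w'))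
    {t : Fin 3 → k} (hyy : y' * y' = algebraMap k E (t 0) • (1 : MQ E a b) +
      algebraMap k E (t 1) • z + algebraMap k E (t 2) • z ^ 2)
    {τ : k →+* ℝ} (hk : τ kap < 0) (ha : τ a < 0) (hb : τ b < 0) {x : ℝ}
    (hx : x ^ 3 + τ p2 * x ^ 2 + τ p1 * x + τ p0 = 0)
    (ht : τ (t 0) + τ (t 1) * x + τ (t 2) * x ^ 2 < 0) :
    0 < (τ (A 0 0) + τ (A 1 0) * x + τ (A 2 0) * x ^ 2) ^ 2 -
      τ ((kap : k) * (u : k)) * (τ (B 0 0) + τ (B 1 0) * x + τ (B 2 0) * x ^ 2) ^ 2 := by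
  obtain ⟨e, he, hek⟩ := exists_e W hk
  obtain ⟨Qi, hQi⟩ : ∃ Qi : MQ E a b, Qi = ((Q⁻¹ : (MQ E a b)ˣ) : MQ E a b) := ⟨_, rfl⟩
  have hQQ : (Q : MQ E a b) * Qi = 1 := by rw [hQi, Units.mul_inv]
  have hQQ' : Qi * (Q : MQ E a b) = 1 := by rw [hQi, Units.inv_mul]
  obtain ⟨y, hy⟩ : ∃ y, y = Qi * y' * (Q : MQ E a b) := ⟨_, rfl⟩
  have hyQ : y' * (Q : MQ E a b) = (Q : MQ E a b) * y := by
    rw [hy, ← Matrix.mul_assoc, ← Matrix.mul_assoc, hQQ, Matrix.one_mul]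
  obtain ⟨M, hM⟩ : ∃ M : MQ E a b, M = toMQ (MpL E p0 p1 p2) := ⟨_, rfl⟩
  rw [← hM] at hzQ
  have hcan : ∀ X Y : MQ E a b, (Q : MQ E a b) * X = (Q : MQ E a b) * Y → X = Y := by
    intro X Y h
    have h1 := congrArg (fun Z => Qi * Z) h
    simp only [← Matrix.mul_assoc Qi, hQQ', Matrix.one_mul] at h1
    exact h1
  have hyM : y * M = M * y := by
    apply hcan
    rw [← Matrix.mul_assoc, ← hyQ, Matrix.mul_assoc, ← hzQ, ← Matrix.mul_assoc, hyz,
      Matrix.mul_assoc, hyQ, ← Matrix.mul_assoc, hzQ, Matrix.mul_assoc]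
  have hyw : y * scw E w = -(scw E w * y) := by
    apply hcan
    rw [← Matrix.mul_assoc, ← hyQ, Matrix.mul_assoc, ← hwQ, ← Matrix.mul_assoc, Matrix.mul_neg,
      ← Matrix.mul_assoc, ← hwQ, Matrix.mul_assoc w', ← hyQ, ← Matrix.mul_assoc, hwy,
      Matrix.neg_mul, neg_neg]
  have hMm : (toMQ ((Mp p0 p1 p2).map (algebraMap k E)) : MQ E a b) = M := by
    rw [hM, H684.Mp_map]
  have hya : HQ σ g (Q : MQ E a b) * y = -((y.map (qmap σ))ᴴ * HQ σ g (Q : MQ E a b)) := by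
    rw [HQ_rel hyQ, hys, Matrix.neg_mul, Matrix.mul_neg, neg_neg, hyQ, HQ]
    simp only [Matrix.mul_assoc]
  have hy2 : y * y = toMQ ((t 0 • (1 : Matrix (Fin 3) (Fin 3) k) +
      t 1 • Mp p0 p1 p2 + t 2 • (Mp p0 p1 p2 * Mp p0 p1 p2)).map (algebraMap k E)) := by
    have h1 : (toMQ ((t 0 • (1 : Matrix (Fin 3) (Fin 3) k) +
        t 1 • Mp p0 p1 p2 + t 2 • (Mp p0 p1 p2 * Mp p0 p1 p2)).map (algebraMap k E)) : MQ E a b) =
        algebraMap k E (t 0) • (1 : MQ E a b) + algebraMap k E (t 1) • M +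
          algebraMap k E (t 2) • (M * M) := by
      have h2 : (t 0 • (1 : Matrix (Fin 3) (Fin 3) k) +
        t 1 • Mp p0 p1 p2 + t 2 • (Mp p0 p1 p2 * Mp p0 p1 p2)).map (algebraMap k E) =
          algebraMap k E (t 0) • 1 + algebraMap k E (t 1) • MpL E p0 p1 p2 +
            algebraMap k E (t 2) • (MpL E p0 p1 p2 * MpL E p0 p1 p2) := by
        rw [H684.Mp_map, ← Matrix.map_mul]
        generalize Mp p0 p1 p2 * Mp p0 p1 p2 = N
        ext i j
        have h3 : algebraMap k E ((1 : Matrix (Fin 3) (Fin 3) k) i j) =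
            (1 : Matrix (Fin 3) (Fin 3) E) i j := by
          rw [Matrix.one_apply, Matrix.one_apply]
          split_ifs
          · exact map_one _
          · exact map_zero _
        simp only [Matrix.map_apply, Matrix.add_apply, Matrix.smul_apply, smul_eq_mul, map_add,
          map_mul, h3]
      rw [h2, H684.toMQ_add, H684.toMQ_add, H684.toMQ_smul, H684.toMQ_smul, H684.toMQ_smul,
        H684.toMQ_mul', E6I.toMQ_one, ← hM]
    rw [h1]
    apply hcan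
    rw [← Matrix.mul_assoc, ← hyQ, Matrix.mul_assoc, ← hyQ, ← Matrix.mul_assoc, hyy,
      Matrix.add_mul, Matrix.add_mul, Matrix.mul_add, Matrix.mul_add, Matrix.smul_mul,
      Matrix.smul_mul, Matrix.smul_mul, Matrix.mul_smul, Matrix.mul_smul, Matrix.mul_smul,
      Matrix.one_mul, Matrix.mul_one, hzQ, pow_two, Matrix.mul_assoc z, hzQ, ← Matrix.mul_assoc z,
      hzQ, Matrix.mul_assoc]
  have hr' : r * (Mp p0 p1 p2).map (algebraMap k E) = (Mp p0 p1 p2).map (algebraMap k E) * r := by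
    rw [← H684.Mp_map]
    exact hr
  have hP : (toMQ ((S0 p1 p2).map (algebraMap k E)) : MQ E a b) *
      (((Q : MQ E a b).map (qmap σ))ᴴ * dg (up E a) (up E b) g * (Q : MQ E a b)) =
      toMQ r * (Matrix.of fun i j => algebraMap E (Qt (up E a) (up E b)) (algebraMap k E (A i j)) +
        (th * algebraMap k E (B i j)) • qup E w) := by
    rw [← H684.S0_map]
    exact hη
  exact phi_pos_aux W.rel.σg (by rw [← pow_two, W.th2]) W.σth hw hww hA hB hr' hrd hP he hek ha hb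
    (by rw [hMm]; exact hyM) hyw hya hy2 hx ht

end Vale.Agent.P011.E6W.H183
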