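import Vale.Agent.P011.E6W.H964.Sqrt
import Vale.Agent.P011.E6W.H196.ExM
import Vale.Agent.P011.E6I.FxP

/-!
The square roots in the algebra generated by a real companion matrix.
-/

open Matrix

namespace Vale.Agent.P011.E6W.H183

open Vale.Agent.P011.E6I (Mp)
open Vale.Agent.P011.E6W.H196 (dsc3)

section ev

variable {F : Type} [Field F] {p0 p1 p2 x : F}

/-- The value of a polynomial in the companion matrix. -/
def ev (x : F) (v : Matrix (Fin 3) (Fin 3) F) : F := v 0 0 + v 1 0 * x + v 2 0 * x ^ 2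

theorem vecMul_Mp (hx : x ^ 3 + p2 * x ^ 2 + p1 * x + p0 = 0) :
    ![1, x, x ^ 2] ᵥ* Mp p0 p1 p2 = x • ![1, x, x ^ 2] := by
  funext i
  fin_cases i
  · simp [Mp, Matrix.vecMul, dotProduct, Fin.sum_univ_three]
  · simp [Mp, Matrix.vecMul, dotProduct, Fin.sum_univ_three]
    ring
  · simp [Mp, Matrix.vecMul, dotProduct, Fin.sum_univ_three]
    linear_combination -hx

theorem vecMul_ev (hx : x ^ 3 + p2 * x ^ 2 + p1 * x + p0 = 0) {v : Matrix (Fin 3) (Fin 3) F}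
    (h : v * Mp p0 p1 p2 = Mp p0 p1 p2 * v) : ![1, x, x ^ 2] ᵥ* v = ev x v • ![1, x, x ^ 2] := by
  conv_lhs => rw [E6I.Fx.eq_of_comm h]
  rw [Matrix.vecMul_add, Matrix.vecMul_add, Matrix.vecMul_smul, Matrix.vecMul_smul,
    Matrix.vecMul_smul, Matrix.vecMul_one, ← Matrix.vecMul_vecMul, vecMul_Mp hx,
    Matrix.smul_vecMul, vecMul_Mp hx, ev]
  module

theorem ev_eq (v : Matrix (Fin 3) (Fin 3) F) : ev x v = (![1, x, x ^ 2] ᵥ* v) 0 := by
  simp [ev, Matrix.vecMul, dotProduct, Fin.sum_univ_three]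
  ring

theorem ev_mul (hx : x ^ 3 + p2 * x ^ 2 + p1 * x + p0 = 0) {v w : Matrix (Fin 3) (Fin 3) F}
    (h : v * Mp p0 p1 p2 = Mp p0 p1 p2 * v) : ev x (v * w) = ev x v * ev x w := by
  rw [ev_eq, ← Matrix.vecMul_vecMul, vecMul_ev hx h, Matrix.smul_vecMul, Pi.smul_apply, ← ev_eq,
    smul_eq_mul]

theorem Mp_cube (p0 p1 p2 : F) : Mp p0 p1 p2 ^ 3 = (-p2) • Mp p0 p1 p2 ^ 2 +
    (-p1) • Mp p0 p1 p2 + (-p0) • 1 := by
  rw [pow_succ, pow_two, E6I.Fx.Mp_sq]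
  ext i j
  fin_cases i <;> fin_cases j <;>
    simp [Mp, Matrix.mul_apply, Fin.sum_univ_three] <;> ring

end ev

/-- The determinant of `A + x B`. -/
theorem det_add_smul' (A B : Matrix (Fin 3) (Fin 3) ℝ) (x : ℝ) : (A + x • B).det =
    (A.det + x ^ 2 * (A * B.adjugate).trace) + x * ((A.adjugate * B).trace + x ^ 2 * B.det) := by
  rw [Matrix.trace_fin_three, Matrix.trace_fin_three, Matrix.adjugate_fin_three,
    Matrix.adjugate_fin_three, Matrix.det_fin_three, Matrix.det_fin_three, Matrix.det_fin_three]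
  simp [Matrix.mul_apply, Fin.sum_univ_three]
  ring

/-- **The square roots.** -/
theorem realP {p0 p1 p2 : ℝ} {A B : Matrix (Fin 3) (Fin 3) ℝ} {t : ℝ}
    (hA : Mp p0 p1 p2 * A = A * Mp p0 p1 p2) (hB : Mp p0 p1 p2 * B = B * Mp p0 p1 p2)
    (hd : dsc3 p0 p1 p2 ≠ 0)
    (hpos : ∀ x : ℝ, x ^ 3 + p2 * x ^ 2 + p1 * x + p0 = 0 →
      0 < (A 0 0 + A 1 0 * x + A 2 0 * x ^ 2) ^ 2 -
        t ^ 2 * (B 0 0 + B 1 0 * x + B 2 0 * x ^ 2) ^ 2)
    (h1 : (A - t • B).det ≠ 0) (h2 : (A + t • B).det ≠ 0) :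
    ∃ R : Matrix (Fin 3) (Fin 3) ℝ, Mp p0 p1 p2 * R = R * Mp p0 p1 p2 ∧ R.det ≠ 0 ∧
      A + t • B = (A - t • B) * R * R ∧
      0 < (A - t • B).det * (A.det + t ^ 2 * (A * B.adjugate).trace) := by
  obtain ⟨Z, hZ⟩ : ∃ Z, Z = Mp p0 p1 p2 := ⟨_, rfl⟩
  obtain ⟨Nm, hNm⟩ : ∃ Nm, Nm = A - t • B := ⟨_, rfl⟩
  obtain ⟨Np, hNp⟩ : ∃ Np, Np = A + t • B := ⟨_, rfl⟩
  have hNmZ : Nm * Mp p0 p1 p2 = Mp p0 p1 p2 * Nm := by
    rw [hNm, Matrix.sub_mul, Matrix.mul_sub, Matrix.smul_mul, Matrix.mul_smul, hA, hB]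
  have hNpZ : Np * Mp p0 p1 p2 = Mp p0 p1 p2 * Np := by
    rw [hNp, Matrix.add_mul, Matrix.mul_add, Matrix.smul_mul, Matrix.mul_smul, hA, hB]
  obtain ⟨Φ, hΦ⟩ : ∃ Φ, Φ = Nm * Np := ⟨_, rfl⟩
  have hΦZ : Φ * Mp p0 p1 p2 = Mp p0 p1 p2 * Φ := by
    rw [hΦ, Matrix.mul_assoc, hNpZ, ← Matrix.mul_assoc, hNmZ, Matrix.mul_assoc]
  have hΦd : Φ.det ≠ 0 := by
    rw [hΦ, Matrix.det_mul, hNm, hNp]
    exact mul_ne_zero h1 h2
  have hev : ∀ x : ℝ, ev x Nm = ev x A - t * ev x B ∧ ev x Np = ev x A + t * ev x B := by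
    intro x
    constructor
    · rw [hNm]
      simp [ev]
      ring
    · rw [hNp]
      simp [ev]
      ring
  obtain ⟨t0, t1, t2, ht⟩ := H964.exists_sqrt (Z := (Mp p0 p1 p2).map Complex.ofRealHom)
    (p2 := -p2) (p1 := -p1) (p0 := -p0) (r0 := Φ 0 0) (r1 := Φ 1 0) (r2 := Φ 2 0) (by
      have h3 := congrArg (fun M => M.map Complex.ofRealHom) (Mp_cube p0 p1 p2)
      have h4 : ∀ (M : Matrix (Fin 3) (Fin 3) ℝ) (n : ℕ), (M ^ n).map Complex.ofRealHom =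
          (M.map Complex.ofRealHom) ^ n := fun M n =>
        map_pow (Complex.ofRealHom.mapMatrix) M n
      have h5 : ∀ (M : Matrix (Fin 3) (Fin 3) ℝ) (r : ℝ), (r • M).map Complex.ofRealHom =
          (r : ℂ) • M.map Complex.ofRealHom := by
        intro M r
        ext i j
        simp
      simp only [Matrix.map_add _ (map_add Complex.ofRealHom), h4, h5] at h3
      rw [h3]
      congr 1
      congr 1
      ext i j
      simp [Matrix.one_apply]) (by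
      have h3 : E6W.dsc (-p2) (-p1) (-p0) = dsc3 p0 p1 p2 := by
        rw [E6W.dsc, dsc3]
        ring
      rw [h3]
      exact hd) (by
      intro x hx
      have hx' : x ^ 3 + p2 * x ^ 2 + p1 * x + p0 = 0 := by rw [hx]; ring
      have h3 : Φ 0 0 + Φ 1 0 * x + Φ 2 0 * x ^ 2 = ev x Φ := rfl
      rw [h3, hΦ, ev_mul hx' hNmZ, (hev x).1, (hev x).2]
      have h4 := hpos x hx'
      have h5 : (A 0 0 + A 1 0 * x + A 2 0 * x ^ 2) = ev x A := rfl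
      have h6 : (B 0 0 + B 1 0 * x + B 2 0 * x ^ 2) = ev x B := rfl
      rw [h5, h6] at h4
      nlinarith)
  obtain ⟨ψ, hψ⟩ : ∃ ψ, ψ = t0 • (1 : Matrix (Fin 3) (Fin 3) ℝ) + t1 • Mp p0 p1 p2 +
      t2 • (Mp p0 p1 p2 * Mp p0 p1 p2) := ⟨_, rfl⟩
  have hψZ : ψ * Mp p0 p1 p2 = Mp p0 p1 p2 * ψ := by
    rw [hψ]
    simp only [Matrix.add_mul, Matrix.mul_add, Matrix.smul_mul, Matrix.mul_smul, Matrix.one_mul,
      Matrix.mul_one, Matrix.mul_assoc]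
  have hψ2 : ψ * ψ = Φ := by
    have hinj : Function.Injective (fun M : Matrix (Fin 3) (Fin 3) ℝ => M.map Complex.ofRealHom) :=
      fun M N h => by
        ext i j
        exact Complex.ofReal_injective (congrFun (congrFun h i) j)
    apply hinj
    simp only
    rw [Matrix.map_mul, E6I.Fx.eq_of_comm hΦZ]
    have e1 : ∀ (r0 r1 r2 : ℝ), (r0 • (1 : Matrix (Fin 3) (Fin 3) ℝ) + r1 • Mp p0 p1 p2 +
        r2 • (Mp p0 p1 p2 * Mp p0 p1 p2)).map Complex.ofRealHom =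
        (r0 : ℂ) • 1 + (r1 : ℂ) • (Mp p0 p1 p2).map Complex.ofRealHom +
          (r2 : ℂ) • (Mp p0 p1 p2).map Complex.ofRealHom ^ 2 := by
      intro r0 r1 r2
      have e0 : (Mp p0 p1 p2 * Mp p0 p1 p2).map Complex.ofRealHom =
        (Mp p0 p1 p2).map Complex.ofRealHom * (Mp p0 p1 p2).map Complex.ofRealHom :=
          Matrix.map_mul
      rw [pow_two, ← e0]
      generalize Mp p0 p1 p2 * Mp p0 p1 p2 = N
      ext i j
      by_cases hij : i = j <;> simp [hij]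
    rw [e1, ← ht, hψ, e1]
    exact (pow_two _).symm
  have hψd : ψ.det ≠ 0 := by
    intro h
    apply hΦd
    rw [← hψ2, Matrix.det_mul, h, zero_mul]
  have hu : IsUnit Nm.det := by
    rw [hNm]
    exact isUnit_iff_ne_zero.mpr h1
  have hi : Nm⁻¹ * Nm = 1 := Matrix.nonsing_inv_mul _ hu
  have hi' : Nm * Nm⁻¹ = 1 := Matrix.mul_nonsing_inv _ hu
  have hiZ : Mp p0 p1 p2 * Nm⁻¹ = Nm⁻¹ * Mp p0 p1 p2 := by
    calc Mp p0 p1 p2 * Nm⁻¹ = Nm⁻¹ * (Nm * Mp p0 p1 p2) * Nm⁻¹ := by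
          rw [← Matrix.mul_assoc, hi, Matrix.one_mul]
      _ = Nm⁻¹ * Mp p0 p1 p2 := by
          rw [hNmZ, Matrix.mul_assoc, Matrix.mul_assoc, hi', Matrix.mul_one]
  have hcomm : ∀ M : Matrix (Fin 3) (Fin 3) ℝ, M * Mp p0 p1 p2 = Mp p0 p1 p2 * M →
      Nm⁻¹ * M = M * Nm⁻¹ := by
    intro M hM
    rw [E6I.Fx.eq_of_comm hM]
    simp only [Matrix.add_mul, Matrix.mul_add, Matrix.smul_mul, Matrix.mul_smul, Matrix.one_mul,
      Matrix.mul_one]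
    rw [Matrix.mul_assoc (Mp p0 p1 p2), hiZ, ← Matrix.mul_assoc, ← Matrix.mul_assoc, hiZ]
  refine ⟨Nm⁻¹ * ψ, ?_, ?_, ?_, ?_⟩
  · rw [← Matrix.mul_assoc, hiZ, Matrix.mul_assoc, ← hψZ, Matrix.mul_assoc]
  · rw [Matrix.det_mul]
    refine mul_ne_zero ?_ hψd
    intro h
    have h3 := congrArg Matrix.det hi
    rw [Matrix.det_mul, h, zero_mul, Matrix.det_one] at h3
    exact zero_ne_one h3
  · rw [← hNm, ← hNp]
    calc Np = Nm⁻¹ * Φ := by rw [hΦ, ← Matrix.mul_assoc, hi, Matrix.one_mul]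
      _ = Nm⁻¹ * (ψ * ψ) := by rw [hψ2]
      _ = ψ * (Nm⁻¹ * ψ) := by rw [← Matrix.mul_assoc, ← Matrix.mul_assoc, hcomm ψ hψZ]
      _ = Nm * (Nm⁻¹ * ψ) * (Nm⁻¹ * ψ) := by
          rw [← Matrix.mul_assoc Nm Nm⁻¹, hi', Matrix.one_mul]
  · obtain ⟨n0, hn0⟩ : ∃ n0, n0 = A.det + t ^ 2 * (A * B.adjugate).trace := ⟨_, rfl⟩
    obtain ⟨n1, hn1⟩ : ∃ n1, n1 = (A.adjugate * B).trace + t ^ 2 * B.det := ⟨_, rfl⟩
    have hp : Np.det = n0 + t * n1 := by rw [hNp, det_add_smul', hn0, hn1]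
    have hm : Nm.det = n0 - t * n1 := by
      have h3 : A - t • B = A + (-t) • B := by rw [neg_smul, sub_eq_add_neg]
      rw [hNm, h3, det_add_smul', hn0, hn1]
      ring
    have hdd : 0 < Nm.det * Np.det := by
      rw [← Matrix.det_mul, ← hΦ, ← hψ2, Matrix.det_mul]
      exact mul_self_pos.mpr hψd
    rw [← hn0, ← hNm]
    rw [hp] at hdd
    rw [hm] at hdd ⊢
    nlinarith [sq_nonneg (n0 - t * n1)]

end Vale.Agent.P011.E6W.H183
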