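import Vale.Agent.P011.E6W.H183.Blk
import Vale.Agent.P011.E6W.H183.Inert
import Vale.Agent.P011.E6W.H684.PDefs
import Vale.Agent.P011.E6W.H183.RealP

/-!
The sign condition.
-/

open Matrix NumberField
open scoped ComplexConjugate

set_option linter.unusedSectionVars false

namespace Vale.Agent.P011.E6W.H183

open Vale.Agent.P011.MPQ hiding mat
open Vale.Agent.P011.D4 Vale.Agent.P011.D4.Oct Vale.Agent.P011.E6
open Vale.Agent.P011.E6I (MQ toMQ Mp S0 S1 S2)
open Vale.Agent.P011.E6W.H196 (dsc3)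

section pol

variable {F : Type} [Field F]

theorem Mp_S0 (p0 p1 p2 : F) : Mp p0 p1 p2 * S0 p1 p2 = S0 p1 p2 * (Mp p0 p1 p2)ᵀ := by
  ext i j
  fin_cases i <;> fin_cases j <;> simp [Mp, S0, Matrix.mul_apply, Fin.sum_univ_three]

/-- The polynomials in the companion matrix and the symmetric matrix of the frame. -/
theorem comm_S0 {p0 p1 p2 : F} {v : Matrix (Fin 3) (Fin 3) F}
    (h : v * Mp p0 p1 p2 = Mp p0 p1 p2 * v) : v * S0 p1 p2 = S0 p1 p2 * vᵀ := by
  have h2 : Mp p0 p1 p2 * Mp p0 p1 p2 * S0 p1 p2 = S0 p1 p2 * (Mp p0 p1 p2 * Mp p0 p1 p2)ᵀ := by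
    rw [Matrix.mul_assoc, Mp_S0, ← Matrix.mul_assoc, Mp_S0, Matrix.mul_assoc,
      Matrix.transpose_mul]
  conv_lhs => rw [E6I.Fx.eq_of_comm h]
  conv_rhs => rw [E6I.Fx.eq_of_comm h]
  rw [Matrix.transpose_add, Matrix.transpose_add, Matrix.transpose_smul, Matrix.transpose_smul,
    Matrix.transpose_smul, Matrix.transpose_one, Matrix.add_mul, Matrix.add_mul, Matrix.mul_add,
    Matrix.mul_add, Matrix.smul_mul, Matrix.smul_mul, Matrix.smul_mul, Matrix.mul_smul,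
    Matrix.mul_smul, Matrix.mul_smul, Matrix.one_mul, Matrix.mul_one, Mp_S0, h2]

/-- Two matrices which commute with the companion matrix commute. -/
theorem comm_comm {p0 p1 p2 : F} {v w : Matrix (Fin 3) (Fin 3) F}
    (h : v * Mp p0 p1 p2 = Mp p0 p1 p2 * v) (h' : w * Mp p0 p1 p2 = Mp p0 p1 p2 * w) :
    v * w = w * v := by
  conv_lhs => rw [E6I.Fx.eq_of_comm h]
  conv_rhs => rw [E6I.Fx.eq_of_comm h]
  rw [Matrix.add_mul, Matrix.add_mul, Matrix.mul_add, Matrix.mul_add, Matrix.smul_mul,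
    Matrix.smul_mul, Matrix.smul_mul, Matrix.mul_smul, Matrix.mul_smul, Matrix.mul_smul,
    Matrix.one_mul, Matrix.mul_one, Matrix.mul_assoc, ← h', ← Matrix.mul_assoc, ← h',
    Matrix.mul_assoc]

theorem Mp_map {F' : Type} [Field F'] (f : F →+* F') (p0 p1 p2 : F) :
    (Mp p0 p1 p2).map f = Mp (f p0) (f p1) (f p2) := by
  ext i j
  fin_cases i <;> fin_cases j <;> simp [Mp]

theorem S0_map {F' : Type} [Field F'] (f : F →+* F') (p1 p2 : F) :
    (S0 p1 p2).map f = S0 (f p1) (f p2) := by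
  ext i j
  fin_cases i <;> fin_cases j <;> simp [S0]

end pol

variable {k E : Type} [Field k] [NumberField k] [Field E] [NumberField E] [Algebra k E]

/-- **The sign condition.** -/
theorem sgnE : H684.SgnE k E := by
  intro σ g th kap a b u w p0 p1 p2 A B P r τ e hσ hσg hth hσth hd hw hww hA hB hr hrσ hr0 hP he hek
    ha hb hpos
  have h2 : (2 : ℂ) ≠ 0 := two_ne_zero
  -- the square root of `kap`
  obtain ⟨t, ht⟩ : ∃ t : ℝ, e th = (t : ℂ) * Complex.I := by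
    refine ⟨(e th).im, ?_⟩
    have h1 := he th
    rw [hσth, map_neg] at h1
    have h3 : (e th).re = 0 := by
      have h4 := congrArg Complex.re h1
      rw [Complex.neg_re, Complex.conj_re] at h4
      linarith
    apply Complex.ext
    · simp [h3]
    · simp
  have ht2 : t ^ 2 = -τ kap := by
    have h1 := congrArg e hth
    rw [map_mul, ht, hek] at h1
    have h3 : ((t : ℂ) * Complex.I) * ((t : ℂ) * Complex.I) = ((-(t ^ 2) : ℝ) : ℂ) := by
      push_cast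
      linear_combination (t : ℂ) ^ 2 * Complex.I_mul_I
    rw [h3, Complex.ofReal_inj] at h1
    linarith
  -- the quaternion
  have hnw : nrd w = -(u : k) := by
    have h1 := congrArg QuaternionAlgebra.re hww
    simp only [QuaternionAlgebra.re_mul, hw, QuaternionAlgebra.re_smul, smul_eq_mul,
      QuaternionAlgebra.re_one, mul_one] at h1
    rw [nrd, hw]
    linear_combination -h1
  obtain ⟨α, hα⟩ : ∃ α : ℝ, α * α = -τ a := ⟨√(-τ a), Real.mul_self_sqrt (by linarith)⟩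
  obtain ⟨β, hβ⟩ : ∃ β : ℝ, β * β = -τ b := ⟨√(-τ b), Real.mul_self_sqrt (by linarith)⟩
  have hau : τ u < 0 := by
    have h1 := congrArg τ hnw
    rw [nrd, hw] at h1
    simp only [map_add, map_sub, map_mul, map_pow, map_neg, map_zero] at h1
    have h3 : τ u ≠ 0 := (map_ne_zero τ).mpr u.ne_zero
    have h4 : 0 ≤ -τ a * τ w.imI ^ 2 := mul_nonneg (by linarith) (sq_nonneg _)
    have h5 : 0 ≤ -τ b * τ w.imJ ^ 2 := mul_nonneg (by linarith) (sq_nonneg _)
    have h6 : 0 ≤ τ a * τ b * τ w.imK ^ 2 :=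
      mul_nonneg (mul_nonneg_of_nonpos_of_nonpos ha.le hb.le) (sq_nonneg _)
    exact lt_of_le_of_ne (by nlinarith) h3
  obtain ⟨ω, hω⟩ : ∃ ω : ℝ, ω * ω = -τ u := ⟨√(-τ u), Real.mul_self_sqrt (by linarith)⟩
  have hω0 : ω ≠ 0 := by
    rintro rfl
    rw [mul_zero] at hω
    linarith
  obtain ⟨f, ω', hω', hf1, hf2, hf3⟩ := exists_sp (A := up E a) (B := up E b) e (α := α) (β := β)
    (w := qup E w) (w1 := τ w.imI) (w2 := τ w.imJ) (w3 := τ w.imK) (ω := ω) (by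
      change e (algebraMap k E a) = _
      rw [hek, ← Complex.ofReal_mul, hα, Complex.ofReal_neg, neg_neg]) (by
      change e (algebraMap k E b) = _
      rw [hek, ← Complex.ofReal_mul, hβ, Complex.ofReal_neg, neg_neg]) (by
      change algebraMap k E w.re = 0
      rw [hw, map_zero]) (hek _) (hek _) (hek _) (by
      have h1 := congrArg τ hnw
      rw [nrd, hw] at h1
      simp only [map_add, map_sub, map_mul, map_pow, map_neg, map_zero] at h1
      have e1 : (α * τ w.imI) ^ 2 = -τ a * τ w.imI ^ 2 := by rw [mul_pow, pow_two, hα]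
      have e2 : (β * τ w.imJ) ^ 2 = -τ b * τ w.imJ ^ 2 := by rw [mul_pow, pow_two, hβ]
      have e3 : (α * β * τ w.imK) ^ 2 = τ a * τ b * τ w.imK ^ 2 := by
        rw [mul_pow, mul_pow, pow_two α, pow_two β, hα, hβ]
        ring
      rw [e1, e2, e3, pow_two ω, hω]
      linear_combination h1) hω0
  -- the matrices over the complex numbers
  have hfσ : ∀ q, f (star (qmap σ q)) = (f q)ᴴ := fun q => hf2 σ he q
  obtain ⟨Y, hY⟩ : ∃ Y : Matrix (Fin 3) (Fin 3) ℂ, Y = diagonal fun i => e (g i) := ⟨_, rfl⟩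
  obtain ⟨S, hS⟩ : ∃ S : Matrix (Fin 3) (Fin 3) ℂ, S = S0 ((τ p1 : ℝ) : ℂ) ((τ p2 : ℝ) : ℂ) := ⟨_, rfl⟩
  obtain ⟨rc, hrc⟩ : ∃ rc : Matrix (Fin 3) (Fin 3) ℂ, rc = r.map e := ⟨_, rfl⟩
  obtain ⟨Ar, hAr⟩ : ∃ Ar : Matrix (Fin 3) (Fin 3) ℝ, Ar = A.map τ := ⟨_, rfl⟩
  obtain ⟨Br, hBr⟩ : ∃ Br : Matrix (Fin 3) (Fin 3) ℝ, Br = B.map τ := ⟨_, rfl⟩
  obtain ⟨θ, hθ⟩ : ∃ θ : ℝ, θ = t * ω' := ⟨_, rfl⟩
  have hθ2 : θ ^ 2 = τ (kap * u) := by
    rw [hθ, mul_pow, hω', pow_two ω, hω, ht2, map_mul]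
    ring
  have key := congrArg (blk f) hP
  have hN := blk_pol f hf1 hf3 (A.map (algebraMap k E)) (B.map (algebraMap k E)) th
  have hAc : (A.map (algebraMap k E)).map e = Ar.map Complex.ofRealHom := by
    ext i j
    rw [hAr]
    exact hek _
  have hBc : (B.map (algebraMap k E)).map e = Br.map Complex.ofRealHom := by
    ext i j
    rw [hBr]
    exact hek _
  have hSc : ((S0 p1 p2).map (algebraMap k E)).map e = S := by
    rw [S0_map, S0_map, hS]
    congr 1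
    · exact hek _
    · exact hek _
  have hmul1 : e th * (Complex.I * ω') = ((-θ : ℝ) : ℂ) := by
    rw [ht, hθ]
    push_cast
    linear_combination ((t : ℂ) * ω') * Complex.I_mul_I
  have hmul2 : e th * (-(Complex.I * ω')) = ((θ : ℝ) : ℂ) := by
    rw [ht, hθ]
    push_cast
    linear_combination (-((t : ℂ) * ω')) * Complex.I_mul_I
  obtain ⟨Nm, hNm⟩ : ∃ Nm : Matrix (Fin 3) (Fin 3) ℂ, Nm = (Ar - θ • Br).map Complex.ofRealHom :=
    ⟨_, rfl⟩
  obtain ⟨Np, hNp⟩ : ∃ Np : Matrix (Fin 3) (Fin 3) ℂ, Np = (Ar + θ • Br).map Complex.ofRealHom :=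
    ⟨_, rfl⟩
  rw [hAc, hBc, hmul1, hmul2] at hN
  have hNm' : Ar.map Complex.ofRealHom + ((-θ : ℝ) : ℂ) • Br.map Complex.ofRealHom = Nm := by
    rw [hNm]
    ext i j
    simp
    ring
  have hNp' : Ar.map Complex.ofRealHom + ((θ : ℝ) : ℂ) • Br.map Complex.ofRealHom = Np := by
    rw [hNp]
    ext i j
    simp
  rw [hNm', hNp'] at hN
  rw [blk_mul, blk_mul, blk_mul, blk_mul, blk_star f hfσ, blk_toMQ f hf1, blk_dg f hf1,
    blk_toMQ f hf1, hSc, ← hY, ← hrc] at key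
  have hN' : blk f (Matrix.of fun i j => algebraMap E (Qt (up E a) (up E b)) (algebraMap k E (A i j)) +
      (th * algebraMap k E (B i j)) • qup E w) = fromBlocks Nm 0 0 Np := hN
  rw [hN'] at key
  -- the companion matrix
  have hMc : ((Mp p0 p1 p2).map (algebraMap k E)).map e =
      Mp ((τ p0 : ℝ) : ℂ) ((τ p1 : ℝ) : ℂ) ((τ p2 : ℝ) : ℂ) := by
    rw [Mp_map, Mp_map]
    congr 1
    · exact hek _
    · exact hek _
    · exact hek _
  have hrM : rc * Mp ((τ p0 : ℝ) : ℂ) ((τ p1 : ℝ) : ℂ) ((τ p2 : ℝ) : ℂ) =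
      Mp ((τ p0 : ℝ) : ℂ) ((τ p1 : ℝ) : ℂ) ((τ p2 : ℝ) : ℂ) * rc := by
    have h1 := congrArg (fun M => M.map e) hr
    simp only [Matrix.map_mul] at h1
    rwa [hMc, ← hrc] at h1
  have hreC : ∀ M : Matrix (Fin 3) (Fin 3) ℝ, M * Mp (τ p0) (τ p1) (τ p2) = Mp (τ p0) (τ p1) (τ p2) * M →
      M.map Complex.ofRealHom * Mp ((τ p0 : ℝ) : ℂ) ((τ p1 : ℝ) : ℂ) ((τ p2 : ℝ) : ℂ) =
      Mp ((τ p0 : ℝ) : ℂ) ((τ p1 : ℝ) : ℂ) ((τ p2 : ℝ) : ℂ) * M.map Complex.ofRealHom := by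
    intro M hM
    have h1 := congrArg (fun M => M.map Complex.ofRealHom) hM
    simp only [Matrix.map_mul] at h1
    rw [Mp_map] at h1
    exact h1
  have hArM : Ar * Mp (τ p0) (τ p1) (τ p2) = Mp (τ p0) (τ p1) (τ p2) * Ar := by
    have h1 := congrArg (fun M => M.map τ) hA
    simp only [Matrix.map_mul] at h1
    rw [Mp_map, ← hAr] at h1
    exact h1.symm
  have hBrM : Br * Mp (τ p0) (τ p1) (τ p2) = Mp (τ p0) (τ p1) (τ p2) * Br := by
    have h1 := congrArg (fun M => M.map τ) hB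
    simp only [Matrix.map_mul] at h1
    rw [Mp_map, ← hBr] at h1
    exact h1.symm
  have hd' : dsc3 (τ p0) (τ p1) (τ p2) ≠ 0 := by
    have h1 : τ (dsc3 p0 p1 p2) = dsc3 (τ p0) (τ p1) (τ p2) := by
      have e4 : τ 4 = 4 := map_ofNat τ 4
      have e18 : τ 18 = 18 := map_ofNat τ 18
      have e27 : τ 27 = 27 := map_ofNat τ 27
      simp [dsc3, e4, e18, e27]
    rw [← h1]
    exact (map_ne_zero τ).mpr hd
  have hNmM : Nm * Mp ((τ p0 : ℝ) : ℂ) ((τ p1 : ℝ) : ℂ) ((τ p2 : ℝ) : ℂ) =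
      Mp ((τ p0 : ℝ) : ℂ) ((τ p1 : ℝ) : ℂ) ((τ p2 : ℝ) : ℂ) * Nm := by
    rw [hNm]
    apply hreC
    rw [Matrix.sub_mul, Matrix.mul_sub, Matrix.smul_mul, Matrix.mul_smul, hArM, hBrM]
  -- the inverse of `S`
  have hSd : S.det = -1 := by rw [hS, E6I.Fx.det_S0]
  have hSu : IsUnit S.det := by
    rw [hSd]
    exact isUnit_one.neg
  have hSi : S⁻¹ * S = 1 := Matrix.nonsing_inv_mul _ hSu
  have hSi' : S * S⁻¹ = 1 := Matrix.mul_nonsing_inv _ hSu
  obtain ⟨X, hX⟩ : ∃ X, X = S⁻¹ * (rc * Nm) := ⟨_, rfl⟩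
  obtain ⟨X', hX'⟩ : ∃ X', X' = S⁻¹ * (rc * Np) := ⟨_, rfl⟩
  have hG : (blk f (P : MQ E a b))ᴴ * fromBlocks Y 0 0 Y * blk f (P : MQ E a b) =
      fromBlocks X 0 0 X' := by
    have h1 := congrArg (fun M => fromBlocks S⁻¹ 0 0 S⁻¹ * M) key
    simp only [← Matrix.mul_assoc _ (fromBlocks S 0 0 S)] at h1
    simp only [Matrix.fromBlocks_multiply, Matrix.mul_zero, Matrix.zero_mul, add_zero, zero_add,
      hSi, Matrix.fromBlocks_one, Matrix.one_mul] at h1
    rw [h1, hX, hX']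
  have hYh : Y.IsHermitian := by
    rw [hY, Matrix.IsHermitian, Matrix.diagonal_conjTranspose]
    congr 1
    funext i
    change conj (e (g i)) = e (g i)
    rw [← he, hσg]
  have hGh : (fromBlocks X 0 0 X' : Matrix (Fin 3 ⊕ Fin 3) (Fin 3 ⊕ Fin 3) ℂ).IsHermitian := by
    rw [← hG, Matrix.IsHermitian, Matrix.conjTranspose_mul, Matrix.conjTranspose_mul,
      Matrix.conjTranspose_conjTranspose, Matrix.fromBlocks_conjTranspose,
      Matrix.conjTranspose_zero, hYh, Matrix.mul_assoc]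
  have hXh : X.IsHermitian := by
    have h1 := hGh
    rw [Matrix.IsHermitian, Matrix.fromBlocks_conjTranspose] at h1
    exact (Matrix.fromBlocks_inj.mp h1).1
  have hone : blk f (1 : MQ E a b) = 1 := by
    have h1 := blk_toMQ (a := a) (b := b) f hf1 1
    rw [E6I.toMQ_one] at h1
    rw [h1]
    simp
  have hPP : blk f (P : MQ E a b) * blk f ((P⁻¹ : (MQ E a b)ˣ) : MQ E a b) = 1 := by
    rw [← blk_mul, Units.mul_inv, hone]
  have hT0 : (blk f ((P⁻¹ : (MQ E a b)ˣ) : MQ E a b)).det ≠ 0 := by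
    intro h
    have h1 := congrArg Matrix.det hPP
    rw [Matrix.det_mul, h, mul_zero, Matrix.det_one] at h1
    exact zero_ne_one h1
  have hgd : ∀ i, e (g i) ≠ 0 := fun i => (map_ne_zero e).mpr (g i).ne_zero
  have hYd : Y.det = e (g 0) * e (g 1) * e (g 2) := by
    rw [hY, Matrix.det_diagonal, Fin.prod_univ_three]
  have hGd : X.det ≠ 0 ∧ X'.det ≠ 0 := by
    have h1 := congrArg Matrix.det hG
    rw [Matrix.det_mul, Matrix.det_mul, Matrix.det_fromBlocks_zero₂₁, Matrix.det_fromBlocks_zero₂₁,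
      Matrix.det_conjTranspose] at h1
    have h3 : (blk f (P : MQ E a b)).det ≠ 0 := by
      intro h
      have h4 := congrArg Matrix.det hPP
      rw [Matrix.det_mul, h, zero_mul, Matrix.det_one] at h4
      exact zero_ne_one h4
    have h4 : Y.det ≠ 0 := by
      rw [hYd]
      exact mul_ne_zero (mul_ne_zero (hgd 0) (hgd 1)) (hgd 2)
    have h5 : X.det * X'.det ≠ 0 := by
      rw [← h1]
      exact mul_ne_zero (mul_ne_zero (star_ne_zero.mpr h3) (mul_ne_zero h4 h4)) h3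
    exact ⟨left_ne_zero_of_mul h5, right_ne_zero_of_mul h5⟩
  have hdm : (Ar - θ • Br).det ≠ 0 := by
    intro h
    apply hGd.1
    have h1 : Nm.det = 0 := by
      rw [hNm]
      have h3 : ((Ar - θ • Br).map Complex.ofRealHom).det = (((Ar - θ • Br).det : ℝ) : ℂ) :=
        (RingHom.map_det Complex.ofRealHom (Ar - θ • Br)).symm
      rw [h3, h, Complex.ofReal_zero]
    rw [hX, Matrix.det_mul, Matrix.det_mul, h1, mul_zero, mul_zero]
  have hdp' : (Ar + θ • Br).det ≠ 0 := by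
    intro h
    apply hGd.2
    have h1 : Np.det = 0 := by
      rw [hNp]
      have h3 : ((Ar + θ • Br).map Complex.ofRealHom).det = (((Ar + θ • Br).det : ℝ) : ℂ) :=
        (RingHom.map_det Complex.ofRealHom (Ar + θ • Br)).symm
      rw [h3, h, Complex.ofReal_zero]
    rw [hX', Matrix.det_mul, Matrix.det_mul, h1, mul_zero, mul_zero]
  obtain ⟨R, hRM, hR0, hRR, hRs⟩ := realP (p0 := τ p0) (p1 := τ p1) (p2 := τ p2)
    (A := Ar) (B := Br) (t := θ) hArM.symm hBrM.symm hd' (by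
    intro x hx
    rw [hAr, hBr, hθ2]
    exact hpos x hx) hdm hdp'
  obtain ⟨Rc, hRc⟩ : ∃ Rc : Matrix (Fin 3) (Fin 3) ℂ, Rc = R.map Complex.ofRealHom := ⟨_, rfl⟩
  have hRcM : Rc * Mp ((τ p0 : ℝ) : ℂ) ((τ p1 : ℝ) : ℂ) ((τ p2 : ℝ) : ℂ) =
      Mp ((τ p0 : ℝ) : ℂ) ((τ p1 : ℝ) : ℂ) ((τ p2 : ℝ) : ℂ) * Rc := by
    rw [hRc]
    exact hreC R hRM.symm
  have hRH : Rcᴴ = Rcᵀ := by
    rw [hRc]
    ext i j
    exact Complex.conj_ofReal _
  have hNpR : Np = Nm * Rc * Rc := by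
    rw [hNp, hRR, hNm, hRc, ← Matrix.map_mul, ← Matrix.map_mul]
  have hRS : S⁻¹ * Rc = Rcᵀ * S⁻¹ := by
    have h1 : Rc * S = S * Rcᵀ := by
      rw [hS]
      exact comm_S0 hRcM
    calc S⁻¹ * Rc = S⁻¹ * (Rc * S) * S⁻¹ := by
          rw [Matrix.mul_assoc, Matrix.mul_assoc, hSi', Matrix.mul_one]
      _ = Rcᵀ * S⁻¹ := by rw [h1, ← Matrix.mul_assoc, hSi, Matrix.one_mul]
  have hNmd : Nm.det = (((Ar - θ • Br).det : ℝ) : ℂ) := by
    rw [hNm]
    exact (RingHom.map_det Complex.ofRealHom (Ar - θ • Br)).symm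
  have hrcd : rc.det = e r.det := by
    rw [hrc]
    exact (RingHom.map_det e r).symm
  have hSid : (S⁻¹).det = -1 := by
    have h1 := congrArg Matrix.det hSi
    rw [Matrix.det_mul, hSd, Matrix.det_one] at h1
    linear_combination -h1
  have hXd : X.det = -(e r.det * (((Ar - θ • Br).det : ℝ) : ℂ)) := by
    rw [hX, Matrix.det_mul, Matrix.det_mul, hSid, hrcd, hNmd]
    ring
  have hdp := det_pos (X := X) (X' := X') (Y := Y) (R := Rc)
    (T := blk f ((P⁻¹ : (MQ E a b)ˣ) : MQ E a b)) hXh hYh (by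
      rw [hXd]
      refine neg_ne_zero.mpr (mul_ne_zero ((map_ne_zero e).mpr hr0) ?_)
      exact_mod_cast hdm) (by
      rw [hYd]
      exact mul_ne_zero (mul_ne_zero (hgd 0) (hgd 1)) (hgd 2)) (by
      rw [hRH, hX', hX, hNpR]
      calc S⁻¹ * (rc * (Nm * Rc * Rc)) = S⁻¹ * (rc * (Nm * Rc)) * Rc := by
            simp only [Matrix.mul_assoc]
        _ = S⁻¹ * Rc * (rc * Nm) * Rc := by
            rw [comm_comm hNmM hRcM, ← Matrix.mul_assoc rc, comm_comm hrM hRcM]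
            simp only [Matrix.mul_assoc]
        _ = _ := by rw [hRS, Matrix.mul_assoc (Rcᵀ)]) (by
      rw [hRc]
      have h1 : (R.map Complex.ofRealHom).det = ((R.det : ℝ) : ℂ) :=
        (RingHom.map_det Complex.ofRealHom R).symm
      rw [h1]
      exact_mod_cast hR0) hT0 (by
      rw [← hG]
      calc _ = (blk f (P : MQ E a b) * blk f ((P⁻¹ : (MQ E a b)ˣ) : MQ E a b))ᴴ *
            fromBlocks Y 0 0 Y * (blk f (P : MQ E a b) *
              blk f ((P⁻¹ : (MQ E a b)ˣ) : MQ E a b)) := by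
            rw [Matrix.conjTranspose_mul]
            simp only [Matrix.mul_assoc]
        _ = _ := by rw [hPP, Matrix.conjTranspose_one, Matrix.one_mul, Matrix.mul_one])
  rw [hXd, hYd] at hdp
  obtain ⟨q, hq⟩ : ∃ q : ℂ, q = e (g 0) * e (g 1) * e (g 2) * e r.det := ⟨_, rfl⟩
  have h1 : q.re * (Ar - θ • Br).det < 0 := by
    have h3 : -(e r.det * (((Ar - θ • Br).det : ℝ) : ℂ)) * (e (g 0) * e (g 1) * e (g 2)) =
        -(q * (((Ar - θ • Br).det : ℝ) : ℂ)) := by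
      rw [hq]
      ring
    rw [h3, Complex.neg_re, Complex.re_mul_ofReal] at hdp
    linarith
  have h3 : τ (A.det + kap * u * (A * B.adjugate).trace) =
      Ar.det + θ ^ 2 * (Ar * Br.adjugate).trace := by
    rw [map_add, map_mul, hθ2, hAr, hBr]
    congr 1
    · exact RingHom.map_det τ A
    · congr 1
      have h4 : ((B.map τ).adjugate) = B.adjugate.map τ :=
        (RingHom.map_adjugate τ B).symm
      rw [h4, ← Matrix.map_mul, Matrix.trace_fin_three, Matrix.trace_fin_three, map_add, map_add]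
      rfl
  have h4 : e ((g 0 : E) * g 1 * g 2 * r.det *
      algebraMap k E (A.det + kap * u * (A * B.adjugate).trace)) =
      q * ((Ar.det + θ ^ 2 * (Ar * Br.adjugate).trace : ℝ) : ℂ) := by
    rw [map_mul, hek, h3, hq, map_mul, map_mul, map_mul]
  rw [h4, Complex.re_mul_ofReal]
  obtain ⟨n, hn⟩ : ∃ n : ℝ, n = Ar.det + θ ^ 2 * (Ar * Br.adjugate).trace := ⟨_, rfl⟩
  obtain ⟨d, hdd⟩ : ∃ d : ℝ, d = (Ar - θ • Br).det := ⟨_, rfl⟩
  rw [← hn] at hRs ⊢
  rw [← hdd] at hRs h1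
  have h5 := mul_neg_of_neg_of_pos h1 hRs
  by_contra hcon
  push Not at hcon
  have h6 : q.re * d * (d * n) = q.re * n * d ^ 2 := by ring
  rw [h6] at h5
  exact absurd h5 (not_lt.mpr (mul_nonneg hcon (sq_nonneg d)))

end Vale.Agent.P011.E6W.H183
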