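import Vale.Agent.P011.E6W.H183.SqRes
import Vale.Agent.P011.Pow.CentT

/-!
The finite places at which the algebra of degree six remains a division algebra.
-/

open Matrix Module NumberField IsDedekindDomain TensorProduct

set_option linter.unusedSectionVars false

namespace Vale.Agent.P011.E6W.H183

open Vale.Agent.P011.MPQ hiding mat
open Vale.Agent.P011.Arith Vale.Agent.P011.D4 Vale.Agent.P011.D4.Oct Vale.Agent.P011.E6
open Vale.Agent.P011.E6O
open Vale.Agent.P011.E6I (MQ toMQ u0)

section gen

variable {k K D D' : Type} [Field k] [NumberField k] [Field K] [DivisionRing D] [DivisionRing D']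
  [Algebra k K] [Algebra K D] [Algebra K D']

/-- A subalgebra remains a division algebra. -/
theorem tdiv_mono [FiniteDimensional K D] (j : D →ₐ[K] D') :
    One.Tdiv k K D' ⊆ One.Tdiv k K D := by
  rintro p ⟨v, rfl, φ, hdiv⟩
  refine ⟨v, rfl, φ, ?_⟩
  let _ : Algebra K (v.adicCompletion k) := (φ : K →+* v.adicCompletion k).toAlgebra
  change ∀ x : v.adicCompletion k ⊗[K] D', x ≠ 0 → IsUnit x at hdiv
  change ∀ x : v.adicCompletion k ⊗[K] D, x ≠ 0 → IsUnit x
  set F : v.adicCompletion k ⊗[K] D →ₐ[v.adicCompletion k] v.adicCompletion k ⊗[K] D' :=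
    Algebra.TensorProduct.map (AlgHom.id _ _) j with hF
  have hinj : Function.Injective F :=
    Module.Flat.lTensor_preserves_injective_linearMap (M := v.adicCompletion k) j.toLinearMap
      j.toRingHom.injective
  intro x hx
  have hx1 : F x ≠ 0 := fun h => hx (hinj (by rw [h, map_zero]))
  have hu := hdiv _ hx1
  -- multiplication by `x` is injective, hence surjective
  have h1 : Function.Injective (LinearMap.mulLeft (v.adicCompletion k) x) := by
    rw [injective_iff_map_eq_zero]
    intro y hy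
    apply hinj
    rw [map_zero]
    apply hu.mul_left_cancel
    rw [← map_mul, mul_zero]
    change F (x * y) = 0
    rw [show x * y = 0 from hy, map_zero]
  have h2 : Function.Injective (LinearMap.mulRight (v.adicCompletion k) x) := by
    rw [injective_iff_map_eq_zero]
    intro y hy
    apply hinj
    rw [map_zero]
    apply hu.mul_right_cancel
    rw [← map_mul, zero_mul]
    rw [show y * x = 0 from hy, map_zero]
  obtain ⟨y, hy⟩ := (LinearMap.injective_iff_surjective.mp h1) 1
  obtain ⟨z, hz⟩ := (LinearMap.injective_iff_surjective.mp h2) 1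
  have hy' : x * y = 1 := hy
  have hz' : z * x = 1 := hz
  have hyz : z = y := left_inv_eq_right_inv hz' hy'
  exact ⟨⟨x, y, hy', by rw [← hyz]; exact hz'⟩, rfl⟩

/-- At the places at which the square of an element with an anticommuting partner is a local
square, the algebra does not remain a division algebra. -/
theorem not_tdiv_of_sq [CharZero D] {i j : D} {a : kˣ}
    (hi : i * i = algebraMap K D (algebraMap k K a)) (hij : i * j = -(j * i)) (hi0 : i ≠ 0)
    (hj0 : j ≠ 0) {v : HeightOneSpectrum (𝓞 k)} (ha : a ∈ LS (v.valuation k)) :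
    (Sum.inl v : Pl k) ∉ One.Tdiv k K D := by
  rintro ⟨v', hv', φ, hdiv⟩
  obtain rfl : v = v' := Sum.inl_injective hv'
  let _ : Algebra K (v.adicCompletion k) := (φ : K →+* v.adicCompletion k).toAlgebra
  change ∀ x : v.adicCompletion k ⊗[K] D, x ≠ 0 → IsUnit x at hdiv
  obtain ⟨t, ht⟩ := (Even.isSquare_iff v a).mpr ha
  have hφ : ∀ x : k, algebraMap K (v.adicCompletion k) (algebraMap k K x) =
      algebraMap k (v.adicCompletion k) x := φ.commutes
  have hinj : Function.Injective (fun y : D => (1 : v.adicCompletion k) ⊗ₜ[K] y) :=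
    Algebra.TensorProduct.includeRight_injective (A := v.adicCompletion k)
      (algebraMap K (v.adicCompletion k)).injective
  set x : v.adicCompletion k ⊗[K] D := 1 ⊗ₜ i - t ⊗ₜ 1 with hx
  set y : v.adicCompletion k ⊗[K] D := 1 ⊗ₜ i + t ⊗ₜ 1 with hy
  have hxy : x * y = 0 := by
    rw [hx, hy, sub_mul, mul_add, mul_add]
    simp only [Algebra.TensorProduct.tmul_mul_tmul, one_mul, mul_one]
    rw [hi, ← ht, ← hφ, Algebra.algebraMap_eq_smul_one (A := D), TensorProduct.tmul_smul,
      Algebra.algebraMap_eq_smul_one (A := v.adicCompletion k) (algebraMap k K (a : k)),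
      TensorProduct.smul_tmul']
    abel
  -- the elements do not commute with the partner
  have h2 : (2 : D) * (i * j) ≠ 0 := mul_ne_zero two_ne_zero (mul_ne_zero hi0 hj0)
  have key : ∀ e : v.adicCompletion k, (1 : v.adicCompletion k) ⊗ₜ[K] i + e ⊗ₜ[K] (1 : D) ≠ 0 := by
    intro e he
    have h3 : ((1 : v.adicCompletion k) ⊗ₜ[K] i + e ⊗ₜ[K] (1 : D)) * (1 ⊗ₜ[K] j) -
        (1 ⊗ₜ[K] j) * ((1 : v.adicCompletion k) ⊗ₜ[K] i + e ⊗ₜ[K] (1 : D)) =
          1 ⊗ₜ[K] (2 * (i * j)) := by
      rw [add_mul, mul_add]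
      simp only [Algebra.TensorProduct.tmul_mul_tmul, one_mul, mul_one]
      rw [hij, two_mul, TensorProduct.tmul_add, TensorProduct.tmul_neg]
      abel
    rw [he, zero_mul, mul_zero, sub_zero] at h3
    apply h2
    apply hinj
    change (1 : v.adicCompletion k) ⊗ₜ[K] (2 * (i * j)) = (1 : v.adicCompletion k) ⊗ₜ[K] (0 : D)
    rw [← h3, TensorProduct.tmul_zero]
  have hx0 : x ≠ 0 := by
    rw [hx, sub_eq_add_neg, ← TensorProduct.neg_tmul]
    exact key _
  have hy0 : y ≠ 0 := key t
  exact hy0 ((hdiv x hx0).mul_left_cancel (by rw [hxy, mul_zero]))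

end gen

section inc

variable {K E : Type} [Field K] [NumberField K] [StarRing K] [Field E] [NumberField E]
  [Algebra K E] {a b c : Kˣ}

/-- The cyclic algebra in the algebra of degree six. -/
noncomputable def incB (S : Dat K E) (H : E6I.Hyp S.ρ S.lam a b c) : S.D →ₐ[K] BB H where
  toFun x := ofM H (m := toMQ (S.f x)) (E6I.inD_toMQ.mpr (S.f_mem x))
  map_one' := toM_injective H (by
    rw [toM_ofM, map_one, map_one, E6I.toMQ_one])
  map_mul' x y := toM_injective H (by
    rw [toM_ofM, map_mul, map_mul, toM_ofM, toM_ofM, E6I.toMQ_mul])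
  map_zero' := toM_injective H (by
    rw [toM_ofM, map_zero, map_zero, E6I.toMQ_zero])
  map_add' x y := toM_injective H (by
    rw [toM_ofM, map_add, map_add, toM_ofM, toM_ofM, E6I.toMQ_add])
  commutes' t := toM_injective H (by
    rw [toM_ofM, Algebra.algebraMap_eq_smul_one, Algebra.algebraMap_eq_smul_one, map_smul,
      map_smul, map_one, map_one, E6I.toMQ_ksmul, E6I.toMQ_one])

omit [StarRing K] in
/-- The generators of the quaternion algebra in the algebra of degree six. -/
theorem not_tdiv_BB {k : Type} [Field k] [NumberField k] [Algebra k K] {ρ : E ≃ₐ[K] E} {lam : Kˣ}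
    {a0 : kˣ} (ha : (a : K) = algebraMap k K a0) (H : E6I.Hyp ρ lam a b c)
    {v : HeightOneSpectrum (𝓞 k)} (hv : a0 ∈ LS (v.valuation k)) :
    (Sum.inl v : Pl k) ∉ One.Tdiv k K (BB H) := by
  have hne : ∀ q : Qt a b, q ≠ 0 → ofM H (E6I.inD_sc q) ≠ 0 := by
    intro q hq h
    obtain ⟨p, hp⟩ : ∃ p : Qt a b, p * q = 1 := by
      obtain ⟨u, hu⟩ := (H64.isUnit_or_zero H.anisoK q).resolve_right hq
      exact ⟨((u⁻¹ : (Qt a b)ˣ) : Qt a b), by rw [← hu, Units.inv_mul]⟩
    have h1 := congrArg (toM H) h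
    rw [toM_ofM, map_zero] at h1
    have h2 : E6I.sc E p * E6I.sc E q = (1 : MQ E a b) := by
      rw [← E6I.sc_mul, hp, E6I.sc_one]
    rw [h1, mul_zero] at h2
    exact zero_ne_one h2
  have hchar : CharZero (BB H) := charZero_of_injective_algebraMap (algebraMap K (BB H)).injective
  refine not_tdiv_of_sq (i := ofM H (E6I.inD_sc ⟨0, 1, 0, 0⟩))
    (j := ofM H (E6I.inD_sc ⟨0, 0, 1, 0⟩)) ?_ ?_ (hne _ fun h => ?_) (hne _ fun h => ?_) hv
  · apply toM_injective H
    have h1 := E6I.sc_sq (L := E) (w := (⟨0, 1, 0, 0⟩ : Qt a b)) rfl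
    have h2 : -nrd (⟨0, 1, 0, 0⟩ : Qt a b) = (a : K) := by simp [nrd]
    rw [map_mul, toM_ofM, h1, h2, AlgHom.commutes, ← ha, Algebra.algebraMap_eq_smul_one]
  · apply toM_injective H
    rw [map_mul, map_neg, map_mul, toM_ofM, toM_ofM, ← E6I.sc_mul, ← E6I.sc_mul, ← E6I.sc_neg]
    congr 1
    ext <;> simp
  · exact one_ne_zero (congrArg QuaternionAlgebra.imI h)
  · exact one_ne_zero (congrArg QuaternionAlgebra.imJ h)

end inc

section W

variable {k E : Type} [Field k] [NumberField k] [Field E] [NumberField E] [Algebra k E]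
  {ρ σ : E ≃ₐ[k] E} {lam : Eˣ} {g : Fin 3 → Eˣ} {th s : E} {kap a b c a' b' c' : kˣ}

/-- The cyclic algebra. -/
noncomputable def datW (W : WH ρ σ lam g th s kap a b c) : Dat (KW W) E where
  ρ := rhoK ρ
  s := (σ : E ≃+* E)
  lam := unK W.ρlam
  G := g
  c := s
  h3 := finrank_KK W.hρ W.ρ3
  ρ1 := by
    by_contra h
    push Not at h
    exact W.hρ (AlgEquiv.ext h)
  ρ3 := W.ρ3
  fix := fun x hx => ⟨mkK (ρ := ρ) hx, rfl⟩
  hN := W.hlam
  ss := W.rel.σ2
  sρ := fun x => (W.rel.comm x).symm
  sK := fun x => rfl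
  sG := W.rel.σg
  G1 := W.rel.g1
  G2 := W.rel.g2
  G0 := by
    change (g 0 : E) = lam * σ lam * (s * ρ (g 2))
    rw [W.rel.g0]
    ring

/-- The cyclic algebra in the algebra of degree six. -/
noncomputable def incW (W : WH ρ σ lam g th s kap a b c) : (datW W).D →ₐ[KW W] BW W :=
  incB (datW W) W.HI

/-- The finite places at which the cyclic algebra remains a division algebra. -/
def TW (W : WH ρ σ lam g th s kap a b c) : Set (HeightOneSpectrum (𝓞 k)) :=
  {v | (Sum.inl v : Pl k) ∈ One.Tdiv k (KW W) (datW W).D}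

theorem TW_finite (W : WH ρ σ lam g th s kap a b c) : (TW W).Finite := by
  let _ : Algebra k (datW W).D := Algebra.compHom _ (algebraMap k (KW W))
  have _ : IsScalarTower k (KW W) (datW W).D := IsScalarTower.of_algebraMap_eq fun _ => rfl
  have h1 : (One.Tdiv k (KW W) (datW W).D).Finite :=
    Pow.tdiv_finite (k := k) (K := KW W) (D := (datW W).D) (n := 3) (by norm_num)
      (datW W).finrank_D
  exact h1.preimage Sum.inl_injective.injOn

theorem TW_eq (W : WH ρ σ lam g th s kap a b c) (W' : WH ρ σ lam g th s kap a' b' c') :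
    TW W = TW W' := rfl

/-- The algebra of degree six does not remain a division algebra at any finite place, if `a` is a
local square at the places at which the cyclic algebra remains a division algebra. -/
theorem tdiv_eq_empty (W : WH ρ σ lam g th s kap a b c)
    (h : ∀ v ∈ TW W, a ∈ LS (v.valuation k)) : One.Tdiv k (KW W) (BW W) = ∅ := by
  rw [Set.eq_empty_iff_forall_notMem]
  intro p hp
  obtain ⟨v, rfl, -⟩ := id hp
  have h1 : v ∈ TW W := tdiv_mono (incW W) hp
  exact not_tdiv_BB (k := k) (K := KK ρ) (a0 := a) rfl W.HI (h v h1) hp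

end W

end Vale.Agent.P011.E6W.H183
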