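import Vale.Agent.P011.E6W.H183.SqDef
import Vale.Agent.P011.E6W.H183.Tdiv
import Vale.Agent.P011.Six.H359.Glue
import Vale.Agent.P011.Six.H359.Spl3
import Vale.Agent.P011.Six.H586.NuEx
import Vale.Agent.P011.Six.H623.TdC

/-!
The subgroups of finite index of the special unitary group of the algebra of degree six.
-/

open Matrix NumberField Module IsDedekindDomain

set_option linter.unusedSectionVars false

namespace Vale.Agent.P011.E6W.H183

open Vale.Agent.P011.MPQ hiding mat
open Vale.Agent.P011.D4 Vale.Agent.P011.D4.Oct Vale.Agent.P011.E6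
open Vale.Agent.P011.E6O
open Vale.Agent.P011.E6I (MQ toMQ u0)
open Vale.Agent.P011.Arith (LS NF Pl)
open Vale.Agent.P011.Six.H359 (Fr)
open Vale.Agent.P011.Six.H586 (CC SplP starCC setting_CC finrank_CC9 mem_CC)

variable {k E : Type} [Field k] [NumberField k] [Field E] [NumberField E] [Algebra k E]
  {ρ σ : E ≃ₐ[k] E} {lam : Eˣ} {g : Fin 3 → Eˣ} {th s : E} {kap a b c : kˣ}

/-- The generators of the quaternion algebra. -/
theorem exists_frC (W : WH ρ σ lam g th s kap a b c) : ∃ i j : BW W, Fr k a b i j := by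
  obtain ⟨i, j, h1, h2, h3, h4, h5, -⟩ := exists_frQ W
  exact ⟨i, j, ⟨h1, h2, h3, h4, h5⟩⟩

/-- The splitting conditions. -/
theorem splP_W (W : WH ρ σ lam g th s kap a b c) (hT : One.Tdiv k (KW W) (BW W) = ∅)
    {i j : BW W} (hF : Fr k a b i j) :
    ∀ p ∈ Even.bad a b, SplP k (KW W) (CC (KW W) i j) kap p := by
  intro p hp
  let _ := starCC (KW W) hF.si hF.sj
  have hS := setting_CC (setW W) hF
  have hdeg : finrank (KW W) (BW W) = 6 ^ 2 := (finrank_BB W.HI).trans (by norm_num)
  have hd := finrank_CC9 (setW W) hF hdeg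
  rcases p with v | τ
  · exact fun hv => Six.H359.exists_splAt3 hS hd v hv
      (Six.H623.tdiv_cc (setW W) hdeg hF v hp (by rw [hT]; exact fun h => h))
  · exact fun hτ => Six.H359.exists_spl_real3 hS hd τ hτ

/-- **The subgroups of finite index of the special unitary group of `D ⊗ Q`.** -/
theorem sixAt (W : WH ρ σ lam g th s kap a b c) (hT : One.Tdiv k (KW W) (BW W) = ∅) :
    SixAt W := by
  intro Ω _ _ f M B N _ hN
  obtain ⟨i, j, hF⟩ := exists_frC W
  have hdeg : finrank (KW W) (BW W) = 6 ^ 2 := (finrank_BB W.HI).trans (by norm_num)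
  refine Six.H359.pf_six_of_exNu (setW W) hdeg f B hF (fun S hS η hη e he => ?_) N hN
  exact Six.H586.exists_nu' B f (setW W) hdeg hF (splP_W W hT hF) hS η hη he

end Vale.Agent.P011.E6W.H183
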