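import Vale.Agent.P011.E6I.Defs

/-!
The splitting of a definite quaternion algebra over the complex numbers.
-/

open Matrix
open scoped ComplexConjugate

namespace Vale.Agent.P011.E6W.H183

open Vale.Agent.P011.MPQ

variable {E : Type} [Field E] {A B : Eˣ}

/-- The splitting. -/
noncomputable def sp0 (e : E →+* ℂ) (α β : ℝ) (q : Qt A B) : Matrix (Fin 2) (Fin 2) ℂ :=
  !![e q.re + Complex.I * α * e q.imI, β * e q.imJ + Complex.I * (α * β) * e q.imK;
    -(β * e q.imJ) + Complex.I * (α * β) * e q.imK, e q.re - Complex.I * α * e q.imI]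

variable {e : E →+* ℂ} {α β : ℝ} (hA : e (A : E) = -((α : ℂ) * α)) (hB : e (B : E) = -((β : ℂ) * β))

theorem sp0_add (q r : Qt A B) : sp0 e α β (q + r) = sp0 e α β q + sp0 e α β r := by
  ext i j
  fin_cases i <;> fin_cases j <;> simp [sp0] <;> ring

include hA hB in
theorem sp0_mul (q r : Qt A B) : sp0 e α β (q * r) = sp0 e α β q * sp0 e α β r := by
  have hI : Complex.I * Complex.I = -1 := Complex.I_mul_I
  ext i j
  fin_cases i <;> fin_cases j <;> simp [sp0, Matrix.mul_apply, Fin.sum_univ_two, hA, hB]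
  · linear_combination (-(α : ℂ) ^ 2 * e q.imI * e r.imI -
      (α : ℂ) ^ 2 * (β : ℂ) ^ 2 * e q.imK * e r.imK) * hI
  · linear_combination (-(α : ℂ) ^ 2 * β * e q.imI * e r.imK +
      (α : ℂ) ^ 2 * β * e q.imK * e r.imI) * hI
  · linear_combination (-(α : ℂ) ^ 2 * β * e q.imK * e r.imI +
      (α : ℂ) ^ 2 * β * e q.imI * e r.imK) * hI
  · linear_combination (-(α : ℂ) ^ 2 * e q.imI * e r.imI -
      (α : ℂ) ^ 2 * (β : ℂ) ^ 2 * e q.imK * e r.imK) * hI

theorem sp0_coe (t : E) : sp0 e α β (algebraMap E (Qt A B) t) = e t • 1 := by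
  rw [show algebraMap E (Qt A B) t = (⟨t, 0, 0, 0⟩ : Qt A B) from rfl]
  ext i j
  fin_cases i <;> fin_cases j <;> simp [sp0]

/-- The conjugate transpose. -/
theorem sp0_star (s : E → E) (hs : ∀ x, e (s x) = conj (e x)) (q : Qt A B) :
    sp0 e α β (star (⟨s q.re, s q.imI, s q.imJ, s q.imK⟩ : Qt A B)) = (sp0 e α β q)ᴴ := by
  ext i j
  fin_cases i <;> fin_cases j <;> simp [sp0, hs]

/-- The matrix which diagonalizes. -/
noncomputable def vv (x : ℝ) (z : ℂ) : Matrix (Fin 2) (Fin 2) ℂ :=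
  !![Complex.I * x, z; -conj z, -(Complex.I * x)]

theorem vv_mul (x : ℝ) (z : ℂ) : vv x z * (vv x z)ᴴ = ((x ^ 2 + Complex.normSq z : ℝ) : ℂ) • 1 := by
  have hI : Complex.I * Complex.I = -1 := Complex.I_mul_I
  have hz := Complex.normSq_eq_conj_mul_self (z := z)
  ext i j
  fin_cases i <;> fin_cases j <;> simp [vv, Matrix.mul_apply, Fin.sum_univ_two]
  · linear_combination (-(x : ℂ) ^ 2) * hI - hz
  · ring
  · ring
  · linear_combination (-(x : ℂ) ^ 2) * hI - hz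

theorem vv_mul' (x : ℝ) (z : ℂ) : (vv x z)ᴴ * vv x z = ((x ^ 2 + Complex.normSq z : ℝ) : ℂ) • 1 := by
  have hI : Complex.I * Complex.I = -1 := Complex.I_mul_I
  have hz := Complex.normSq_eq_conj_mul_self (z := z)
  ext i j
  fin_cases i <;> fin_cases j <;> simp [vv, Matrix.mul_apply, Fin.sum_univ_two]
  · linear_combination (-(x : ℂ) ^ 2) * hI - hz
  · ring
  · ring
  · linear_combination (-(x : ℂ) ^ 2) * hI - hz

/-- The diagonalization. -/
theorem vv_diag {r ω : ℝ} {z : ℂ} (h : r ^ 2 + Complex.normSq z = ω ^ 2) :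
    !![Complex.I * r, z; -conj z, -(Complex.I * r)] * vv (ω + r) z =
      vv (ω + r) z * diagonal ![Complex.I * ω, -(Complex.I * ω)] := by
  have hI : Complex.I * Complex.I = -1 := Complex.I_mul_I
  have hz := Complex.normSq_eq_conj_mul_self (z := z)
  have h' : (r : ℂ) ^ 2 + (Complex.normSq z : ℂ) = (ω : ℂ) ^ 2 := by
    exact_mod_cast h
  ext i j
  fin_cases i <;> fin_cases j <;> simp [vv, Matrix.mul_apply, Fin.sum_univ_two]
  · linear_combination ((r : ℂ) * (ω + r) - (ω : ℂ) * (ω + r)) * hI - h' + hz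
  · ring
  · ring
  · linear_combination ((r : ℂ) * (ω + r) - (ω : ℂ) * (ω + r)) * hI - h' + hz

/-- **The splitting with a diagonal element.** -/
theorem exists_sp (e : E →+* ℂ) {α β : ℝ} (hA : e (A : E) = -((α : ℂ) * α))
    (hB : e (B : E) = -((β : ℂ) * β)) {w : Qt A B} {w1 w2 w3 ω : ℝ} (hw : w.re = 0)
    (hw1 : e w.imI = w1) (hw2 : e w.imJ = w2) (hw3 : e w.imK = w3)
    (hω : (α * w1) ^ 2 + (β * w2) ^ 2 + (α * β * w3) ^ 2 = ω ^ 2) (hω0 : ω ≠ 0) :
    ∃ (f : Qt A B →+* Matrix (Fin 2) (Fin 2) ℂ) (ω' : ℝ), ω' ^ 2 = ω ^ 2 ∧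
      (∀ t, f (algebraMap E (Qt A B) t) = e t • 1) ∧
      (∀ (s : E → E), (∀ x, e (s x) = conj (e x)) → ∀ q : Qt A B,
        f (star (⟨s q.re, s q.imI, s q.imJ, s q.imK⟩ : Qt A B)) = (f q)ᴴ) ∧
      f w = diagonal ![Complex.I * ω', -(Complex.I * ω')] := by
  obtain ⟨z, hz⟩ : ∃ z : ℂ, z = β * w2 + Complex.I * (α * β) * w3 := ⟨_, rfl⟩
  have hzn : Complex.normSq z = (β * w2) ^ 2 + (α * β * w3) ^ 2 := by
    rw [hz, Complex.normSq_apply]
    simp
    ring
  have hw0 : sp0 e α β w = !![Complex.I * ((α * w1 : ℝ) : ℂ), z;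
      -conj z, -(Complex.I * ((α * w1 : ℝ) : ℂ))] := by
    ext i j
    fin_cases i <;> fin_cases j <;> simp [sp0, hw, hw1, hw2, hw3, hz] <;> ring
  obtain ⟨ω', hω', hc⟩ : ∃ ω' : ℝ, ω' ^ 2 = ω ^ 2 ∧ (ω' + α * w1) ^ 2 + Complex.normSq z ≠ 0 := by
    by_contra hcon
    push Not at hcon
    have h1 := hcon ω rfl
    have h2 := hcon (-ω) (by ring)
    have hn := Complex.normSq_nonneg z
    have h3 : ω + α * w1 = 0 := by nlinarith [sq_nonneg (ω + α * w1)]
    have h4 : -ω + α * w1 = 0 := by nlinarith [sq_nonneg (-ω + α * w1)]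
    apply hω0
    linarith
  obtain ⟨c, hcd⟩ : ∃ c : ℂ, c = (((ω' + α * w1) ^ 2 + Complex.normSq z : ℝ) : ℂ) := ⟨_, rfl⟩
  have hc0 : c ≠ 0 := by
    rw [hcd]
    exact_mod_cast hc
  have hcc : conj c = c := by rw [hcd, Complex.conj_ofReal]
  obtain ⟨V, hV⟩ : ∃ V, V = vv (ω' + α * w1) z := ⟨_, rfl⟩
  have hV1 : V * Vᴴ = c • 1 := by rw [hV, vv_mul, hcd]
  have hV2 : Vᴴ * V = c • 1 := by rw [hV, vv_mul', hcd]
  have hcancel : ∀ X : Matrix (Fin 2) (Fin 2) ℂ, c⁻¹ • (c • X) = X := fun X => by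
    rw [smul_smul, inv_mul_cancel₀ hc0, one_smul]
  refine ⟨{ toFun := fun q => c⁻¹ • (Vᴴ * sp0 e α β q * V)
            map_one' := ?_, map_mul' := ?_, map_zero' := ?_, map_add' := ?_ }, ω', hω', ?_, ?_, ?_⟩
  · have h1 : sp0 e α β (1 : Qt A B) = 1 := by
      have h2 := sp0_coe (A := A) (B := B) (e := e) (α := α) (β := β) 1
      rwa [map_one, map_one, one_smul] at h2
    rw [h1, Matrix.mul_one, hV2, hcancel]
  · intro q r
    rw [sp0_mul hA hB, Matrix.smul_mul, Matrix.mul_smul]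
    congr 1
    have h1 : Vᴴ * sp0 e α β q * V * (Vᴴ * sp0 e α β r * V) =
        Vᴴ * sp0 e α β q * (V * Vᴴ) * sp0 e α β r * V := by simp only [Matrix.mul_assoc]
    rw [h1, hV1, Matrix.mul_smul, Matrix.mul_one, Matrix.smul_mul, Matrix.smul_mul, hcancel]
    simp only [Matrix.mul_assoc]
  · have h1 : sp0 e α β (0 : Qt A B) = 0 := by
      have h2 := sp0_coe (A := A) (B := B) (e := e) (α := α) (β := β) 0
      rwa [map_zero, map_zero, zero_smul] at h2
    change c⁻¹ • (Vᴴ * sp0 e α β 0 * V) = 0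
    rw [h1, Matrix.mul_zero, Matrix.zero_mul, smul_zero]
  · intro q r
    change c⁻¹ • (Vᴴ * sp0 e α β (q + r) * V) = c⁻¹ • (Vᴴ * sp0 e α β q * V) +
      c⁻¹ • (Vᴴ * sp0 e α β r * V)
    rw [sp0_add, Matrix.mul_add, Matrix.add_mul, smul_add]
  · intro t
    change c⁻¹ • (Vᴴ * sp0 e α β (algebraMap E (Qt A B) t) * V) = _
    rw [sp0_coe, Matrix.mul_smul, Matrix.mul_one, Matrix.smul_mul, hV2, smul_comm (e t) c, hcancel]
  · intro s hs q
    change c⁻¹ • (Vᴴ * sp0 e α β _ * V) = (c⁻¹ • (Vᴴ * sp0 e α β q * V))ᴴ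
    rw [sp0_star s hs, Matrix.conjTranspose_smul, Matrix.conjTranspose_mul,
      Matrix.conjTranspose_mul, Matrix.conjTranspose_conjTranspose, ← Matrix.mul_assoc]
    congr 1
    change c⁻¹ = conj c⁻¹
    rw [map_inv₀, hcc]
  · change c⁻¹ • (Vᴴ * sp0 e α β w * V) = _
    rw [hw0, Matrix.mul_assoc, hV, vv_diag (by rw [hω', ← hω, hzn]; ring), ← Matrix.mul_assoc, ← hV,
      hV2, Matrix.smul_mul, Matrix.one_mul, hcancel]

end Vale.Agent.P011.E6W.H183
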