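import Vale.Agent.P011.E6W.H183.KRho
import Vale.Agent.P011.Pow.MP

/-!
The special unitary group of the algebra `D ⊗ Q` of degree six is contained in all subgroups of
finite index.
-/

open Matrix Module

set_option linter.unusedSectionVars false

namespace Vale.Agent.P011.E6W.H183

open Vale.Agent.P011.MPQ hiding mat
open Vale.Agent.P011.D4 Vale.Agent.P011.D4.Oct Vale.Agent.P011.E6
open Vale.Agent.P011.E6O
open Vale.Agent.P011.E6I (MQ toMQ toMQ_apply u0)

variable {k E : Type} [Field k] [NumberField k] [Field E] [NumberField E] [Algebra k E]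
  {ρ σ : E ≃ₐ[k] E} {lam : Eˣ} {g : Fin 3 → Eˣ} {th s : E} {kap a b c : kˣ}

theorem WH.anisoE (W : WH ρ σ lam g th s kap a b c) : Aniso (up E a) (up E b) :=
  H64.aniso_of_division W.hdiv

/-- The unitary matrices of reduced norm one in `D ⊗ Q` give elements of the group. -/
theorem act_mem_GO (W : WH ρ σ lam g th s kap a b c) {m : (MQ E a b)ˣ}
    (hm : InD ρ lam (m : MQ E a b)) (hu : IsUn σ g 1 (m : MQ E a b))
    (hn : nu (m : MQ E a b) = 1) :
    (H64.actL two_ne_zero m 1 : AlbL E a b c ≃ₗ[E] AlbL E a b c) ∈ GO ρ σ lam g a b c := by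
  refine ⟨fun x => ?_, fun x => ?_, fun x y => ?_⟩
  · rw [H64.actL_apply, Units.val_one, cub_act W.anisoE m 1 (by rw [nrd_one, hn]), hn, one_mul]
  · rw [H64.actL_apply, H64.actL_apply, Units.val_one, ph_act hm (qmap_one ρ)]
  · rw [H64.actL_apply, H64.actL_apply, Units.val_one,
      her_act one_ne_zero hu (by rw [qmap_one, star_one, one_mul, one_pow]; rfl), one_pow, one_mul]

/-- Unitary elements are unitary matrices. -/
theorem isUn_iff {m : MQ E a b} :
    IsUn σ g 1 m ↔ adjM σ g m * m = 1 := by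
  rw [IsUn, one_smul, adjM]
  constructor
  · intro h
    calc _ = H64.dgi (up E a) (up E b) g * ((m.map (qmap σ))ᴴ * dg (up E a) (up E b) g * m) := by
          simp only [Matrix.mul_assoc]
      _ = 1 := by rw [h, H64.dgi_mul_dg]
  · intro h
    calc _ = (dg (up E a) (up E b) g * H64.dgi (up E a) (up E b) g) *
          ((m.map (qmap σ))ᴴ * dg (up E a) (up E b) g * m) := by
          rw [H64.dg_mul_dgi, Matrix.one_mul]
      _ = dg (up E a) (up E b) g * (H64.dgi (up E a) (up E b) g * (m.map (qmap σ))ᴴ *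
          dg (up E a) (up E b) g * m) := by simp only [Matrix.mul_assoc]
      _ = _ := by rw [h, Matrix.mul_one]

theorem toW_unit_star (W : WH ρ σ lam g th s kap a b c) {x : BW W} (hx : x * star x = 1) :
    IsUn σ g 1 (toW W x) := by
  rw [isUn_iff]
  have h1 : star x * x = 1 := by
    have h0 : x ≠ 0 := left_ne_zero_of_mul_eq_one hx
    rw [eq_inv_of_mul_eq_one_right hx, inv_mul_cancel₀ h0]
  rw [← toW_star, ← map_mul, h1, map_one]

section hom

variable (W : WH ρ σ lam g th s kap a b c)
  (f : BW W →ₐ[KW W] Matrix (Fin 6) (Fin 6) (AlgebraicClosure E))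
  (hf : ∀ x, (f x).det = algebraMap E (AlgebraicClosure E) (nu (toW W x)))

include hf in
theorem nu_of_det {x : BW W} (hx : (f x).det = 1) : nu (toW W x) = 1 := by
  rw [hf] at hx
  exact (algebraMap E (AlgebraicClosure E)).injective (hx.trans (map_one _).symm)

/-- The homomorphism. -/
noncomputable def homW : One.SUD f →* GO ρ σ lam g a b c where
  toFun x := ⟨H64.actL two_ne_zero (Units.map (toW W : BW W →* MQ E a b) (x : (BW W)ˣ)) 1,
    act_mem_GO W (inD_toW W _) (toW_unit_star W x.2.1) (nu_of_det W f hf x.2.2)⟩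
  map_one' := by
    apply Subtype.ext
    apply LinearEquiv.ext
    intro x
    change Alb.act (Units.map (toW W : BW W →* MQ E a b) ((1 : One.SUD f) : (BW W)ˣ)) 1 x = x
    rw [OneMemClass.coe_one, map_one, act_one_one]
  map_mul' x y := by
    apply Subtype.ext
    apply LinearEquiv.ext
    intro z
    change Alb.act (Units.map (toW W : BW W →* MQ E a b) ((x * y : One.SUD f) : (BW W)ˣ)) 1 z =
      Alb.act (Units.map (toW W : BW W →* MQ E a b) (x : (BW W)ˣ)) 1
        (Alb.act (Units.map (toW W : BW W →* MQ E a b) (y : (BW W)ˣ)) 1 z)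
    rw [act_act, MulMemClass.coe_mul, map_mul, mul_one]

theorem homW_apply (x : One.SUD f) : ((homW W f hf x : GO ρ σ lam g a b c) :
    AlbL E a b c ≃ₗ[E] AlbL E a b c) =
      H64.actL two_ne_zero (Units.map (toW W : BW W →* MQ E a b) (x : (BW W)ˣ)) 1 := rfl

end hom

/-- The normal subgroups of finite index of the special unitary group of the algebra of degree six
contain the elements which are close to one at finitely many places. -/
def SixAt (W : WH ρ σ lam g th s kap a b c) : Prop :=
  ∀ (Ω : Type) [Field Ω] [Algebra (KW W) Ω] (f : BW W →ₐ[KW W] Matrix (Fin 6) (Fin 6) Ω) (M : ℕ)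
    (B : Basis (Fin M) k (BW W)) (N : Subgroup (One.SUD f)) [N.Normal], N.index ≠ 0 →
      ∃ S : Set (Arith.Pl k), S.Finite ∧ One.PF B (One.GU f) (One.Im N) S

theorem SixAt.of_mp (hMP : Pow.MP 6) (W : WH ρ σ lam g th s kap a b c) : SixAt W :=
  fun Ω _ _ f M B N _ hi => hMP k (KW W) (BW W) kap (thK W) (setW W)
    ((finrank_BB W.HI).trans (by norm_num)) Ω f M B N hi

/-- **The special unitary group of `D ⊗ Q` is contained in the subgroups of finite index**, if the
algebra does not remain a division algebra at any finite place which splits. -/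
theorem sq_mem (W : WH ρ σ lam g th s kap a b c) (hMP : SixAt W)
    (hT : One.Tdiv k (KW W) (BW W) = ∅) (N : Subgroup (GO ρ σ lam g a b c)) (hi : N.index ≠ 0)
    {m : (MQ E a b)ˣ} (hm : InD ρ lam (m : MQ E a b)) (hu : IsUn σ g 1 (m : MQ E a b))
    (hn : nu (m : MQ E a b) = 1) : (⟨_, act_mem_GO W hm hu hn⟩ : GO ρ σ lam g a b c) ∈ N := by
  obtain ⟨f, hf⟩ : ∃ f : BW W →ₐ[KW W] Matrix (Fin 6) (Fin 6) (AlgebraicClosure E),
      ∀ x, (f x).det = algebraMap E (AlgebraicClosure E) (nu (toW W x)) := exists_spB W.HI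
  have hS := setW W
  have hdeg : finrank (KW W) (BW W) = 6 ^ 2 := (finrank_BB W.HI).trans (by norm_num)
  have hKf : FiniteDimensional k (KW W) := Module.finite_of_finrank_pos (by rw [hS.rank]; norm_num)
  have hDf : FiniteDimensional k (BW W) := Module.Finite.trans (KW W) (BW W)
  have hN : N.FiniteIndex := ⟨hi⟩
  have hN1 : (N.comap (homW W f hf)).FiniteIndex := by
    refine ⟨?_⟩
    rw [Subgroup.index_comap]
    exact Subgroup.FiniteIndex.index_ne_zero (H := N.subgroupOf _)
  have hN2 : (N.comap (homW W f hf)).normalCore.FiniteIndex := inferInstance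
  obtain ⟨S, hSf, hpf⟩ := hMP _ f _ (finBasis k (BW W)) (N.comap (homW W f hf)).normalCore
    hN2.index_ne_zero
  obtain ⟨η, -, h⟩ := One.pf_tdiv hS (by norm_num) hdeg f (finBasis k (BW W)) One.im_sub
    One.one_im (fun _ ha _ hb => One.mul_im ha hb) hN2.index_ne_zero
    (fun x hx => One.pow_im (fun g => Subgroup.pow_index_mem _ g) hx) hSf hpf
  have hinv : InD ρ lam ((m⁻¹ : (MQ E a b)ˣ) : MQ E a b) := hm.inv
  -- the element of the algebra
  obtain ⟨x, hx⟩ : ∃ x : BW W, toW W x = (m : MQ E a b) := ⟨ofW W hm, rfl⟩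
  have hx0 : x ≠ 0 := by
    intro h0
    rw [h0, map_zero] at hx
    exact m.ne_zero hx.symm
  have hxs : x * star x = 1 := by
    have h1 : star x * x = 1 := by
      apply toW_injective W
      rw [map_mul, toW_star, hx, map_one]
      exact isUn_iff.mp hu
    rw [eq_inv_of_mul_eq_one_left h1, mul_inv_cancel₀ hx0]
  have hxd : (f x).det = 1 := by rw [hf, hx, hn, map_one]
  obtain ⟨u, hu', hux⟩ := h x ⟨hxs, hxd⟩ (by
    rw [hT]
    intro p hp
    exact absurd hp (Set.notMem_empty p))
  have h2 : homW W f hf u ∈ N :=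
    Subgroup.mem_comap.mp ((Subgroup.normalCore_le (N.comap (homW W f hf))) hu')
  have h3 : homW W f hf u = ⟨_, act_mem_GO W hm hu hn⟩ := by
    apply Subtype.ext
    rw [homW_apply]
    congr 1
    apply Units.ext
    change toW W ((u : (BW W)ˣ) : BW W) = m
    rw [hux, hx]
  rwa [h3] at h2

/-- The special unitary group of `D ⊗ Q` is contained in the finite residual. -/
theorem sq_res (W : WH ρ σ lam g th s kap a b c) (hMP : SixAt W)
    (hT : One.Tdiv k (KW W) (BW W) = ∅) {m : (MQ E a b)ˣ} (hm : InD ρ lam (m : MQ E a b))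
    (hu : IsUn σ g 1 (m : MQ E a b)) (hn : nu (m : MQ E a b) = 1)
    {φ : AlbL E a b c ≃ₗ[E] AlbL E a b c} (hφ : ∀ x, φ x = Alb.act m 1 x) :
    φ ∈ E6O.Res ρ σ lam g a b c := by
  have h : φ = H64.actL two_ne_zero m 1 := by
    apply LinearEquiv.ext
    intro x
    rw [hφ, H64.actL_apply, Units.val_one]
  refine ⟨⟨_, act_mem_GO W hm hu hn⟩, ?_, h.symm⟩
  rw [SetLike.mem_coe, Subgroup.mem_sInf]
  intro N hN
  exact sq_mem W hMP hT N hN hm hu hn

section qi

variable {F : Type} [Field F] (α β : Fˣ)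

/-- The first generator. -/
def qi : Qt α β := ⟨0, 1, 0, 0⟩

/-- The second generator. -/
def qj : Qt α β := ⟨0, 0, 1, 0⟩

theorem star_qi : star (qi α β) = -qi α β := by
  ext <;> simp [qi]

theorem star_qj : star (qj α β) = -qj α β := by
  ext <;> simp [qj]

theorem qi_sq : qi α β * qi α β = ((α : F) : Qt α β) := by
  ext <;> simp [qi]

theorem qj_sq : qj α β * qj α β = ((β : F) : Qt α β) := by
  ext <;> simp [qj]

theorem qi_qj : qi α β * qj α β = -(qj α β * qi α β) := by
  ext <;> simp [qi, qj]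

end qi

theorem qmap_qi (τ : E ≃ₐ[k] E) : qmap τ (qi (up E a) (up E b)) = qi (up E a) (up E b) :=
  QuaternionAlgebra.ext (map_zero τ) (map_one τ) (map_zero τ) (map_zero τ)

theorem qmap_qj (τ : E ≃ₐ[k] E) : qmap τ (qj (up E a) (up E b)) = qj (up E a) (up E b) :=
  QuaternionAlgebra.ext (map_zero τ) (map_zero τ) (map_one τ) (map_zero τ)

/-- The scalar matrices. -/
def scq (q : Qt (up E a) (up E b)) : MQ E a b := Matrix.diagonal fun _ => q

theorem scq_mul (q r : Qt (up E a) (up E b)) : scq q * scq r = (scq (q * r) : MQ E a b) := by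
  rw [scq, scq, scq, Matrix.diagonal_mul_diagonal]

theorem inD_scq {q : Qt (up E a) (up E b)} (hq : qmap ρ q = q) : InD ρ lam (scq q : MQ E a b) := by
  have h1 : (scq q : MQ E a b).map (qmap ρ) = scq q := by
    apply Matrix.ext
    intro i j
    rw [Matrix.map_apply, scq, Matrix.diagonal_apply]
    split_ifs
    · exact hq
    · exact qmap_zero ρ
  rw [InD, h1]
  apply Matrix.ext
  intro i j
  rw [scq, Matrix.diagonal_mul, Matrix.mul_diagonal, toMQ_apply]
  exact (QuaternionAlgebra.coe_commutes _ _).symm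

theorem adjM_scq {q : Qt (up E a) (up E b)} (hq : qmap σ q = q) (hs : star q = -q) :
    adjM σ g (scq q : MQ E a b) = -scq q := by
  have h1 : (scq q : MQ E a b).map (qmap σ) = scq q := by
    apply Matrix.ext
    intro i j
    rw [Matrix.map_apply, scq, Matrix.diagonal_apply]
    split_ifs
    · exact hq
    · exact qmap_zero σ
  have h2 : (scq q : MQ E a b)ᴴ = -scq q := by
    rw [scq, Matrix.diagonal_conjTranspose, Matrix.diagonal_neg]
    congr 1
    funext i
    exact hs
  have h3 : (scq q : MQ E a b) * dg (up E a) (up E b) g = dg (up E a) (up E b) g * scq q := by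
    rw [scq, dg, Matrix.diagonal_mul_diagonal, Matrix.diagonal_mul_diagonal]
    congr 1
    funext i
    exact (Algebra.commutes _ _).symm
  rw [adjM, h1, h2, Matrix.mul_neg, Matrix.neg_mul, Matrix.mul_assoc, h3, ← Matrix.mul_assoc,
    H64.dgi_mul_dg, Matrix.one_mul]

/-- The generators of the quaternion algebra in the algebra of degree six. -/
theorem exists_frQ (W : WH ρ σ lam g th s kap a b c) : ∃ i j : BW W, star i = -i ∧ star j = -j ∧
    i * i = algebraMap k (BW W) a ∧ j * j = algebraMap k (BW W) b ∧ i * j = -(j * i) ∧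
    toW W i = scq (qi (up E a) (up E b)) ∧ toW W j = scq (qj (up E a) (up E b)) := by
  have hk : ∀ (u : kˣ) (q : Qt (up E a) (up E b)), q = ((algebraMap k E u : E) :
      Qt (up E a) (up E b)) → (scq q : MQ E a b) = toW W (algebraMap k (BW W) u) := by
    intro u q hq
    have h1 : toW W (algebraMap k (BW W) u) = algebraMap k E u • 1 := by
      rw [IsScalarTower.algebraMap_apply k (KW W) (BW W), Algebra.algebraMap_eq_smul_one, toW_smul,
        map_one, ← IsScalarTower.algebraMap_apply]
    rw [h1, hq, scq, ← Matrix.diagonal_one, ← Matrix.diagonal_smul]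
    congr 1
    funext i
    rw [Pi.smul_apply, Algebra.smul_def, mul_one]
    rfl
  refine ⟨ofW W (inD_scq (qmap_qi ρ)), ofW W (inD_scq (qmap_qj ρ)), toW_injective W ?_,
    toW_injective W ?_, toW_injective W ?_, toW_injective W ?_, toW_injective W ?_, rfl, rfl⟩
  · rw [toW_star, map_neg, toW_ofW, adjM_scq (qmap_qi σ) (star_qi _ _)]
  · rw [toW_star, map_neg, toW_ofW, adjM_scq (qmap_qj σ) (star_qj _ _)]
  · rw [map_mul, toW_ofW, scq_mul, ← hk]
    exact qi_sq _ _
  · rw [map_mul, toW_ofW, scq_mul, ← hk]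
    exact qj_sq _ _
  · rw [map_mul, map_neg, map_mul, toW_ofW, toW_ofW, scq_mul, scq_mul, qi_qj, scq, scq,
      Matrix.diagonal_neg]

end Vale.Agent.P011.E6W.H183
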