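import Vale.Agent.P011.E6W.Defs
import Vale.Agent.P011.E6W.H541.TdW
import Vale.Agent.P011.E6W.H183.SqRes

/-!
The block (A) in the form of the interface.
-/

open Matrix NumberField

namespace Vale.Agent.P011.E6W.H183

open Vale.Agent.P011.MPQ hiding mat
open Vale.Agent.P011.D4 Vale.Agent.P011.D4.Oct Vale.Agent.P011.E6
open Vale.Agent.P011.E6O

variable {k E : Type} [Field k] [NumberField k] [Field E] [NumberField E] [Algebra k E]
  {ρ σ : E ≃ₐ[k] E} {lam : Eˣ} {g : Fin 3 → Eˣ} {th s : E} {kap a b c : kˣ}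

/-- **The block (A).** -/
theorem sqRes (W : WH ρ σ lam g th s kap a b c) (hMP : SixAt W)
    (hT : One.Tdiv k (KW W) (BW W) = ∅) : E6W.SqRes ρ σ lam g a b c := by
  intro m hm hu hn h hh
  exact sq_res W hMP hT hm (isUn_iff.mpr hu) hn hh

end Vale.Agent.P011.E6W.H183
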