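import Vale.Agent.P011.E6I.Gen5

/-!
Hermitian matrices over the quaternions and a cubic element: the elements `y` with `z y = y zᴴ`.
-/

open Matrix Polynomial

namespace Vale.Agent.P011.E6W.H183

open Vale.Agent.P011.MPQ hiding mat
open Vale.Agent.P011.D4 Vale.Agent.P011.D4.Oct Vale.Agent.P011.E6
open Vale.Agent.P011.E6.Alb
open Vale.Agent.P011.E6I (InVs)
open Vale.Agent.P011.E6I.Gn (Tm Tm_apply Tm_mul Tm_self Tm_inj Tm_cancel Tm_cube inV_ext inV_add
  inV_smul inV_adj inV_cross mat_mul_adj mat_adj_mul mat_mul_mul mat_mul_cross)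

section gen

variable {F : Type} [Field F] [CharZero F] {a b c : Fˣ}

theorem mmm {x v : Alb a b c} (hx : InVs x) (hv : InVs v) (h0 : cub x ≠ 0) :
    mat x * mat v * mat x = tf x v • mat x - mat (cross (adj x) v) := by
  rw [mat_mul_mul hx hv h0, sub_eq_add_neg, H64.mat_add, H64.mat_smul,
    ← neg_one_smul F (cross (adj x) v), H64.mat_smul, neg_one_smul, sub_eq_add_neg]

/-- Two values at which the cubic norm does not vanish. -/
theorem exists_two {x y : Alb a b c} (h0 : cub x ≠ 0) : ∃ s1 s2 : F, s1 ≠ 0 ∧ s2 ≠ 0 ∧ s1 ≠ s2 ∧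
    cub (x + s1 • y) ≠ 0 ∧ cub (x + s2 • y) ≠ 0 := by
  classical
  obtain ⟨p, hp⟩ : ∃ p : F[X], p = C (cub x) + C (tf (adj x) y) * X + C (tf x (adj y)) * X ^ 2 +
      C (cub y) * X ^ 3 := ⟨_, rfl⟩
  have hev : ∀ s : F, p.eval s = cub (x + s • y) := by
    intro s
    rw [hp, cub_add, cub_smul, adj_smul, tf_smul_right, tf_smul_right]
    simp only [eval_add, eval_mul, eval_C, eval_X, eval_pow]
    ring
  have hp0 : p ≠ 0 := by
    intro h
    have h1 := hev 0
    rw [h, eval_zero, zero_smul, add_zero] at h1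
    exact h0 h1.symm
  obtain ⟨s1, hs1⟩ := Infinite.exists_notMem_finset (insert 0 p.roots.toFinset)
  obtain ⟨s2, hs2⟩ := Infinite.exists_notMem_finset (insert s1 (insert 0 p.roots.toFinset))
  simp only [Finset.mem_insert, not_or, Multiset.mem_toFinset, mem_roots hp0, IsRoot.def,
    hev] at hs1 hs2
  exact ⟨s1, s2, hs1.1, hs2.2.1, fun h => hs2.1 h.symm, hs1.2, hs2.2.2⟩

/-- The polarised product. -/
theorem mm_polar {x y v : Alb a b c} (hx : InVs x) (hy : InVs y) (hv : InVs v)
    (h0 : cub x ≠ 0) : mat x * mat v * mat y + mat y * mat v * mat x =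
      tf x v • mat y + tf y v • mat x - mat (cross (cross x y) v) := by
  obtain ⟨s1, s2, h1, h2, h12, hc1, hc2⟩ := exists_two (y := y) h0
  have key : ∀ s : F, s ≠ 0 → cub (x + s • y) ≠ 0 →
      (mat x * mat v * mat y + mat y * mat v * mat x - (tf x v • mat y + tf y v • mat x -
        mat (cross (cross x y) v))) + s • (mat y * mat v * mat y - (tf y v • mat y -
          mat (cross (adj y) v))) = 0 := by
    intro s hs hc
    have e1 := mmm (inV_add hx (inV_smul s hy)) hv hc
    have e2 := mmm hx hv h0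
    rw [adj_add, adj_smul, cross_smul_right, cross_add_left, cross_add_left, cross_smul_left,
      cross_smul_left, tf_add_left, tf_smul_left, H64.mat_add, H64.mat_add, H64.mat_add,
      H64.mat_smul, H64.mat_smul, H64.mat_smul] at e1
    apply smul_right_injective _ hs
    simp only [smul_zero]
    simp only [Matrix.mul_add, Matrix.add_mul, Matrix.smul_mul, Matrix.mul_smul] at e1
    linear_combination (norm := module) e1 - e2
  have k1 := key s1 h1 hc1
  have k2 := key s2 h2 hc2
  have h3 : (s1 - s2) • (mat y * mat v * mat y - (tf y v • mat y - mat (cross (adj y) v))) = 0 := by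
    linear_combination (norm := module) k1 - k2
  have h4 := (smul_eq_zero.mp h3).resolve_left (sub_ne_zero.mpr h12)
  rw [h4, smul_zero, add_zero] at k1
  exact sub_eq_zero.mp k1

/-- **The key identity** for two elements whose quotients commute. -/
theorem key_comm {v x y : Alb a b c} (hv : InVs v) (hx : InVs x) (hy : InVs y)
    (h0 : cub v ≠ 0) (hx0 : cub x ≠ 0) (hc : Tm v y * Tm v x = Tm v x * Tm v y) :
    (3 * cub v) • (Tm v x ^ 2 * Tm v y) - (2 * tf x (adj v)) • (Tm v x * Tm v y) +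
      tf v (adj x) • Tm v y = tf y (adj v) • Tm v x ^ 2 - tf v (cross x y) • Tm v x +
        tf (adj x) y • 1 := by
  have hX : Tm v x * mat v = mat x := Tm_mul hv h0 x
  have hY : Tm v y * mat v = mat y := Tm_mul hv h0 y
  have hV : mat v * mat (adj v) = cub v • 1 := mat_mul_adj hv
  have hcube := Tm_cube hv h0 hx hx0
  have e1 := mm_polar hx hy (inV_adj hv) hx0
  have e2 := mmm hv (inV_cross hx hy) h0
  have e3 := mat_mul_cross hx hy
  have e4 : mat x * mat (adj x) = cub x • 1 := mat_mul_adj hx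
  rw [cross_comm (adj v)] at e2
  obtain ⟨z, hz⟩ : ∃ z, z = Tm v x := ⟨_, rfl⟩
  obtain ⟨w, hw⟩ : ∃ w, w = Tm v y := ⟨_, rfl⟩
  rw [← hz] at hX hcube hc ⊢
  rw [← hw] at hY hc ⊢
  -- cancel `v`
  have f1 : (2 * cub v) • (z * w) = tf x (adj v) • w + tf y (adj v) • z -
      tf v (cross x y) • 1 + mat v * mat (cross x y) := by
    have g1 : (2 * cub v) • (z * w) * mat v = (tf x (adj v) • w + tf y (adj v) • z -
        tf v (cross x y) • 1 + mat v * mat (cross x y)) * mat v := by
      have g2 : mat x * mat (adj v) * mat y = cub v • (z * w * mat v) := by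
        rw [← hX, ← hY]
        calc _ = z * (mat v * mat (adj v)) * (w * mat v) := by simp only [Matrix.mul_assoc]
          _ = _ := by
            rw [hV, Matrix.mul_smul, Matrix.mul_one, Matrix.smul_mul]
            simp only [Matrix.mul_assoc]
      have g3 : mat y * mat (adj v) * mat x = cub v • (z * w * mat v) := by
        rw [← hX, ← hY, ← hc]
        calc _ = w * (mat v * mat (adj v)) * (z * mat v) := by simp only [Matrix.mul_assoc]
          _ = _ := by
            rw [hV, Matrix.mul_smul, Matrix.mul_one, Matrix.smul_mul]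
            simp only [Matrix.mul_assoc]
      rw [g2, g3] at e1
      simp only [Matrix.add_mul, Matrix.sub_mul, Matrix.smul_mul, Matrix.one_mul, hX, hY, e2]
      linear_combination (norm := module) e1
    have g4 := congrArg (fun M => M * mat (adj v)) g1
    simp only [Matrix.mul_assoc _ (mat v) (mat (adj v)), hV, Matrix.mul_smul, Matrix.mul_one] at g4
    exact smul_right_injective _ h0 g4
  -- multiply by `z ^ 2`
  have f2 : z * (mat v * mat (cross x y)) = tf (adj x) y • 1 - w * (mat v * mat (adj x)) := by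
    rw [← Matrix.mul_assoc, hX, ← Matrix.mul_assoc, hY]
    linear_combination (norm := module) e3
  have f3 : z * (mat v * mat (adj x)) = cub x • 1 := by
    rw [← Matrix.mul_assoc, hX, e4]
  have f4 : z * (z * (mat v * mat (cross x y))) = tf (adj x) y • z - cub x • w := by
    rw [f2, Matrix.mul_sub, Matrix.mul_smul, Matrix.mul_one, ← Matrix.mul_assoc, ← hc,
      Matrix.mul_assoc, f3, Matrix.mul_smul, Matrix.mul_one]
  have f5 : (2 * cub v) • (z ^ 3 * w) = tf x (adj v) • (z ^ 2 * w) + tf y (adj v) • z ^ 3 -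
      tf v (cross x y) • z ^ 2 + (tf (adj x) y • z - cub x • w) := by
    have g5 := congrArg (fun M => z * (z * M)) f1
    simp only [Matrix.mul_add, Matrix.mul_sub, Matrix.mul_smul, Matrix.mul_one, f4] at g5
    rw [pow_succ z 2, pow_two]
    simpa only [Matrix.mul_assoc] using g5
  -- cancel `z`
  have hn : cub x ≠ 0 := hx0
  have f6 : z * ((3 * cub v) • (z ^ 2 * w) - (2 * tf x (adj v)) • (z * w) + tf v (adj x) • w) =
      z * (tf y (adj v) • z ^ 2 - tf v (cross x y) • z + tf (adj x) y • 1) := by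
    have g6 : cub v • (z ^ 3 * w) = tf x (adj v) • (z ^ 2 * w) - tf v (adj x) • (z * w) +
        cub x • w := by
      rw [hcube]
      simp only [Matrix.add_mul, Matrix.smul_mul, Matrix.one_mul, smul_add, smul_smul]
      field_simp
      module
    simp only [Matrix.mul_add, Matrix.mul_sub, Matrix.mul_smul, Matrix.mul_one]
    rw [← Matrix.mul_assoc z (z ^ 2) w, ← Matrix.mul_assoc z z w, ← pow_succ', ← pow_two]
    linear_combination (norm := module) f5 + g6
  have f7 : (mat v * mat (adj x)) * z = cub x • 1 := by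
    have g7 : mat (adj x) * mat x = cub x • (1 : Matrix (Fin 3) (Fin 3) (Qt a b)) := mat_adj_mul hx
    apply smul_right_injective _ h0
    simp only
    calc cub v • (mat v * mat (adj x) * z) = mat v * mat (adj x) * z *
          (mat v * mat (adj v)) := by rw [hV, Matrix.mul_smul, Matrix.mul_one]
      _ = mat v * (mat (adj x) * (z * mat v)) * mat (adj v) := by simp only [Matrix.mul_assoc]
      _ = cub v • cub x • 1 := by
        rw [hX, g7, Matrix.mul_smul, Matrix.mul_one, Matrix.smul_mul, hV, smul_comm]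
  have g8 := congrArg (fun M => (mat v * mat (adj x)) * M) f6
  simp only [← Matrix.mul_assoc _ z, f7, Matrix.smul_mul, Matrix.one_mul] at g8
  exact smul_right_injective _ hn g8

end gen

section ez

variable {F R : Type} [Field F] [Ring R] [Algebra F R]

/-- The polynomials of degree at most two. -/
def ez (z : R) (t : Fin 3 → F) : R := t 0 • 1 + t 1 • z + t 2 • z ^ 2

/-- The cubic relation. -/
structure Cub (z : R) (P2 P1 P0 : F) : Prop where
  /-- the relation -/
  rel : z ^ 3 = P2 • z ^ 2 + P1 • z + P0 • (1 : R)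
  /-- independence -/
  ind : ∀ t : Fin 3 → F, ez z t = 0 → t = 0

variable {z : R} {P2 P1 P0 : F}

theorem ez_add (t t' : Fin 3 → F) : ez z (t + t') = ez z t + ez z t' := by
  simp only [ez, Pi.add_apply]
  module

theorem ez_smul (r : F) (t : Fin 3 → F) : ez z (r • t) = r • ez z t := by
  simp only [ez, Pi.smul_apply, smul_eq_mul]
  module

theorem ez_one : ez z ![(1 : F), 0, 0] = 1 := by
  simp [ez]

theorem ez_z : ez z ![(0 : F), 1, 0] = z := by
  simp [ez]

theorem ez_comm (t : Fin 3 → F) : ez z t * z = z * ez z t := by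
  simp only [ez, add_mul, mul_add, smul_mul_assoc, mul_smul_comm, one_mul, mul_one,
    ← pow_succ, ← pow_succ']

theorem ez_comm_of {w : R} (hw : w * z = z * w) (t : Fin 3 → F) : w * ez z t = ez z t * w := by
  have h2 : w * z ^ 2 = z ^ 2 * w := by rw [pow_two, ← mul_assoc, hw, mul_assoc, hw, mul_assoc]
  simp only [ez, add_mul, mul_add, smul_mul_assoc, mul_smul_comm, one_mul, mul_one, hw, h2]

theorem Cub.inj (H : Cub z P2 P1 P0) {t t' : Fin 3 → F} (h : ez z t = ez z t') : t = t' := by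
  have h1 : ez z (t + (-1 : F) • t') = 0 := by
    rw [ez_add, ez_smul, h]
    module
  have h2 := H.ind _ h1
  rw [neg_one_smul, ← sub_eq_add_neg] at h2
  exact sub_eq_zero.mp h2

theorem Cub.z_mul (H : Cub z P2 P1 P0) (t : Fin 3 → F) :
    z * ez z t = ez z ![P0 * t 2, t 0 + P1 * t 2, t 1 + P2 * t 2] := by
  have h := H.rel
  simp only [ez, mul_add, mul_smul_comm, mul_one, ← pow_succ', ← pow_two, h]
  simp only [Matrix.cons_val_zero, Matrix.cons_val_one, Matrix.cons_val]
  module

theorem Cub.mul (H : Cub z P2 P1 P0) (t t' : Fin 3 → F) :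
    ∃ t'' : Fin 3 → F, ez z t * ez z t' = ez z t'' := by
  have h1 : ez z t * ez z t' = t 0 • ez z t' + t 1 • (z * ez z t') + t 2 • (z * (z * ez z t')) := by
    conv_lhs => rw [ez]
    simp only [add_mul, smul_mul_assoc, one_mul, pow_two, mul_assoc]
  rw [H.z_mul, H.z_mul, ← ez_smul, ← ez_smul, ← ez_smul, ← ez_add, ← ez_add] at h1
  exact ⟨_, h1⟩

/-- An element which is a unit has its inverse among the polynomials. -/
theorem Cub.inv (H : Cub z P2 P1 P0) {t : Fin 3 → F} (ht : IsUnit (ez z t)) :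
    ∃ t' : Fin 3 → F, ez z t' * ez z t = 1 ∧ ez z t * ez z t' = 1 := by
  choose f hf using fun s => H.mul s t
  have hadd : ∀ s s', f (s + s') = f s + f s' := by
    intro s s'
    apply H.inj
    rw [← hf, ez_add, ez_add, add_mul, hf, hf]
  have hsmul : ∀ (r : F) s, f (r • s) = r • f s := by
    intro r s
    apply H.inj
    rw [← hf, ez_smul, ez_smul, smul_mul_assoc, hf]
  have hinj : Function.Injective f := by
    intro s s' hs
    apply H.inj
    apply ht.mul_right_cancel
    rw [hf, hf, hs]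
  have hsur : Function.Surjective f :=
    LinearMap.injective_iff_surjective (f := (IsLinearMap.mk' f ⟨hadd, hsmul⟩ :
      (Fin 3 → F) →ₗ[F] (Fin 3 → F))).mp hinj
  obtain ⟨t', ht'⟩ := hsur ![1, 0, 0]
  have h1 : ez z t' * ez z t = 1 := by rw [hf, ht', ez_one]
  exact ⟨t', h1, by rw [ez_comm_of (ez_comm t), h1]⟩

end ez

section vz

variable {F : Type} [Field F] [CharZero F] {a b c : Fˣ}

theorem exists_mat {S : Matrix (Fin 3) (Fin 3) (Qt a b)} (hS : Sᴴ = S) :
    ∃ x : Alb a b c, InVs x ∧ mat x = S :=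
  ⟨ofMV S 0, E6I.Gn.inV_ofMV S, H64.mat_ofMV two_ne_zero hS 0⟩

/-- **The elements `y` with `z y = y zᴴ`.** -/
theorem vz {v : Alb a b c} (hv : InVs v) (h0 : cub v ≠ 0) {z : Matrix (Fin 3) (Fin 3) (Qt a b)}
    (hz : z * mat v = mat v * zᴴ) {P2 P1 P0 : F} (H : Cub z P2 P1 P0)
    (hu : IsUnit (ez z ![-P1, -(2 * P2), 3])) {y : Alb a b c} (hy : InVs y)
    (hzy : z * mat y = mat y * zᴴ) : ∃ t : Fin 3 → F, mat y = ez z t * mat v := by
  obtain ⟨x, hx, hxz⟩ : ∃ x : Alb a b c, InVs x ∧ mat x = z * mat v := exists_mat (by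
    rw [Matrix.conjTranspose_mul, H64.mat_isHermitian v, hz])
  obtain ⟨s, -, hs0, -, -, hs, -⟩ := exists_two (y := x) h0
  obtain ⟨r, hr⟩ : ∃ r, r = s⁻¹ := ⟨_, rfl⟩
  have hc : cub (x + r • v) ≠ 0 := by
    have h1 : x + r • v = r • (v + s • x) := by
      rw [smul_add, smul_smul, hr, inv_mul_cancel₀ hs0, one_smul, add_comm]
    rw [h1, cub_smul, hr]
    exact mul_ne_zero (pow_ne_zero _ (inv_ne_zero hs0)) hs
  have hx' : InVs (x + r • v) := inV_add hx (inV_smul r hv)
  have hV : mat v * mat (adj v) = cub v • (1 : Matrix (Fin 3) (Fin 3) (Qt a b)) := mat_mul_adj hv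
  have hT : Tm v (x + r • v) = z + r • 1 := by
    rw [map_add, map_smul, Tm_self hv h0, Tm_apply, hxz, Matrix.mul_assoc, hV, Matrix.mul_smul,
      Matrix.mul_one, smul_smul, inv_mul_cancel₀ h0, one_smul]
  obtain ⟨w, hw⟩ : ∃ w, w = Tm v y := ⟨_, rfl⟩
  have hwv : w * mat v = mat y := by rw [hw, Tm_mul hv h0]
  have hwz : w * z = z * w := by
    have h1 : (w * z) * mat v = (z * w) * mat v := by
      rw [Matrix.mul_assoc, hz, ← Matrix.mul_assoc, hwv, Matrix.mul_assoc, hwv, hzy]
    have h2 := congrArg (fun M => M * mat (adj v)) h1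
    simp only [Matrix.mul_assoc _ (mat v) (mat (adj v)), hV, Matrix.mul_smul, Matrix.mul_one] at h2
    exact smul_right_injective _ h0 h2
  have hwz' : w * (z + r • 1) = (z + r • 1) * w := by
    rw [mul_add, add_mul, hwz, mul_smul_comm, smul_mul_assoc, mul_one, one_mul]
  have hk := key_comm hv hx' hy h0 hc (by rw [hT, ← hw]; exact hwz')
  have hcube := Tm_cube hv h0 hx' hc
  rw [hT] at hk hcube
  rw [← hw] at hk
  obtain ⟨T1, hT1⟩ : ∃ T1, T1 = tf (x + r • v) (adj v) := ⟨_, rfl⟩
  obtain ⟨T5, hT5⟩ : ∃ T5, T5 = tf v (adj (x + r • v)) := ⟨_, rfl⟩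
  obtain ⟨n, hn⟩ : ∃ n, n = cub (x + r • v) := ⟨_, rfl⟩
  obtain ⟨A, hA⟩ : ∃ A, A = tf y (adj v) := ⟨_, rfl⟩
  obtain ⟨B, hB⟩ : ∃ B, B = tf v (cross (x + r • v) y) := ⟨_, rfl⟩
  obtain ⟨C', hC⟩ : ∃ C', C' = tf (adj (x + r • v)) y := ⟨_, rfl⟩
  rw [← hT1, ← hT5, ← hA, ← hB, ← hC] at hk
  rw [← hT1, ← hT5, ← hn] at hcube
  have e2 : (z + r • (1 : Matrix (Fin 3) (Fin 3) (Qt a b))) ^ 2 = z ^ 2 + (2 * r) • z +
      (r ^ 2) • 1 := by
    simp only [pow_two, mul_add, add_mul, smul_mul_assoc, mul_smul_comm, mul_one, one_mul]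
    module
  have e3 : (z + r • (1 : Matrix (Fin 3) (Fin 3) (Qt a b))) ^ 3 = z ^ 3 + (3 * r) • z ^ 2 +
      (3 * r ^ 2) • z + (r ^ 3) • 1 := by
    rw [pow_succ, e2]
    simp only [mul_add, add_mul, smul_mul_assoc, mul_smul_comm, mul_one, one_mul, ← pow_succ,
      ← pow_two]
    module
  -- comparison of the coefficients
  have hco : ez z ![(P0 + r ^ 3) - ((cub v)⁻¹ * T1 * r ^ 2 - (cub v)⁻¹ * T5 * r + (cub v)⁻¹ * n),
      (P1 + 3 * r ^ 2) - ((cub v)⁻¹ * T1 * (2 * r) - (cub v)⁻¹ * T5),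
      (P2 + 3 * r) - (cub v)⁻¹ * T1] = 0 := by
    rw [e3, e2, H.rel] at hcube
    simp only [ez, Matrix.cons_val_zero, Matrix.cons_val_one, Matrix.cons_val]
    linear_combination (norm := module) hcube
  have hco' := H.ind _ hco
  have c1 := congrFun hco' 1
  have c2 := congrFun hco' 2
  simp only [Matrix.cons_val_one, Matrix.cons_val, Pi.zero_apply] at c1 c2
  have hT1' : T1 = cub v * (P2 + 3 * r) := by
    field_simp at c2
    linear_combination -c2
  have hT5' : T5 = cub v * (2 * r * P2 + 3 * r ^ 2 - P1) := by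
    have c3 : (P1 + 3 * r ^ 2) * cub v = T1 * (2 * r) - T5 := by
      field_simp at c1
      linear_combination c1
    rw [hT1'] at c3
    linear_combination c3
  -- the equation
  have hf : ez z ![-P1, -(2 * P2), 3] * w = (cub v)⁻¹ • ez z ![A * r ^ 2 - B * r + C',
      2 * A * r - B, A] := by
    rw [e2, hT1', hT5'] at hk
    simp only [ez, Matrix.cons_val_zero, Matrix.cons_val_one, Matrix.cons_val]
    simp only [add_mul, smul_mul_assoc, one_mul, smul_add, smul_smul] at hk ⊢
    have hk' := congrArg (fun M => (cub v)⁻¹ • M) hk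
    simp only [smul_add, smul_sub, smul_smul] at hk'
    field_simp at hk' ⊢
    linear_combination (norm := module) hk'
  obtain ⟨t', ht', -⟩ := H.inv hu
  obtain ⟨t'', ht''⟩ := H.mul t' ![A * r ^ 2 - B * r + C', 2 * A * r - B, A]
  refine ⟨(cub v)⁻¹ • t'', ?_⟩
  have h3 : w = ez z t' * (ez z ![-P1, -(2 * P2), 3] * w) := by
    rw [← mul_assoc, ht', one_mul]
  rw [← hwv, h3, hf, mul_smul_comm, ht'', ez_smul]

end vz

end Vale.Agent.P011.E6W.H183
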